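import Vale.Agent.P106.U.H958.Sub
import Vale.Agent.P106.U.H300.N2
import Vale.Agent.P106.U.MIC.Props
import Vale.Agent.P106.U.H357.SatVC
import Vale.Agent.P106.U.H84.Ju

/-!
# P106 / U / H958 : the frozen path (helper958)

`frz C k` : the letters of the steps `> k` are replaced by (letter of the step `k`, time digits).  A theorem for every path,
applied to `frz C (j + 1)`, is a theorem for the cells and the positions of `C` at the steps `j`, `j + 1`, with a later letter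
which contains only the TIME digits (and the digits of the slope in the frame of the step `j + 1`), no digits of kappa or of
the line beyond the cell of the step `j + 1`.

* `near1` : `H(cell i b | cell j b) ≤ (4 + 9 log (2 M + 3)) √P(Bad)` for a path; `sub_near` : the same for a cell of
  `sub C σ` given a later cell of `C`; `frz_near`.
* `Th0 C k b i` : time digits of the step `i`, digits of the slope in the frame of the step `k`.
* **`satPhi_frz`** : `PSatPhi` with the later letter `Th0 C (j + 1) b i`.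
* **`satVC_t`**, **`satVZ_t`**, **`satVT_t`** : the (V, Z)-step with the time only.
* **`cha_t`**, **`ju_t`** : chain and junction with the time only.
-/

set_option autoImplicit false

namespace Vale.Agent.P106.U.H958

open Finset Vale.Agent.P127 Vale.Agent.P127.Stk Vale.Agent.P106.U.Cell
open Vale.Agent.P127.U.Mic (colp)
open Vale.Agent.P127.U.CellD (q2 rd Nb q2_pos q2_add q2_le q2_mul_pow fl1_fl1)

variable {Ω τ : Type}

/-! ### near-nested cells -/

section near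

variable [Fintype Ω] {K : ℝ} {i j b : ℕ}

/-- **a later cell determines the cell**, entropy form -/
theorem near1 (P : Law Ω) (C : Pth Ω τ) (h1 : 1 ≤ K) (hok : ∀ ω, 0 < P.w ω → C.Ok K ω) (hij : i ≤ j)
    (hli : C.Lev i b) (hlj : C.Lev j b) (ha : C.a i + 2 * C.μ ≤ C.a j) (hR : C.R i b + C.μ ≤ C.R j b) :
    hc P (C.cell i b) (C.cell j b) ≤
      (4 + 9 * Real.log (2 * H300.MK K + 3)) * Real.sqrt (prE P (C.Bad (640 * K ^ 7) i b)) := by
  set M := H300.MK K with hM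
  set S : Ω → ℤ := fun ω => fl1 (C.R i b - 3 * C.μ) (C.sl i b ω + C.o 4) with hS
  set B : Ω → Prop := C.Bad (640 * K ^ 7) i b with hB
  have hcell : ∀ ω ω', 0 < P.w ω → 0 < P.w ω' → ¬ B ω → C.cell j b ω = C.cell j b ω' →
      C.cell i b ω = C.cell i b ω' := fun ω ω' p p' n e =>
    Pth.cell_down h1 (hok ω p) (hok ω' p') hij hli hlj ha hR n e
  -- the slope digits
  have e1 : hc P S (C.cell j b) ≤ (2 + Real.log ((2 * M + 3 : ℕ) : ℝ)) * Real.sqrt (prE P B) := by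
    refine H364.nhc P S (C.cell j b) B (2 * M + 3) (by omega) ?_ ?_
    · intro ω ω' p p' n _ e
      have h := hcell ω ω' p p' n e
      exact (Pth.cell_iff.1 h).2.2 4
    · intro ω hω
      set z := S ω with hz
      refine ⟨Finset.Icc (z - (M + 1)) (z + (M + 1)), ?_, fun ω' hω' e => ?_⟩
      · rw [Int.card_Icc]
        omega
      · have h2 := H300.sl_clo h1 (hok ω hω) (hok ω' hω') hij hli e.symm
        have h3 : |(C.sl i b ω' + C.o 4) - (C.sl i b ω + C.o 4)| ≤ (M : ℕ) * q2 (C.R i b - 3 * C.μ) := by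
          rw [add_sub_add_right_eq_sub]
          exact h2.trans (mul_le_mul_of_nonneg_right (H300.le_MK K) (q2_pos _).le)
        have h4 := H364.fl1_le_of_near h3
        have h5 : |S ω' - z| ≤ M + 1 := h4
        rw [Finset.mem_Icc]
        have := abs_le.1 h5
        constructor <;> linarith
  -- the cell
  have e2 := H364.nhc_cell P C (fun ω => (S ω, C.cell j b ω)) B (M := M) (i := i) (b := b)
    (fun ω ω' p _ e => H300.clo_of_cell h1 (hok ω p) hij hli (congrArg Prod.snd e) (congrArg Prod.fst e))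
    (fun ω ω' p p' n _ e => congrArg Prod.snd (hcell ω ω' p p' n (congrArg Prod.snd e)))
  have e3 := hc_pair P S (C.cell i b) (C.cell j b)
  have e4 : hc P (C.cell i b) (C.cell j b) ≤ hc P (fun ω => (S ω, C.cell i b ω)) (C.cell j b) :=
    hc_mono_left P fun ω ω' _ _ e => congrArg Prod.snd (congrArg Prod.fst e)
  push_cast at e1
  nlinarith

/-- **a later cell of `C` determines the cell of `sub C σ`**, entropy form -/
theorem sub_near (P : Law Ω) (C : Pth Ω τ) {σ : ℕ → ℕ} {hm : Monotone σ} {hl : ∀ i, σ i ≤ i} (h1 : 1 ≤ K)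
    (hok : ∀ ω, 0 < P.w ω → C.Ok K ω) (hij : i < j) (hli : (sub C σ hm hl).Lev i b) (hlj : C.Lev j b)
    (ha : C.a i + 2 * C.μ ≤ C.a j) (hR : (sub C σ hm hl).R i b + C.μ ≤ C.R j b) :
    hc P ((sub C σ hm hl).cell i b) (C.cell j b) ≤ (4 + 9 * Real.log (2 * H300.MK (2 * K) + 3)) *
      Real.sqrt (prE P ((sub C σ hm hl).Bad (640 * (2 * K) ^ 7) i b)) := by
  have e1 : mixS σ i j = j := by unfold mixS; rw [if_neg (by omega)]
  have e2 : σ i = mixS σ i i := by unfold mixS; rw [if_pos le_rfl]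
  have hm2 := mixS_mono hm hl i
  have hl2 := mixS_le hl i
  have h := near1 P (sub C (mixS σ i) hm2 hl2) (K := 2 * K) (by linarith) (fun ω p => sub_Ok (hok ω p)) hij.le
    (b := b) ((sub_Lev_congr e2 b).1 hli) ((sub_Lev e1 b).2 hlj) ha (by
      rw [← sub_R_congr (hm := hm) (hl := hl) e2, sub_R e1]
      exact hR)
  have a1 : hc P ((sub C σ hm hl).cell i b) (C.cell j b) =
      hc P ((sub C (mixS σ i) hm2 hl2).cell i b) ((sub C (mixS σ i) hm2 hl2).cell j b) := by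
    refine hc_congr P ?_ ?_ ?_ ?_
    · intro ω ω' _ _ e
      simp only [Prod.mk.injEq] at e
      rw [sub_cell_congr (hm' := hm2) (hl' := hl2) e2, sub_cell_congr (hm' := hm2) (hl' := hl2) e2]
      exact e.1
    · intro ω ω' _ _ e
      simp only [Prod.mk.injEq] at e
      rw [← sub_cell_congr (hm := hm) (hl := hl) e2, ← sub_cell_congr (hm := hm) (hl := hl) e2]
      exact e.1
    · intro ω ω' _ _ e
      exact (sub_cell_iff e1).1 e
    · intro ω ω' _ _ e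
      exact (sub_cell_iff e1).2 e
  have a2 : prE P ((sub C (mixS σ i) hm2 hl2).Bad (640 * (2 * K) ^ 7) i b) =
      prE P ((sub C σ hm hl).Bad (640 * (2 * K) ^ 7) i b) := by
    congr 1
    funext ω
    exact propext (sub_Bad_congr (hm := hm2) (hl := hl2) (hm' := hm) (hl' := hl) e2.symm b _ ω)
  rw [a1, ← a2]
  exact h

end near

/-! ### the frozen path -/

/-- `i ↦ min i k` -/
def frzS (k i : ℕ) : ℕ := min i k

lemma frzS_mono (k : ℕ) : Monotone (frzS k) := fun _ _ h => min_le_min_right k h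

lemma frzS_le (k i : ℕ) : frzS k i ≤ i := min_le_left i k

lemma frzS_eq {k i : ℕ} (h : i ≤ k) : frzS k i = i := min_eq_left h

/-- the letters of the steps `> k` : the letter of the step `k` and the time digits -/
noncomputable def frz (C : Pth Ω τ) (k : ℕ) : Pth Ω (τ × ℤ) := sub C (frzS k) (frzS_mono k) (frzS_le k)

section frz

variable {C : Pth Ω τ} {i j k b : ℕ} {ω ω' : Ω} {K : ℝ}

lemma frz_T (i : ℕ) (ω : Ω) : (frz C k).T i ω = (C.T (min i k) ω, fl1 (C.a i) (C.t ω)) := rfl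

lemma frz_rk (i : ℕ) : (frz C k).rk i = C.rk (min i k) := rfl

lemma frz_R (h : i ≤ k) (b : ℕ) : (frz C k).R i b = C.R i b := sub_R (frzS_eq h) b

lemma frz_Lev (h : i ≤ k) (b : ℕ) : (frz C k).Lev i b ↔ C.Lev i b := sub_Lev (frzS_eq h) b

lemma frz_cell_iff (h : i ≤ k) : (frz C k).cell i b ω = (frz C k).cell i b ω' ↔
    C.cell i b ω = C.cell i b ω' := sub_cell_iff (frzS_eq h)

lemma frz_A (h : i ≤ k) (b i' : ℕ) : (frz C k).A i b i' = C.A i b i' := sub_A (frzS_eq h) b i'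

lemma frz_VZ (i b : ℕ) : (frz C k).VZ i b = C.VZ i b := rfl

theorem frz_Ok (hK : C.Ok K ω) : (frz C k).Ok (2 * K) ω := sub_Ok hK

lemma frz_F (h : i ≤ k) (ω : Ω) : (frz C k).F i ω = C.F i ω := sub_F_eq (frzS_eq h) ω

lemma frz_slR (h : i ≤ k) (b : ℕ) (ω : Ω) : H683.slR (frz C k) i b ω = H683.slR C i b ω := by
  unfold H683.slR
  rw [frz_F h]
  have e : (frz C k).bs i b = C.bs i b := sub_bs (frzS_eq h) b
  rw [e]
  rfl

variable [Fintype Ω]

/-- the cell of the frozen path at a later step, from the cell of `C` at a step after it -/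
theorem frz_near (P : Law Ω) (C : Pth Ω τ) (h1 : 1 ≤ K) (hok : ∀ ω, 0 < P.w ω → C.Ok K ω) (hij : i < j)
    (hli : (frz C k).Lev i b) (hlj : C.Lev j b) (ha : C.a i + 2 * C.μ ≤ C.a j)
    (hR : (frz C k).R i b + C.μ ≤ C.R j b) :
    hc P ((frz C k).cell i b) (C.cell j b) ≤ (4 + 9 * Real.log (2 * H300.MK (2 * K) + 3)) *
      Real.sqrt (prE P ((frz C k).Bad (640 * (2 * K) ^ 7) i b)) :=
  sub_near P C h1 hok hij hli hlj ha hR

/-- the time digits -/
noncomputable def td (C : Pth Ω τ) (i : ℕ) (ω : Ω) : ℤ := fl1 (C.a i) (C.t ω)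

omit [Fintype Ω] in
lemma frz_T_iff (i : ℕ) : (frz C k).T i ω = (frz C k).T i ω' ↔ C.T (min i k) ω = C.T (min i k) ω' ∧
    td C i ω = td C i ω' := by
  rw [frz_T, frz_T, Prod.mk.injEq]
  exact Iff.rfl

/-! ### the (V, Z)-step with the time only -/

variable {b' p i' : ℕ}

/-- given the cell of the step `j` the letter of the frozen path is the time -/
lemma mi_frz1 (P : Law Ω) (C : Pth Ω τ) {S : Type*} (Y : Ω → S) {j i' b : ℕ} (hj : j ≤ i') :
    mi P Y ((frz C j).cell i' b) (fun ω => ((frz C j).cell j b ω, (frz C j).T i' ω)) =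
      mi P Y ((frz C j).cell i' b) (fun ω => (C.cell j b ω, td C i' ω)) := by
  refine mi_congr_cond P Y _ ?_ ?_
  · intro ω ω' _ _ e
    simp only [Prod.mk.injEq] at e ⊢
    refine ⟨(frz_cell_iff le_rfl).2 e.1, (frz_T_iff i').2 ⟨?_, e.2⟩⟩
    rw [min_eq_right hj]
    exact (Pth.cell_iff.1 e.1).1
  · intro ω ω' _ _ e
    simp only [Prod.mk.injEq] at e ⊢
    exact ⟨(frz_cell_iff le_rfl).1 e.1, ((frz_T_iff i').1 e.2).2⟩

lemma mi_frz2 (P : Law Ω) (C : Pth Ω τ) {j i' b b' p : ℕ} (hj : j ≤ i') :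
    mi P ((frz C j).T i') (fun ω => ((frz C j).cell j b' ω, fl1 (b + p) (C.l ω).v)) ((frz C j).cell j b) =
      mi P (td C i') (fun ω => (C.cell j b' ω, fl1 (b + p) (C.l ω).v)) (C.cell j b) := by
  have e0 : mi P ((frz C j).T i') (fun ω => ((frz C j).cell j b' ω, fl1 (b + p) (C.l ω).v))
      ((frz C j).cell j b) = mi P ((frz C j).T i') (fun ω => ((frz C j).cell j b' ω, fl1 (b + p) (C.l ω).v))
      (C.cell j b) :=
    mi_congr_cond P _ _ (fun ω ω' _ _ e => (frz_cell_iff le_rfl).2 e) (fun ω ω' _ _ e => (frz_cell_iff le_rfl).1 e)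
  rw [e0]
  refine le_antisymm ?_ ?_
  · refine (mi_mono_left P _ ?_).trans (mi_mono_right P _ ?_)
    · intro ω ω' _ _ e
      simp only [Prod.mk.injEq] at e
      refine (frz_T_iff i').2 ⟨?_, e.1⟩
      rw [min_eq_right hj]
      exact (Pth.cell_iff.1 e.2).1
    · intro ω ω' _ _ e
      simp only [Prod.mk.injEq] at e ⊢
      exact ⟨(frz_cell_iff le_rfl).2 e.1.1, e.1.2⟩
  · refine (mi_mono_left P _ ?_).trans (mi_mono_right P _ ?_)
    · intro ω ω' _ _ e
      simp only [Prod.mk.injEq] at e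
      exact ((frz_T_iff i').1 e.1).2
    · intro ω ω' _ _ e
      simp only [Prod.mk.injEq] at e ⊢
      exact ⟨(frz_cell_iff le_rfl).1 e.1.1, e.1.2⟩

/-- collision in the cell -/
lemma colp_frz (P : Law Ω) (C : Pth Ω τ) {S : Type*} (X : Ω → S) {j b : ℕ} :
    colp P X ((frz C j).cell j b) = colp P X (C.cell j b) :=
  Vale.Agent.P127.U.Mic.colp_congr P (fun _ _ _ _ e => congrArg Prod.fst e) (fun _ _ _ _ e => congrArg Prod.fst e)
    (fun _ _ _ _ e => (frz_cell_iff le_rfl).2 e) (fun _ _ _ _ e => (frz_cell_iff le_rfl).1 e)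

/-- **the (V, Z)-step, time only** : `H357.satVZ` for the frozen path -/
theorem satVZ_t {P : Law Ω} {C : Pth Ω τ} (h1 : 1 ≤ K) (hK : ∀ ω, 0 < P.w ω → C.Ok K ω) (hl : C.Lev j b)
    (hl' : C.Lev j b') (hbb : b + 8 * C.μ ≤ b') (hbp : b + p ≤ b') (hp : C.μ ≤ p) (ha : C.a j + 4 * C.μ ≤ C.a i')
    (hj : j ≤ i') {k m g : ℕ} (hk : k ≤ j) (hkj : C.a j = C.a k + m) (hm : 1 ≤ m) (hmg : m ≤ g) (hg : g ≤ C.μ)
    (hμ : 10 * 2 ^ (m + 5 * g + 4) * (70 * (2 * K) ^ 4 * q2 C.μ) ≤ 1) {ι₁ ι₂ : ℝ}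
    (hi1 : mi P (fun ω => fl1 (b + p) (C.l ω).v) ((frz C j).cell i' b) (fun ω => (C.cell j b ω, td C i' ω)) ≤ ι₁)
    (hi2 : mi P (td C i') (fun ω => (C.cell j b' ω, fl1 (b + p) (C.l ω).v)) (C.cell j b) ≤ ι₂) :
    2 * m * Real.log 2 - (15 + 13 * m * (colp P (fun ω => fl1 (C.a j + g) (C.t ω)) (C.cell j b) +
        colp P (fun ω => fl1 (b + g) (C.l ω).v) (C.cell j b)) +
      2 ^ (22 * g) * (Real.sqrt ι₁ + Real.sqrt ι₂)) ≤
    hc P (C.VZ j b) (fun ω => (C.VZ k b ω, (C.cell j b ω, td C i' ω))) := by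
  have main := H357.satVZ (P := P) (C := frz C j) (K := 2 * K) (b := b) (b' := b') (p := p) (i' := i') (j := j)
    (by linarith) (fun ω hω => frz_Ok (hK ω hω)) ((frz_Lev le_rfl b).2 hl) ((frz_Lev le_rfl b').2 hl') hbb hbp hp ha hj
    hk hkj hm hmg hg hμ (ι₁ := ι₁) (ι₂ := ι₂) ((mi_frz1 P C _ hj).trans_le hi1) ((mi_frz2 P C hj).trans_le hi2)
  have e1 : colp P (fun ω => fl1 ((frz C j).a j + g) ((frz C j).t ω)) ((frz C j).cell j b) =
      colp P (fun ω => fl1 (C.a j + g) (C.t ω)) (C.cell j b) := colp_frz P C _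
  have e2 : colp P (fun ω => fl1 (b + g) ((frz C j).l ω).v) ((frz C j).cell j b) =
      colp P (fun ω => fl1 (b + g) (C.l ω).v) (C.cell j b) := colp_frz P C _
  rw [e1, e2] at main
  refine main.trans (le_of_eq ?_)
  refine hc_congr P ?_ ?_ ?_ ?_
  · exact fun ω ω' _ _ e => congrArg Prod.fst e
  · exact fun ω ω' _ _ e => congrArg Prod.fst e
  · intro ω ω' _ _ e
    simp only [Prod.mk.injEq] at e ⊢
    refine ⟨e.1, (frz_cell_iff le_rfl).2 e.2.1, (frz_T_iff i').2 ⟨?_, e.2.2⟩⟩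
    rw [min_eq_right hj]
    exact (Pth.cell_iff.1 e.2.1).1
  · intro ω ω' _ _ e
    simp only [Prod.mk.injEq] at e ⊢
    exact ⟨e.1, (frz_cell_iff le_rfl).1 e.2.1, ((frz_T_iff i').1 e.2.2).2⟩

/-- **the (V, Z)-step, time only**, with the cell of the earlier step `k` -/
theorem satVT_t {P : Law Ω} {C : Pth Ω τ} (h1 : 1 ≤ K) (hK : ∀ ω, 0 < P.w ω → C.Ok K ω) (hl : C.Lev j b)
    (hl' : C.Lev j b') (hbb : b + 8 * C.μ ≤ b') (hbp : b + p ≤ b') (hp : C.μ ≤ p) (ha : C.a j + 4 * C.μ ≤ C.a i')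
    (hj : j ≤ i') {k k' m g : ℕ} (hk : k ≤ j) (hk' : C.a j = C.a k') (hkj : C.a j = C.a k + m) (hm : 1 ≤ m)
    (hmg : m ≤ g) (hg : g ≤ C.μ) (hμ : 10 * 2 ^ (m + 5 * g + 4) * (70 * (2 * K) ^ 4 * q2 C.μ) ≤ 1) {ι₁ ι₂ : ℝ}
    (hi1 : mi P (fun ω => fl1 (b + p) (C.l ω).v) ((frz C j).cell i' b) (fun ω => (C.cell j b ω, td C i' ω)) ≤ ι₁)
    (hi2 : mi P (td C i') (fun ω => (C.cell j b' ω, fl1 (b + p) (C.l ω).v)) (C.cell j b) ≤ ι₂) :
    2 * (m * Real.log 2) - ((15 + 13 * m * (colp P (fun ω => fl1 (C.a j + g) (C.t ω)) (C.cell j b) +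
        colp P (fun ω => fl1 (b + g) (C.l ω).v) (C.cell j b)) +
      2 ^ (22 * g) * (Real.sqrt ι₁ + Real.sqrt ι₂)) + hc P (C.cell k b) (C.cell j b)) ≤
    hc P (C.VZ k' b) (fun ω => (C.VZ k b ω, (C.cell k b ω, td C i' ω))) := by
  have main := satVZ_t h1 hK hl hl' hbb hbp hp ha hj hk hkj hm hmg hg hμ hi1 hi2
  have es : ∀ ω, C.s k' ω = C.s j ω := by
    intro ω
    unfold Pth.s
    rw [hk']
  have e : C.VZ j b = C.VZ k' b := by
    funext ω
    unfold Pth.VZ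
    rw [es, hk']
  rw [e] at main
  have s1 := hc_le_add' P (C.VZ k' b) (C.cell k b) (fun ω => (C.VZ k b ω, (C.cell j b ω, td C i' ω)))
  have s2 : hc P (C.VZ k' b) (fun ω => (C.cell k b ω, (C.VZ k b ω, (C.cell j b ω, td C i' ω)))) ≤
      hc P (C.VZ k' b) (fun ω => (C.VZ k b ω, (C.cell k b ω, td C i' ω))) :=
    hc_mono_right P _ fun ω ω' _ _ e => by
      simp only [Prod.mk.injEq] at e ⊢
      exact ⟨e.2.1, e.1, e.2.2.2⟩
  have s3 : hc P (C.cell k b) (fun ω => (C.VZ k b ω, (C.cell j b ω, td C i' ω))) ≤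
      hc P (C.cell k b) (C.cell j b) :=
    hc_mono_right P _ fun ω ω' _ _ e => by
      simp only [Prod.mk.injEq] at e
      exact e.2.1
  linarith

/-! ### chain and junction with the time only -/

/-- **[CHA], time only** -/
theorem cha_t (P : Law Ω) (C : Pth Ω τ) (h1 : 1 ≤ K) (hok : ∀ ω, 0 < P.w ω → C.Ok K ω) (hj : j + 1 ≤ i')
    (hL : C.Lev j b) :
    hc P (C.A j b i') (fun ω => (C.A (j + 1) b i' ω, (C.T (j + 1) ω, td C i' ω))) ≤
      2 * Real.log ((2 * ⌈118 * (2 * K) ^ 5⌉₊ + 3 : ℕ) : ℝ) := by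
  have h := H84.cha (frz C (j + 1)) P (K := 2 * K) (by linarith) (fun ω hω => frz_Ok (hok ω hω)) (j := j) (b := b)
    (i' := i') hj ((frz_Lev (Nat.le_succ j) b).2 hL)
  rw [frz_A (Nat.le_succ j), frz_A le_rfl] at h
  refine le_trans (hc_mono_right P _ fun ω ω' _ _ e => ?_) h
  simp only [Prod.mk.injEq] at e ⊢
  refine ⟨e.1, ?_⟩
  have h2 := (frz_T_iff (C := C) (k := j + 1) (ω := ω) (ω' := ω') i').2 ⟨by rw [min_eq_right hj]; exact e.2.1, e.2.2⟩
  exact h2

/-- **[JU], time only** -/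
theorem ju_t (P : Law Ω) (C : Pth Ω τ) (hk : k ≤ i') (hL : C.Lev k b) :
    hc P (C.A k b i') (fun ω => (td C i' ω, C.cell k b ω)) ≤ 15 * C.μ * Real.log 2 + Real.log 18865 := by
  have h := H84.ju (C := frz C k) P (k := k) (b := b) (i' := i') hk ((frz_Lev le_rfl b).2 hL)
  rw [frz_A le_rfl] at h
  refine le_trans (hc_mono_right P _ fun ω ω' _ _ e => ?_) h
  simp only [Prod.mk.injEq] at e ⊢
  refine ⟨(frz_T_iff i').2 ⟨?_, e.1⟩, (frz_cell_iff le_rfl).2 e.2⟩
  rw [min_eq_right hk]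
  exact (Pth.cell_iff.1 e.2).1

/-! ### the N-step in the phi regime -/

/-- time digits of the step `i` and digits of the slope, in the frame of the step `k` -/
noncomputable def Th0 (C : Pth Ω τ) (k b i : ℕ) (ω : Ω) : ℤ × ℤ :=
  (td C i ω, fl1 (C.rf i) (H683.slR (frz C k) i b ω + C.o 4))

/-- **the N-step in the phi regime with a later letter without kappa** : `PSatPhi` for the frozen path -/
theorem satPhi_frz (h : MIC.PSatPhi) : ∃ c : ℕ, ∀ {Ω τ : Type} [Fintype Ω] (P : Law Ω) (C : Pth Ω τ) (K : ℝ)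
    (c0 m g p b b' j i : ℕ) (ι₁ ι₂ : ℝ), (∀ ω, 0 < P.w ω → C.Ok K ω) →
    j + 1 ≤ i → 8 * C.μ ≤ b → 8 * C.μ ≤ C.rf j → C.a (j + 1) + 8 * C.μ ≤ C.a i → C.rf (j + 1) + 8 * C.μ ≤ C.rf i →
    C.rf (j + 1) + C.a i + 8 * C.μ ≤ b + C.rk (j + 1) + C.a (j + 1) →
    C.rf j + C.a i + 8 * C.μ ≤ b + C.rk j + C.a j → C.rf i ≤ b + C.rk (j + 1) → MIC.Adv C m b j →
    b + 8 * C.μ ≤ b' → C.μ ≤ p → b + p ≤ b' → 4 * K ≤ 2 ^ c0 → 1 ≤ m → m ≤ g → c * (g + c0 + 1) ≤ C.μ →
    mi P (fun ω => fl1 (b + p) (C.l ω).v) ((frz C (j + 1)).cell i b)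
      (fun ω => (H683.Dp C (j + 1) b ω, Th0 C (j + 1) b i ω)) ≤ ι₁ →
    mi P (Th0 C (j + 1) b i) (C.cell (j + 1) b') (H683.Dp C (j + 1) b) ≤ ι₂ →
    MIC.wt C b j * Real.log 2 - (c * (c0 + 1) + c * m * (MIC.cT P C b (j + 1) g + MIC.cF P C b (j + 1) g +
      MIC.cY P C b (j + 1) g) + (2 : ℝ) ^ (c * (g + c0 + 1)) * (Real.sqrt ι₁ + Real.sqrt ι₂)) ≤
    hc P (C.A (j + 1) b i) (fun ω => (C.A j b i ω, (C.cell (j + 1) b ω, Th0 C (j + 1) b i ω))) := by
  obtain ⟨c, h⟩ := h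
  refine ⟨c, ?_⟩
  intro Ω τ _ P C K c0 m g p b b' j i ι₁ ι₂ hok hji hb hf ha hrf hr1 hr0 hri hadv hbb hp hbp hK hm hmg hμ hi1 hi2
  have hj1 : j ≤ j + 1 := Nat.le_succ j
  have hmin : min i (j + 1) = j + 1 := min_eq_right hji
  have haj := C.ha hj1
  have hfj := C.hf hj1
  have R1 : H683.Reg (frz C (j + 1)) (j + 1) i b := by
    refine ⟨hji, hb, ?_, ha, hrf, ?_, ?_⟩
    · show 8 * C.μ ≤ C.rf (j + 1); omega
    · show C.rf (j + 1) + C.a i + 8 * C.μ ≤ b + C.rk (min (j + 1) (j + 1)) + C.a (j + 1)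
      rw [min_self]; exact hr1
    · show C.rf i ≤ b + C.rk (min i (j + 1))
      rw [hmin]; exact hri
  have R0 : H683.Reg (frz C (j + 1)) j i b := by
    refine ⟨by omega, hb, hf, ?_, ?_, ?_, ?_⟩
    · show C.a j + 8 * C.μ ≤ C.a i; omega
    · show C.rf j + 8 * C.μ ≤ C.rf i; omega
    · show C.rf j + C.a i + 8 * C.μ ≤ b + C.rk (min j (j + 1)) + C.a j
      rw [min_eq_left hj1]; exact hr0
    · show C.rf i ≤ b + C.rk (min i (j + 1))
      rw [hmin]; exact hri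
  have eR : (frz C (j + 1)).R j b = C.R j b := frz_R hj1 b
  have eR1 : (frz C (j + 1)).R (j + 1) b = C.R (j + 1) b := frz_R le_rfl b
  have hadv' : MIC.Adv (frz C (j + 1)) m b j := by
    unfold MIC.Adv at hadv ⊢
    rw [eR, eR1]
    exact hadv
  -- the letters
  have eTh : ∀ ω, MIC.Th (frz C (j + 1)) b i ω = ((frz C (j + 1)).T i ω, (Th0 C (j + 1) b i ω).2) := by
    intro ω
    unfold MIC.Th
    rw [if_pos (show (frz C (j + 1)).rf i ≤ b + (frz C (j + 1)).rk i by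
      show C.rf i ≤ b + C.rk (min i (j + 1)); rw [hmin]; exact hri)]
    rfl
  have eDp : ∀ ω ω', H683.Dp (frz C (j + 1)) (j + 1) b ω = H683.Dp (frz C (j + 1)) (j + 1) b ω' ↔
      H683.Dp C (j + 1) b ω = H683.Dp C (j + 1) b ω' := by
    intro ω ω'
    unfold H683.Dp
    rw [frz_slR le_rfl, frz_slR le_rfl]
    simp only [Prod.mk.injEq]
    exact and_congr_left' (frz_cell_iff le_rfl)
  have eTj : ∀ ω ω', H683.Dp C (j + 1) b ω = H683.Dp C (j + 1) b ω' → C.T (j + 1) ω = C.T (j + 1) ω' := by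
    intro ω ω' e
    exact (Pth.cell_iff.1 (congrArg Prod.fst e)).1
  have eThiff : ∀ ω ω', C.T (j + 1) ω = C.T (j + 1) ω' → (MIC.Th (frz C (j + 1)) b i ω =
      MIC.Th (frz C (j + 1)) b i ω' ↔ Th0 C (j + 1) b i ω = Th0 C (j + 1) b i ω') := by
    intro ω ω' hT
    rw [eTh, eTh]
    unfold Th0
    simp only [Prod.mk.injEq]
    refine and_congr_left' ?_
    rw [frz_T_iff, hmin]
    exact ⟨fun e => e.2, fun e => ⟨hT, e⟩⟩
  -- the informations
  have m1 : mi P (fun ω => fl1 (b + p) ((frz C (j + 1)).l ω).v) ((frz C (j + 1)).cell i b)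
      (fun ω => (H683.Dp (frz C (j + 1)) (j + 1) b ω, MIC.Th (frz C (j + 1)) b i ω)) ≤ ι₁ := by
    refine le_trans (le_of_eq ?_) hi1
    refine mi_congr_cond P _ _ ?_ ?_
    · intro ω ω' _ _ e
      simp only [Prod.mk.injEq] at e ⊢
      exact ⟨(eDp ω ω').2 e.1, (eThiff ω ω' (eTj ω ω' e.1)).2 e.2⟩
    · intro ω ω' _ _ e
      simp only [Prod.mk.injEq] at e ⊢
      have e1 := (eDp ω ω').1 e.1
      exact ⟨e1, (eThiff ω ω' (eTj ω ω' e1)).1 e.2⟩
  have m2 : mi P (MIC.Th (frz C (j + 1)) b i) ((frz C (j + 1)).cell (j + 1) b')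
      (H683.Dp (frz C (j + 1)) (j + 1) b) ≤ ι₂ := by
    refine le_trans ?_ hi2
    have e0 : mi P (MIC.Th (frz C (j + 1)) b i) ((frz C (j + 1)).cell (j + 1) b')
        (H683.Dp (frz C (j + 1)) (j + 1) b) = mi P (MIC.Th (frz C (j + 1)) b i) ((frz C (j + 1)).cell (j + 1) b')
        (H683.Dp C (j + 1) b) :=
      mi_congr_cond P _ _ (fun ω ω' _ _ e => (eDp ω ω').2 e) (fun ω ω' _ _ e => (eDp ω ω').1 e)
    rw [e0]
    refine (mi_mono_left P _ ?_).trans (mi_mono_right P _ ?_)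
    · intro ω ω' _ _ e
      simp only [Prod.mk.injEq] at e
      exact (eThiff ω ω' (eTj ω ω' e.2)).2 e.1
    · intro ω ω' _ _ e
      simp only [Prod.mk.injEq] at e
      exact (frz_cell_iff le_rfl).2 e.1
  have main := h P (frz C (j + 1)) (2 * K) c0 m g p b b' j i ι₁ ι₂ (fun ω hω => frz_Ok (hok ω hω)) R1 R0 hadv' hbb hp hbp
    (by linarith) hm hmg hμ m1 m2
  unfold MIC.SatN at main
  have c1 : MIC.wt (frz C (j + 1)) b j = MIC.wt C b j := by
    unfold MIC.wt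
    rw [eR, eR1]
    rfl
  have c2 : ∀ {S : Type} (X : Ω → S), colp P X (H683.Dp (frz C (j + 1)) (j + 1) b) = colp P X (H683.Dp C (j + 1) b) :=
    fun X => Vale.Agent.P127.U.Mic.colp_congr P (fun _ _ _ _ e => congrArg Prod.fst e)
      (fun _ _ _ _ e => congrArg Prod.fst e) (fun ω ω' _ _ e => (eDp ω ω').2 e) (fun ω ω' _ _ e => (eDp ω ω').1 e)
  have c3 : MIC.cT P (frz C (j + 1)) b (j + 1) g = MIC.cT P C b (j + 1) g := c2 _
  have c4 : MIC.cF P (frz C (j + 1)) b (j + 1) g = MIC.cF P C b (j + 1) g := by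
    unfold MIC.cF
    rw [c2]
    simp only [frz_slR le_rfl]
    rfl
  have c5 : MIC.cY P (frz C (j + 1)) b (j + 1) g = MIC.cY P C b (j + 1) g := c2 _
  rw [c1, c3, c4, c5, frz_A le_rfl, frz_A hj1] at main
  refine main.trans (le_of_eq ?_)
  refine hc_congr P (fun ω ω' _ _ e => congrArg Prod.fst e) (fun ω ω' _ _ e => congrArg Prod.fst e) ?_ ?_
  · intro ω ω' _ _ e
    simp only [Prod.mk.injEq] at e ⊢
    exact ⟨e.1, (frz_cell_iff le_rfl).2 e.2.1, (eThiff ω ω' (Pth.cell_iff.1 e.2.1).1).2 e.2.2⟩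
  · intro ω ω' _ _ e
    simp only [Prod.mk.injEq] at e ⊢
    have e1 := (frz_cell_iff le_rfl).1 e.2.1
    exact ⟨e.1, e1, (eThiff ω ω' (Pth.cell_iff.1 e1).1).1 e.2.2⟩

end frz

end Vale.Agent.P106.U.H958
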