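import Vale.Agent.P106.U.H958.FzL
import Vale.Agent.P106.U.H513.F1

/-!
# P106 / U / H958 : the near bounds of the young steps over the record, and their sums (helper958), [FZ-SUM]

`Dd = mt ..` (kappa regime) or `mt0 ..` (deep phi regime); `k` the step of the frozen letter, `i ≥ k` the later step of F1, `j`
a still later step.

* `cF K`, `nF` : constant, the exceptional events of a pair.
* **`n1K`**, **`n1P`** : `H((fz k k).cell i b, LDk k, LTh i | mtr j b) ≤ cF K · nF`.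
* `lvP` : the levels asked by `n1P` for `k ∈ IdP`, `i ∈ At' d k`.
* **`n2K`**, **`n2P`** : the sum of `nF` over a family of pairs (`offK` / `offP`, `offL`).
-/

set_option autoImplicit false

namespace Vale.Agent.P106.U.H958

open Finset Vale.Agent.P127 Vale.Agent.P127.Stk Vale.Agent.P106.U.Cell
open Vale.Agent.P106.U.H785.Mtr
open Vale.Agent.P127.U.CellD (q2 rd Nb q2_pos q2_add q2_le q2_mul_pow fl1_fl1 rd_err rd_sub)
open Vale.Agent.P106.U.H101 (lc)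

section abs

variable {Ω π : Type} [Fintype Ω] {D : Mtd Ω π} {k' k i j b : ℕ} {K : ℝ} {I : Set ℕ}

theorem prE_or_add (P : Law Ω) (E F : Ω → Prop) : prE P (fun ω => E ω ∨ F ω) ≤ prE P E + prE P F := by
  classical
  unfold prE
  rw [Finset.sum_filter, Finset.sum_filter, Finset.sum_filter, ← Finset.sum_add_distrib]
  refine Finset.sum_le_sum fun ω _ => ?_
  have h0 := P.nn ω
  by_cases hE : E ω <;> by_cases hE' : F ω <;> (simp [hE, hE']; try linarith)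

omit [Fintype Ω] in
theorem nb_mono {n : ℕ} {z ε ε' : ℝ} (h : Nb n z ε) (he : ε ≤ ε') : Nb n z ε' := by
  by_contra hn
  obtain ⟨y, h1, h2, h3⟩ := h
  have h4 : 0 ≤ ε := by linarith
  refine h3 (Vale.Agent.P127.U.CellD.Nb.eq hn ?_ ?_)
  · rw [abs_le]
    constructor <;> linarith
  · rw [abs_le]
    constructor <;> linarith

theorem prE_sub (P : Law Ω) {E F : Ω → Prop} (h : ∀ ω, E ω → F ω) : prE P E ≤ prE P F :=
  H122.prE_mono' P fun ω _ => h ω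

theorem sqrt_add_le' {x y : ℝ} (hx : 0 ≤ x) (hy : 0 ≤ y) : Real.sqrt (x + y) ≤ Real.sqrt x + Real.sqrt y :=
  H513.sqrt_add5 hx hy

open Classical in
/-- **cell and letter of the later step of the frozen path, given the letter and a still later `mtr`** -/
theorem hc_fzL_down (P : Law Ω) (H : Dz D K I k' k i j b) (hy : ∀ ω, 0 < P.w ω → D.Hy K I ω)
    (hS : D.rf i ≤ b + D.rr k → D.rf i + 4 * D.μ ≤ D.R j b ∧ D.rf i + 4 * D.μ ≤ D.rr k + b) :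
    hc P (fun ω => ((D.fz k' k).cell i b ω, S3.LTh (D.fz k' k) b i ω)) (fun ω => (D.lt k ω, D.mtr j b ω)) ≤
      cZ1 K * Real.sqrt (prE P ((D.fz k' k).Bad (640 * (8 * K) ^ 7) i b)) +
      cZ2 K * Real.sqrt (prE P (H683.Badf (D.fz k' k) (8 * K) i b (D.rf i) (D.rf i + D.μ))) := by
  have a1 := hc_fz_down P H hy
  set S : Ω → ℤ := fun ω => if D.rf i ≤ b + D.rr k then fl1 (D.rf i) (H683.slR (D.fz k' k) i b ω + D.o 4) else 0
    with hSd
  have a2 : hc P S (fun ω => (D.lt k ω, D.mtr j b ω)) ≤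
      cZ2 K * Real.sqrt (prE P (H683.Badf (D.fz k' k) (8 * K) i b (D.rf i) (D.rf i + D.μ))) := by
    by_cases h : D.rf i ≤ b + D.rr k
    · have e := hc_fzS_down P H hy (hS h).1 (hS h).2
      have e2 : S = fun ω => fl1 (D.rf i) (H683.slR (D.fz k' k) i b ω + D.o 4) := by
        funext ω
        rw [hSd]
        simp only [h, if_true]
      rw [e2]
      exact e
    · have e2 : hc P S (fun ω => (D.lt k ω, D.mtr j b ω)) = 0 := by
        refine hc_zero P ?_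
        intro ω ω' _ _ _
        rw [hSd]
        simp only [h, if_false]
      rw [e2]
      have h0 : 0 ≤ cZ2 K := by
        unfold cZ2
        have : 0 ≤ Real.log (2 * ⌈64 * (8 * K) ^ 6⌉₊ + 3) := Real.log_nonneg (by
          have : (0 : ℝ) ≤ (⌈64 * (8 * K) ^ 6⌉₊ : ℝ) := Nat.cast_nonneg _
          linarith)
        linarith
      exact mul_nonneg h0 (Real.sqrt_nonneg _)
  have b2 : hc P (fun ω => ((D.fz k' k).cell i b ω, S3.LTh (D.fz k' k) b i ω)) (fun ω => (D.lt k ω, D.mtr j b ω)) ≤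
      hc P (fun ω => ((D.fz k' k).cell i b ω, S ω)) (fun ω => (D.lt k ω, D.mtr j b ω)) := by
    refine hc_mono_left P (X' := fun ω => ((D.fz k' k).cell i b ω, S ω)) ?_
    intro ω ω' _ _ e
    simp only [Prod.mk.injEq] at e
    obtain ⟨⟨e1, e2⟩, _⟩ := e
    refine Prod.ext e1 ?_
    have eT : (D.fz k' k).T i ω = (D.fz k' k).T i ω' := congrArg Prod.fst e1
    refine Prod.ext eT ?_
    show (if (D.fz k' k).rf i ≤ b + (D.fz k' k).rk i then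
        fl1 ((D.fz k' k).rf i) (H683.slR (D.fz k' k) i b ω + (D.fz k' k).o 4) else 0) =
      (if (D.fz k' k).rf i ≤ b + (D.fz k' k).rk i then
        fl1 ((D.fz k' k).rf i) (H683.slR (D.fz k' k) i b ω' + (D.fz k' k).o 4) else 0)
    rw [Mtd.fz_rf D (H.kk.trans H.ki), fz_rk' H.kk H.ki]
    exact e2
  have b3 := hc_pair P ((D.fz k' k).cell i b) S (fun ω => (D.lt k ω, D.mtr j b ω))
  have b4 : hc P S (fun ω => ((D.fz k' k).cell i b ω, (D.lt k ω, D.mtr j b ω))) ≤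
      hc P S (fun ω => (D.lt k ω, D.mtr j b ω)) :=
    hc_mono_right P _ fun _ _ _ _ e => congrArg Prod.snd e
  have b6 : hc P ((D.fz k' k).cell i b) (fun ω => (D.lt k ω, D.mtr j b ω)) ≤
    cZ1 K * Real.sqrt (prE P ((D.fz k' k).Bad (640 * (8 * K) ^ 7) i b)) := a1
  linarith

/-- three letters from two pairs -/
theorem hc_triple {σ : Type} (P : Law Ω) (C : Pth Ω σ) (k i b : ℕ) {T : Type*} (Y : Ω → T) :
    hc P (fun ω => (C.cell i b ω, (S3.LDk C b k ω, S3.LTh C b i ω))) Y ≤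
      hc P (fun ω => (C.cell i b ω, S3.LTh C b i ω)) Y + hc P (fun ω => (C.cell k b ω, S3.LTh C b k ω)) Y := by
  have h1 : hc P (fun ω => (C.cell i b ω, (S3.LDk C b k ω, S3.LTh C b i ω))) Y ≤
      hc P (fun ω => ((C.cell i b ω, S3.LTh C b i ω), (C.cell k b ω, S3.LTh C b k ω))) Y := by
    refine hc_mono_left P ?_
    intro ω ω' _ _ e
    simp only [Prod.mk.injEq] at e
    obtain ⟨⟨⟨e1, e2⟩, e3, e4⟩, _⟩ := e
    have e5 := congrArg Prod.snd e4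
    exact Prod.ext e1 (Prod.ext (Prod.ext e3 e5) e2)
  have h2 := hc_pair P (fun ω => (C.cell i b ω, S3.LTh C b i ω)) (fun ω => (C.cell k b ω, S3.LTh C b k ω)) Y
  have h3 : hc P (fun ω => (C.cell k b ω, S3.LTh C b k ω)) (fun ω => ((C.cell i b ω, S3.LTh C b i ω), Y ω)) ≤
      hc P (fun ω => (C.cell k b ω, S3.LTh C b k ω)) Y := hc_mono_right P _ fun _ _ _ _ e => congrArg Prod.snd e
  linarith

end abs

/-! ### the record -/

/-- the constant -/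
noncomputable def cF (K : ℝ) : ℝ := cZ1 (4 * K) + cZ2 (4 * K) + cZ3 ⌈641 * (4 * K) ^ 2⌉₊

section run

variable {Ω : Type} [Fintype Ω] {τ υ π : Type}
variable {R : S3.Run Ω τ υ} {p : S3.Run.Num} {K c' g' gU K' : ℝ} {B bS bV μ : ℕ} {F : S3.Pf R π} {Vs Xs : Finset ℕ}
  {o : Fin 7 → ℝ} {o' : ℕ → ℝ} {i j k b : ℕ}

/-- event of kappa / gamma of the letter of the step `k` -/
noncomputable def ek (R : S3.Run Ω τ υ) (μ : ℕ) (o' : ℕ → ℝ) (K' : ℝ) (k : ℕ) : ℝ :=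
  prE R.Q (fun ω => Nb (R.C.rk k - μ / 2) (S3.kaL R k ω + o' 0) (K' * q2 (R.C.rk k)))

noncomputable def eu (R : S3.Run Ω τ υ) (μ : ℕ) (o : Fin 7 → ℝ) (o' : ℕ → ℝ) (K' : ℝ) (k : ℕ) : ℝ :=
  prE R.Q (fun ω => Nb (R.C.rk k - μ / 2) (S3.uL R o k ω + o' 1) (K' * q2 (R.C.rk k)))

/-- **the exceptional events of a pair** `(k, i)` -/
noncomputable def nF {π' : Type} (R : S3.Run Ω τ υ) (D : Mtd Ω π') (μ : ℕ) (o : Fin 7 → ℝ) (o' : ℕ → ℝ) (K' : ℝ)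
    (k i b : ℕ) : ℝ :=
  Real.sqrt (S3.exc R.Q (D.fz k k) K' i b) + Real.sqrt (S3.exc R.Q (D.fz k k) K' k b) +
    Real.sqrt (ek R μ o' K' k) + Real.sqrt (eu R μ o o' K' k)

/-- prefix letters along the record -/
lemma pf_fn (hf : S3.F2 R p K B bS bV F Vs Xs) (hkj : k ≤ j) (hj : j ≤ R.n + p.J) : Fn R.Q (F.pf k) (F.pf j) := by
  induction j, hkj using Nat.le_induction with
  | base => exact fun _ _ _ _ e => e
  | succ j hj' ih => exact fun ω ω' h h' e => ih (by omega) ω ω' h h' (hf.pfH j (by omega) ω ω' h h' e)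

lemma num7 (h1 : 1 ≤ K) (hK' : (100 * K) ^ 20 ≤ K') : 640 * (8 * (4 * K)) ^ 7 ≤ K' := by
  have h2 : K ^ 7 ≤ K ^ 20 := pow_le_pow_right₀ h1 (by norm_num)
  have h0 : 0 ≤ K ^ 7 := by positivity
  calc 640 * (8 * (4 * K)) ^ 7 = 640 * 32 ^ 7 * K ^ 7 := by ring
    _ ≤ 100 ^ 20 * K ^ 7 := mul_le_mul_of_nonneg_right (by norm_num) h0
    _ ≤ 100 ^ 20 * K ^ 20 := mul_le_mul_of_nonneg_left h2 (by norm_num)
    _ = (100 * K) ^ 20 := by ring
    _ ≤ K' := hK'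

lemma num6 (h1 : 1 ≤ K) (hK' : (100 * K) ^ 20 ≤ K') : 64 * (8 * (4 * K)) ^ 6 ≤ K' := by
  have h2 : K ^ 6 ≤ K ^ 20 := pow_le_pow_right₀ h1 (by norm_num)
  have h0 : 0 ≤ K ^ 6 := by positivity
  calc 64 * (8 * (4 * K)) ^ 6 = 64 * 32 ^ 6 * K ^ 6 := by ring
    _ ≤ 100 ^ 20 * K ^ 6 := mul_le_mul_of_nonneg_right (by norm_num) h0
    _ ≤ 100 ^ 20 * K ^ 20 := mul_le_mul_of_nonneg_left h2 (by norm_num)
    _ = (100 * K) ^ 20 := by ring
    _ ≤ K' := hK'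

lemma num1 (h1 : 1 ≤ K) (hK' : (100 * K) ^ 20 ≤ K') : 3 * (4 * K) ≤ K' ∧ 19 * (4 * K) ≤ K' := by
  have h2 : K ≤ K ^ 20 := le_self_pow₀ h1 (by norm_num)
  have h3 : 100 ^ 20 * K ≤ K' := by
    calc 100 ^ 20 * K ≤ 100 ^ 20 * K ^ 20 := mul_le_mul_of_nonneg_left h2 (by norm_num)
      _ = (100 * K) ^ 20 := by ring
      _ ≤ K' := hK'
  constructor <;> linarith

/-- exceptional events with the constant `K'` -/
lemma ev_bad {σ : Type} (P : Law Ω) (C : Pth Ω σ) {K1 : ℝ} (h : K1 ≤ K') (i b : ℕ) :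
    prE P (C.Bad K1 i b) ≤ S3.exc P C K' i b := by
  have h1 : prE P (C.Bad K1 i b) ≤ prE P (C.Bad K' i b) := prE_sub P fun ω e => Pth.Bad_mono h e
  have h2 := prE_nonneg P (H420.BadS C K' i b)
  have h3 := prE_nonneg P (H300.BadR C K' i b)
  unfold S3.exc
  linarith

lemma ev_bads {σ : Type} (P : Law Ω) (C : Pth Ω σ) {K1 : ℝ} (h : 64 * K1 ^ 6 ≤ K') (i b : ℕ) :
    prE P (H683.Badf C K1 i b (C.rf i) (C.rf i + C.μ)) ≤ S3.exc P C K' i b := by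
  have h1 : prE P (H683.Badf C K1 i b (C.rf i) (C.rf i + C.μ)) ≤ prE P (H420.BadS C K' i b) := prE_sub P fun ω e =>
    nb_mono e (mul_le_mul_of_nonneg_right h (q2_pos _).le)
  have h2 := prE_nonneg P (C.Bad K' i b)
  have h3 := prE_nonneg P (H300.BadR C K' i b)
  unfold S3.exc
  linarith

section ok

variable (hok : R.Ok p K c' g' gU) (hf : S3.F2 R p K B bS bV F Vs Xs) (h1 : 1 ≤ K)
  (hB : (100 * K) ^ 20 ≤ (B : ℝ)) (hr : 100 * (R.m * B) ≤ R.r0) (hμB : μ ≤ B) (hμ : μ ≤ R.C.μ)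
  (hK' : (100 * K) ^ 20 ≤ K')

include h1 hK' in
/-- the events of the letter, kind kappa -/
theorem bdI_K (h : k ≤ j) (b : ℕ) : prE R.Q (H122.BdI (S3.mt R F μ o o') (4 * K) k j b h) ≤
    S3.exc R.Q ((S3.mt R F μ o o').fz k k) K' k b + ek R μ o' K' k + eu R μ o o' K' k := by
  obtain ⟨n1, n2⟩ := num1 h1 hK'
  have e1 := ev_bad R.Q ((S3.mt R F μ o o').fz k k) (num7 h1 hK') k b
  have q := q2_pos (R.C.rk k)
  have a1 : prE R.Q (fun ω => Nb (R.C.rk k - μ / 2) (S3.kaL R k ω + o' 0) (3 * (4 * K) * q2 (R.C.rk k))) ≤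
      ek R μ o' K' k := prE_sub R.Q fun ω e => nb_mono e (mul_le_mul_of_nonneg_right n1 q.le)
  have a2 : prE R.Q (fun ω => Nb (R.C.rk k - μ / 2) (S3.uL R o k ω + o' 1) (19 * (4 * K) * q2 (R.C.rk k))) ≤
      eu R μ o o' K' k := prE_sub R.Q fun ω e => nb_mono e (mul_le_mul_of_nonneg_right n2 q.le)
  have b1 := prE_or_add R.Q (((S3.mt R F μ o o').p2 k j h).Bad (640 * (8 * (4 * K)) ^ 7) 0 b)
    (fun ω => Nb (R.C.rk k - μ / 2) (S3.kaL R k ω + o' 0) (3 * (4 * K) * q2 (R.C.rk k)) ∨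
      Nb (R.C.rk k - μ / 2) (S3.uL R o k ω + o' 1) (19 * (4 * K) * q2 (R.C.rk k)))
  have b2 := prE_or_add R.Q (fun ω => Nb (R.C.rk k - μ / 2) (S3.kaL R k ω + o' 0) (3 * (4 * K) * q2 (R.C.rk k)))
      (fun ω => Nb (R.C.rk k - μ / 2) (S3.uL R o k ω + o' 1) (19 * (4 * K) * q2 (R.C.rk k)))
  have b3 : prE R.Q (((S3.mt R F μ o o').p2 k j h).Bad (640 * (8 * (4 * K)) ^ 7) 0 b) ≤
      prE R.Q (((S3.mt R F μ o o').fz k k).Bad (640 * (8 * (4 * K)) ^ 7) k b) :=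
    prE_sub R.Q fun ω e => (bad_p2 _ k j b h _ ω).1 e
  have b4 : prE R.Q (H122.BdI (S3.mt R F μ o o') (4 * K) k j b h) ≤
      prE R.Q (fun ω => ((S3.mt R F μ o o').p2 k j h).Bad (640 * (8 * (4 * K)) ^ 7) 0 b ω ∨
        (Nb (R.C.rk k - μ / 2) (S3.kaL R k ω + o' 0) (3 * (4 * K) * q2 (R.C.rk k)) ∨
      Nb (R.C.rk k - μ / 2) (S3.uL R o k ω + o' 1) (19 * (4 * K) * q2 (R.C.rk k)))) :=
    prE_sub R.Q fun ω e => e
  linarith

include hok hf h1 hB hr hμB hμ hK'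

/-- **the letter of the earlier step, kind deep phi** -/
theorem hc_lt0_down (hk : k ∈ YI R p Vs) (hj : j ∈ YI R p Vs) (hkj : k ≤ j) (ha : R.C.a k + 2 * μ ≤ R.C.a j)
    (b8 : 8 * μ ≤ b) (R8 : 8 * μ ≤ (S3.mt0 R F μ o o').R j b) (hν : R.C.rk k + μ / 2 ≤ R.C.rk j) :
    Stk.hc R.Q ((S3.mt0 R F μ o o').lt k) (fun ω => (F.pf k ω, (S3.mt0 R F μ o o').mtr j b ω)) ≤
      cZ3 ⌈641 * (4 * K) ^ 2⌉₊ * Real.sqrt (S3.exc R.Q ((S3.mt0 R F μ o o').fz k k) K' k b + ek R μ o' K' k +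
        eu R μ o o' K' k) := by
  obtain ⟨n1, n2⟩ := num1 h1 hK'
  set D := S3.mt R F μ o o' with hD
  set D0 := S3.mt0 R F μ o o' with hD0
  have hl := hf.lo0
  have hy : ∀ ω, 0 < R.Q.w ω → D.Hy (4 * K) (YI R p Vs) ω := fun ω hω => hy_mt hok hf h1 hB hr hμB hμ hω
  have hy0 : ∀ ω, 0 < R.Q.w ω → D0.Hy (4 * K) (YI R p Vs) ω := fun ω hω => hy_mt0 hok hf h1 hB hr hμB hμ hω hl
  have H : Dn0 D0 (4 * K) (YI R p Vs) k j b := ⟨by linarith, hj, hkj, ha, R8, b8⟩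
  set M : ℕ := ⌈641 * (4 * K) ^ 2⌉₊ with hM
  have hM' : 641 * (4 * K) ^ 2 ≤ M := Nat.le_ceil _
  set Bd : Ω → Prop := fun ω => (D0.fz k k).Bad (640 * (8 * (4 * K)) ^ 7) k b ω ∨
    (Nb (R.C.rk k - μ / 2) (S3.kaL R k ω + o' 0) (3 * (4 * K) * q2 (R.C.rk k)) ∨
      Nb (R.C.rk k - μ / 2) (S3.uL R o k ω + o' 1) (19 * (4 * K) * q2 (R.C.rk k))) with hBd
  set Y : Ω → π × (Lt (π × ℤ × ℤ) × Pth.Dg) := fun ω => (F.pf k ω, D0.mtr j b ω) with hY
  have K4 : 1 ≤ 4 * K := by linarith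
  have KK : 3 * (4 * K) ≤ 641 * (4 * K) ^ 2 ∧ 19 * (4 * K) ≤ 641 * (4 * K) ^ 2 := by
    constructor <;> nlinarith
  have sl : ∀ ω ω', 0 < R.Q.w ω → 0 < R.Q.w ω' → Y ω = Y ω' → Sl D (4 * K) (YI R p Vs) k j ω ω' := fun ω ω' q q' e =>
    ⟨K4, hk, hj, hkj, hν, hy ω q, hy ω' q', congrArg Prod.fst e,
      (H624.lt0_iff ω ω').1 (congrArg (fun x => x.2.1) e)⟩
  have eN : ∀ ω, D.nN k ω = D0.nN k ω := fun _ => rfl
  have hn : ∀ ω ω', 0 < R.Q.w ω → 0 < R.Q.w ω' → ¬ Bd ω → Y ω = Y ω' → D0.nN k ω = D0.nN k ω' := by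
    intro ω ω' q q' n e
    rw [hBd] at n
    push Not at n
    exact nN0 H (hy0 ω q) (hy0 ω' q') (congrArg Prod.snd e) n.1
  have hr' : q2 (R.C.rk k) ≤ q2 (R.C.rk k - μ / 2) := q2_le (Nat.sub_le _ _)
  have a1 : Stk.hc R.Q (D0.nN k) Y ≤ (2 + Real.log ((2 * M + 3 : ℕ) : ℝ)) * Real.sqrt (prE R.Q Bd) := by
    refine H364.nhc R.Q _ Y Bd (2 * M + 3) (by omega) (fun ω ω' q q' n _ e => hn ω ω' q q' n e)
      (H364.N4.int_card R.Q _ Y fun ω ω' q q' e => ?_)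
    refine H364.fl1_le_of_near (M := M) ?_
    rw [add_sub_add_right_eq_sub]
    exact (npos0 H (hy0 ω q) (hy0 ω' q') (congrArg Prod.snd e)).trans
      (mul_le_mul hM' (q2_le (by omega)) (q2_pos _).le (by positivity))
  have a2 : Stk.hc R.Q (D.kN k) Y ≤ (2 + Real.log ((2 * M + 3 : ℕ) : ℝ)) * Real.sqrt (prE R.Q Bd) := by
    refine H364.nhc R.Q _ Y Bd (2 * M + 3) (by omega) (fun ω ω' q q' n _ e => ?_)
      (H364.N4.int_card R.Q _ Y fun ω ω' q q' e => ?_)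
    · rw [hBd] at n
      push Not at n
      have q2p := q2_pos (R.C.rk k)
      have f0 := (sl ω ω' q q' e).kappa
      have f1 : |(S3.kaL R k ω + o' 0) - (S3.kaL R k ω + o' 0)| ≤ 3 * (4 * K) * q2 (R.C.rk k) := by
        rw [sub_self, abs_zero]; positivity
      have f2 : |(S3.kaL R k ω' + o' 0) - (S3.kaL R k ω + o' 0)| ≤ 3 * (4 * K) * q2 (R.C.rk k) := by
        rw [add_sub_add_right_eq_sub]; exact f0
      exact Vale.Agent.P127.U.CellD.Nb.eq n.2.1 f1 f2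
    · refine H364.fl1_le_of_near (M := M) ?_
      rw [add_sub_add_right_eq_sub]
      exact ((sl ω ω' q q' e).kappa).trans (mul_le_mul (KK.1.trans hM') hr' (q2_pos _).le (by positivity))
  have a3 : Stk.hc R.Q (D.uN k) (fun ω => (D0.nN k ω, Y ω)) ≤
      (2 + Real.log ((2 * M + 3 : ℕ) : ℝ)) * Real.sqrt (prE R.Q Bd) := by
    refine H364.nhc R.Q _ _ Bd (2 * M + 3) (by omega) (fun ω ω' q q' n _ e => ?_)
      (H364.N4.int_card R.Q _ _ fun ω ω' q q' e => ?_)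
    · rw [hBd] at n
      push Not at n
      have q2p := q2_pos (R.C.rk k)
      have f0 := (sl ω ω' q q' (congrArg Prod.snd e)).gamma (by rw [eN, eN]; exact congrArg Prod.fst e)
      have f1 : |(S3.uL R o k ω + o' 1) - (S3.uL R o k ω + o' 1)| ≤ 19 * (4 * K) * q2 (R.C.rk k) := by
        rw [sub_self, abs_zero]; positivity
      have f2 : |(S3.uL R o k ω' + o' 1) - (S3.uL R o k ω + o' 1)| ≤ 19 * (4 * K) * q2 (R.C.rk k) := by
        rw [add_sub_add_right_eq_sub]; exact f0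
      exact Vale.Agent.P127.U.CellD.Nb.eq n.2.2 f1 f2
    · refine H364.fl1_le_of_near (M := M) ?_
      rw [add_sub_add_right_eq_sub]
      exact ((sl ω ω' q q' (congrArg Prod.snd e)).gamma (by rw [eN, eN]; exact congrArg Prod.fst e)).trans
        (mul_le_mul (KK.2.trans hM') hr' (q2_pos _).le (by positivity))
  have b1 : Stk.hc R.Q (D0.lt k) Y ≤ Stk.hc R.Q (fun ω => (D0.nN k ω, (D.uN k ω, D.kN k ω))) Y := by
    refine hc_mono_left R.Q ?_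
    intro ω ω' q q' e
    simp only [Prod.mk.injEq] at e
    obtain ⟨⟨e1, e2, e3⟩, e4⟩ := e
    refine (H624.lt0_iff ω ω').2 ?_
    have S := sl ω ω' q q' e4
    unfold Mtd.lt
    rw [S.ti, S.pf, eN, eN, e1, e2, e3]
  have b2 := hc_pair R.Q (D0.nN k) (fun ω => (D.uN k ω, D.kN k ω)) Y
  have b3 := hc_pair R.Q (D.uN k) (D.kN k) (fun ω => (D0.nN k ω, Y ω))
  have b4 : Stk.hc R.Q (D.kN k) (fun ω => (D.uN k ω, (D0.nN k ω, Y ω))) ≤ Stk.hc R.Q (D.kN k) Y :=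
    hc_mono_right R.Q _ fun _ _ _ _ e => congrArg Prod.snd (congrArg Prod.snd e)
  -- the event
  have q := q2_pos (R.C.rk k)
  have c1 : prE R.Q (fun ω => Nb (R.C.rk k - μ / 2) (S3.kaL R k ω + o' 0) (3 * (4 * K) * q2 (R.C.rk k))) ≤
      ek R μ o' K' k := prE_sub R.Q fun ω e => nb_mono e (mul_le_mul_of_nonneg_right n1 q.le)
  have c2 : prE R.Q (fun ω => Nb (R.C.rk k - μ / 2) (S3.uL R o k ω + o' 1) (19 * (4 * K) * q2 (R.C.rk k))) ≤
      eu R μ o o' K' k := prE_sub R.Q fun ω e => nb_mono e (mul_le_mul_of_nonneg_right n2 q.le)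
  have d1 := prE_or_add R.Q ((D0.fz k k).Bad (640 * (8 * (4 * K)) ^ 7) k b)
    (fun ω => Nb (R.C.rk k - μ / 2) (S3.kaL R k ω + o' 0) (3 * (4 * K) * q2 (R.C.rk k)) ∨
      Nb (R.C.rk k - μ / 2) (S3.uL R o k ω + o' 1) (19 * (4 * K) * q2 (R.C.rk k)))
  have d2 := prE_or_add R.Q (fun ω => Nb (R.C.rk k - μ / 2) (S3.kaL R k ω + o' 0) (3 * (4 * K) * q2 (R.C.rk k)))
      (fun ω => Nb (R.C.rk k - μ / 2) (S3.uL R o k ω + o' 1) (19 * (4 * K) * q2 (R.C.rk k)))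
  have d3 := ev_bad R.Q (D0.fz k k) (num7 h1 hK') k b
  have d4 : prE R.Q Bd ≤ S3.exc R.Q (D0.fz k k) K' k b + ek R μ o' K' k + eu R μ o o' K' k := by
    have : prE R.Q Bd = prE R.Q (fun ω => (D0.fz k k).Bad (640 * (8 * (4 * K)) ^ 7) k b ω ∨
      (Nb (R.C.rk k - μ / 2) (S3.kaL R k ω + o' 0) (3 * (4 * K) * q2 (R.C.rk k)) ∨
      Nb (R.C.rk k - μ / 2) (S3.uL R o k ω + o' 1) (19 * (4 * K) * q2 (R.C.rk k)))) := rfl
    linarith
  have d5 := Real.sqrt_le_sqrt d4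
  have d6 : 0 ≤ cZ3 M := by
    unfold cZ3
    have : 0 ≤ Real.log ((2 * M + 3 : ℕ) : ℝ) := Real.log_nonneg (by
      have : (1 : ℕ) ≤ 2 * M + 3 := by omega
      exact_mod_cast this)
    linarith
  have d7 := mul_le_mul_of_nonneg_left d5 d6
  have d8 : cZ3 M = 3 * (2 + Real.log ((2 * M + 3 : ℕ) : ℝ)) := by
    unfold cZ3
    ring
  rw [d8] at d7 ⊢
  linarith

omit hf h1 hB hμ hK' in
/-- levels of the record are large -/
lemma r8 {i : ℕ} : 8 * μ ≤ R.C.rk i - μ / 2 := by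
  have m1 := hok.pth.m1
  have mB : B ≤ R.m * B := Nat.le_mul_of_pos_left B m1
  have k0 := hok.pth.k0
  have : R.r0 ≤ R.C.rk i := k0 ▸ R.C.hk (Nat.zero_le i)
  omega

omit h1 hB hμ hK' in
lemma r80 {i : ℕ} : 8 * μ ≤ F.rk0 i - μ / 2 := by
  have m1 := hok.pth.m1
  have mB : B ≤ R.m * B := Nat.le_mul_of_pos_left B m1
  have := hf.lo0 i
  omega

omit hok hf h1 hB hr hμB hμ hK' in
/-- the parts together -/
lemma asm {π' : Type} (D : Mtd Ω π') (hK6 : 64 * (8 * (4 * K)) ^ 6 ≤ K')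
    (hK7 : 640 * (8 * (4 * K)) ^ 7 ≤ K') (hki : k ≤ i)
    (z1 : 0 ≤ cZ1 (4 * K)) (z2 : 0 ≤ cZ2 (4 * K)) (z3 : 0 ≤ cZ3 ⌈641 * (4 * K) ^ 2⌉₊)
    (a1 : ∀ i', i' = i ∨ i' = k → Stk.hc R.Q (fun ω => ((D.fz k k).cell i' b ω, S3.LTh (D.fz k k) b i' ω))
      (fun ω => (D.lt k ω, D.mtr j b ω)) ≤ cZ1 (4 * K) * Real.sqrt (prE R.Q ((D.fz k k).Bad (640 * (8 * (4 * K)) ^ 7) i' b)) +
      cZ2 (4 * K) * Real.sqrt (prE R.Q (H683.Badf (D.fz k k) (8 * (4 * K)) i' b (D.rf i') (D.rf i' + D.μ))))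
    (a3 : Stk.hc R.Q (D.lt k) (D.mtr j b) ≤ cZ3 ⌈641 * (4 * K) ^ 2⌉₊ * Real.sqrt (S3.exc R.Q (D.fz k k) K' k b +
      ek R μ o' K' k + eu R μ o o' K' k)) :
    Stk.hc R.Q (fun ω => ((D.fz k k).cell i b ω, (S3.LDk (D.fz k k) b k ω, S3.LTh (D.fz k k) b i ω))) (D.mtr j b) ≤
      cF K * nF R D μ o o' K' k i b := by
  have b1 : ∀ i', i' = i ∨ i' = k → Stk.hc R.Q (fun ω => ((D.fz k k).cell i' b ω, S3.LTh (D.fz k k) b i' ω))
      (fun ω => (D.lt k ω, D.mtr j b ω)) ≤ (cZ1 (4 * K) + cZ2 (4 * K)) * Real.sqrt (S3.exc R.Q (D.fz k k) K' i' b) := by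
    intro i' hi'
    have hki' : k ≤ i' := by rcases hi' with h | h <;> omega
    have e1 := Real.sqrt_le_sqrt (ev_bad (K' := K') R.Q (D.fz k k) hK7 i' b)
    have e2 : prE R.Q (H683.Badf (D.fz k k) (8 * (4 * K)) i' b (D.rf i') (D.rf i' + D.μ)) ≤ S3.exc R.Q (D.fz k k) K' i' b := by
      have h := ev_bads (K' := K') R.Q (D.fz k k) hK6 i' b
      rw [Mtd.fz_rf D hki'] at h
      exact h
    have e3 := mul_le_mul_of_nonneg_left (Real.sqrt_le_sqrt e2) z2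
    have e4 := mul_le_mul_of_nonneg_left e1 z1
    have := a1 i' hi'
    linarith
  have c1 := hc_le_add' R.Q (fun ω => ((D.fz k k).cell i b ω, (S3.LDk (D.fz k k) b k ω, S3.LTh (D.fz k k) b i ω)))
    (D.lt k) (D.mtr j b)
  have c2 := hc_triple R.Q (D.fz k k) k i b (fun ω => (D.lt k ω, D.mtr j b ω))
  have c3 := b1 i (Or.inl rfl)
  have c4 := b1 k (Or.inr rfl)
  have n1 : 0 ≤ S3.exc R.Q (D.fz k k) K' k b := by
    unfold S3.exc
    have := prE_nonneg R.Q ((D.fz k k).Bad K' k b)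
    have := prE_nonneg R.Q (H420.BadS (D.fz k k) K' k b)
    have := prE_nonneg R.Q (H300.BadR (D.fz k k) K' k b)
    linarith
  have n2 : 0 ≤ ek R μ o' K' k := prE_nonneg R.Q _
  have n3 : 0 ≤ eu R μ o o' K' k := prE_nonneg R.Q _
  have d1 := sqrt_add_le' (add_nonneg n1 n2) n3
  have d2 := sqrt_add_le' n1 n2
  have d3 : Real.sqrt (S3.exc R.Q (D.fz k k) K' k b + ek R μ o' K' k + eu R μ o o' K' k) ≤
      Real.sqrt (S3.exc R.Q (D.fz k k) K' k b) + Real.sqrt (ek R μ o' K' k) + Real.sqrt (eu R μ o o' K' k) := by linarith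
  have d4 := mul_le_mul_of_nonneg_left d3 z3
  have s1 := Real.sqrt_nonneg (S3.exc R.Q (D.fz k k) K' i b)
  have s2 := Real.sqrt_nonneg (S3.exc R.Q (D.fz k k) K' k b)
  have s3 := Real.sqrt_nonneg (ek R μ o' K' k)
  have s4 := Real.sqrt_nonneg (eu R μ o o' K' k)
  unfold cF nF
  nlinarith [mul_nonneg z1 s3, mul_nonneg z1 s4, mul_nonneg z2 s3, mul_nonneg z2 s4, mul_nonneg z3 s1]

omit hok hf h1 hB hr hμB hμ hK' in
/-- the constants are not negative -/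
lemma z_nn (K : ℝ) : 0 ≤ cZ1 K ∧ 0 ≤ cZ2 K ∧ ∀ M : ℕ, 0 ≤ cZ3 M := by
  have h1 : 0 ≤ Real.log (2 * ⌈480 * (8 * K) ^ 7⌉₊ + 3) := Real.log_nonneg (by
    have : (0 : ℝ) ≤ (⌈480 * (8 * K) ^ 7⌉₊ : ℝ) := Nat.cast_nonneg _
    linarith)
  have h2 : 0 ≤ Real.log (2 * ⌈64 * (8 * K) ^ 6⌉₊ + 3) := Real.log_nonneg (by
    have : (0 : ℝ) ≤ (⌈64 * (8 * K) ^ 6⌉₊ : ℝ) := Nat.cast_nonneg _
    linarith)
  refine ⟨by unfold cZ1; linarith, by unfold cZ2; linarith, fun M => ?_⟩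
  have h3 : 0 ≤ Real.log ((2 * M + 3 : ℕ) : ℝ) := Real.log_nonneg (by
    have : (1 : ℕ) ≤ 2 * M + 3 := by omega
    exact_mod_cast this)
  unfold cZ3
  linarith

/-- **(N1), kind kappa** -/
theorem n1K (hk : k ∈ YI R p Vs) (hj : j ∈ YI R p Vs) (hki : k ≤ i) (hij : i ≤ j) (ha : R.C.a i + 2 * μ ≤ R.C.a j)
    (b8 : 8 * μ ≤ b) (hν : R.C.rk k + μ / 2 ≤ R.C.rk j) (hκ : b + R.C.rk k < R.C.rf k)
    (hR : ((S3.mt R F μ o o').fz k k).R i b + μ ≤ (S3.mt R F μ o o').R j b) :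
    Stk.hc R.Q (fun ω => (((S3.mt R F μ o o').fz k k).cell i b ω, (S3.LDk ((S3.mt R F μ o o').fz k k) b k ω,
      S3.LTh ((S3.mt R F μ o o').fz k k) b i ω))) ((S3.mt R F μ o o').mtr j b) ≤
      cF K * nF R (S3.mt R F μ o o') μ o o' K' k i b := by
  set D := S3.mt R F μ o o' with hD
  have K4 : 1 ≤ 4 * K := by linarith
  obtain ⟨z1, z2, z3⟩ := z_nn (4 * K)
  have hy : ∀ ω, 0 < R.Q.w ω → D.Hy (4 * K) (YI R p Vs) ω := fun ω hω => hy_mt hok hf h1 hB hr hμB hμ hω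
  have q8 := r8 (i := k) hok hr hμB
  have hRe : ∀ i', k ≤ i' → (D.fz k k).R i' b = min (R.C.rk k - μ / 2 + b) (R.C.rf i') := by
    intro i' hi'
    rw [Pth.R_eq, fz_rk' le_rfl hi', Mtd.fz_rf D hi']
    rfl
  have R8 : ∀ i', k ≤ i' → 8 * μ ≤ (D.fz k k).R i' b := by
    intro i' hi'
    rw [hRe i' hi']
    have := (R.C.hkf k).trans (R.C.hf hi')
    omega
  have hRk : ∀ i', i' = i ∨ i' = k → (D.fz k k).R i' b + μ ≤ D.R j b := by
    intro i' hi'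
    have h1 : (D.fz k k).R i' b ≤ (D.fz k k).R i b := by
      have h2 : k ≤ i' := by rcases hi' with h | h <;> omega
      have h3 : i' ≤ i := by rcases hi' with h | h <;> omega
      rw [hRe i' h2, hRe i hki]
      have := R.C.hf h3
      omega
    omega
  have Hd : ∀ i', i' = i ∨ i' = k → Dz D (4 * K) (YI R p Vs) k k i' j b := by
    intro i' hi'
    have h2 : k ≤ i' := by rcases hi' with h | h <;> omega
    have h3 : i' ≤ i := by rcases hi' with h | h <;> omega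
    refine ⟨K4, hk, hj, le_rfl, rfl, h2, h3.trans hij, ?_, b8, R8 i' h2, hRk i' hi'⟩
    have h4 := R.C.ha h3
    show R.C.a i' + 2 * μ ≤ R.C.a j
    omega
  have hc1 : ∀ i', i' = i ∨ i' = k → Stk.hc R.Q (fun ω => ((D.fz k k).cell i' b ω, S3.LTh (D.fz k k) b i' ω))
      (fun ω => (D.lt k ω, D.mtr j b ω)) ≤ cZ1 (4 * K) * Real.sqrt (prE R.Q ((D.fz k k).Bad (640 * (8 * (4 * K)) ^ 7) i' b)) +
      cZ2 (4 * K) * Real.sqrt (prE R.Q (H683.Badf (D.fz k k) (8 * (4 * K)) i' b (D.rf i') (D.rf i' + D.μ))) := by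
    intro i' hi'
    refine hc_fzL_down R.Q (Hd i' hi') hy fun h => ?_
    exfalso
    have h2 : k ≤ i' := by rcases hi' with h | h <;> omega
    have h3 := R.C.hf h2
    have h4 : R.C.rf i' ≤ b + (R.C.rk k - μ / 2) := h
    omega
  -- the letter
  have R8k : 8 * D.μ ≤ D.R k b := by
    have h := R8 k le_rfl
    rw [hRe k le_rfl] at h
    exact h
  have hlt := H122.hc_lt_down R.Q ((Hd k (Or.inr rfl)).dn R8k hν) hy (M := ⌈641 * (4 * K) ^ 2⌉₊) (Nat.le_ceil _)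
  have hlt2 : Stk.hc R.Q (D.lt k) (D.mtr j b) ≤ Stk.hc R.Q (D.lt k) (fun ω => (D.pf k ω, D.mtr j b ω)) := by
    refine hc_mono_right R.Q _ fun ω ω' q q' e => ?_
    refine Prod.ext ?_ e
    have e2 : F.pf j ω = F.pf j ω' := congrArg (fun x : Lt π × Pth.Dg => x.1.2.1) e
    exact pf_fn hf (hki.trans hij) hj.1 ω ω' q q' e2
  have hev := Real.sqrt_le_sqrt (bdI_K (F := F) (μ := μ) (o := o) (o' := o') h1 hK' (hki.trans hij) b)
  have a3 : Stk.hc R.Q (D.lt k) (D.mtr j b) ≤ cZ3 ⌈641 * (4 * K) ^ 2⌉₊ * Real.sqrt (S3.exc R.Q (D.fz k k) K' k b +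
      ek R μ o' K' k + eu R μ o o' K' k) :=
    hlt2.trans (hlt.trans (mul_le_mul_of_nonneg_left hev (z3 _)))
  exact asm D (num6 h1 hK') (num7 h1 hK') hki z1 z2 (z3 _) hc1 a3

/-- **(N1), kind deep phi** -/
theorem n1P (hk : k ∈ YI R p Vs) (hj : j ∈ YI R p Vs) (hki : k ≤ i) (hij : i ≤ j) (ha : R.C.a i + 2 * μ ≤ R.C.a j)
    (b8 : 8 * μ ≤ b) (hν : R.C.rk k + μ / 2 ≤ R.C.rk j)
    (hR : R.C.rf i + 4 * μ ≤ (S3.mt0 R F μ o o').R j b) (hS : R.C.rf i + 4 * μ ≤ F.rk0 k - μ / 2 + b) :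
    Stk.hc R.Q (fun ω => (((S3.mt0 R F μ o o').fz k k).cell i b ω, (S3.LDk ((S3.mt0 R F μ o o').fz k k) b k ω,
      S3.LTh ((S3.mt0 R F μ o o').fz k k) b i ω))) ((S3.mt0 R F μ o o').mtr j b) ≤
      cF K * nF R (S3.mt0 R F μ o o') μ o o' K' k i b := by
  set D := S3.mt0 R F μ o o' with hD
  have K4 : 1 ≤ 4 * K := by linarith
  obtain ⟨z1, z2, z3⟩ := z_nn (4 * K)
  have hy : ∀ ω, 0 < R.Q.w ω → D.Hy (4 * K) (YI R p Vs) ω := fun ω hω => hy_mt0 hok hf h1 hB hr hμB hμ hω hf.lo0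
  have q8 := r80 (i := k) hok hf hr hμB
  have hRe : ∀ i', k ≤ i' → (D.fz k k).R i' b = min (F.rk0 k - μ / 2 + b) (R.C.rf i') := by
    intro i' hi'
    rw [Pth.R_eq, fz_rk' le_rfl hi', Mtd.fz_rf D hi']
    rfl
  have R8 : ∀ i', k ≤ i' → 8 * μ ≤ (D.fz k k).R i' b := by
    intro i' hi'
    rw [hRe i' hi']
    have := ((F.l0 k).trans (R.C.hkf k)).trans (R.C.hf hi')
    omega
  have hRk : ∀ i', i' = i ∨ i' = k → (D.fz k k).R i' b + μ ≤ D.R j b := by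
    intro i' hi'
    have h2 : k ≤ i' := by rcases hi' with h | h <;> omega
    have h3 : i' ≤ i := by rcases hi' with h | h <;> omega
    rw [hRe i' h2]
    have := R.C.hf h3
    omega
  have Hd : ∀ i', i' = i ∨ i' = k → Dz D (4 * K) (YI R p Vs) k k i' j b := by
    intro i' hi'
    have h2 : k ≤ i' := by rcases hi' with h | h <;> omega
    have h3 : i' ≤ i := by rcases hi' with h | h <;> omega
    refine ⟨K4, hk, hj, le_rfl, rfl, h2, h3.trans hij, ?_, b8, R8 i' h2, hRk i' hi'⟩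
    have h4 := R.C.ha h3
    show R.C.a i' + 2 * μ ≤ R.C.a j
    omega
  have hc1 : ∀ i', i' = i ∨ i' = k → Stk.hc R.Q (fun ω => ((D.fz k k).cell i' b ω, S3.LTh (D.fz k k) b i' ω))
      (fun ω => (D.lt k ω, D.mtr j b ω)) ≤ cZ1 (4 * K) * Real.sqrt (prE R.Q ((D.fz k k).Bad (640 * (8 * (4 * K)) ^ 7) i' b)) +
      cZ2 (4 * K) * Real.sqrt (prE R.Q (H683.Badf (D.fz k k) (8 * (4 * K)) i' b (D.rf i') (D.rf i' + D.μ))) := by
    intro i' hi'
    refine hc_fzL_down R.Q (Hd i' hi') hy fun _ => ?_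
    have h3 : i' ≤ i := by rcases hi' with h | h <;> omega
    have h4 := R.C.hf h3
    have h5 : R.C.rf i' + 4 * μ ≤ D.R j b := by omega
    have h6 : R.C.rf i' + 4 * μ ≤ F.rk0 k - μ / 2 + b := by omega
    exact ⟨h5, h6⟩
  have hak : R.C.a k + 2 * μ ≤ R.C.a j := by
    have := R.C.ha hki
    omega
  have R8j : 8 * μ ≤ D.R j b := by
    have h5 := R8 k le_rfl
    have h6 := hRk k (Or.inr rfl)
    omega
  have hlt := hc_lt0_down (o := o) (o' := o') hok hf h1 hB hr hμB hμ hK' hk hj (hki.trans hij) hak b8 R8j hν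
  have hlt2 : Stk.hc R.Q (D.lt k) (D.mtr j b) ≤ Stk.hc R.Q (D.lt k) (fun ω => (F.pf k ω, D.mtr j b ω)) := by
    refine hc_mono_right R.Q _ fun ω ω' q q' e => ?_
    refine Prod.ext ?_ e
    have e2 : F.pf j ω = F.pf j ω' := congrArg (fun x : Lt (π × ℤ × ℤ) × Pth.Dg => x.1.2.1.1) e
    exact pf_fn hf (hki.trans hij) hj.1 ω ω' q q' e2
  exact asm D (num6 h1 hK') (num7 h1 hK') hki z1 z2 (z3 _) hc1 (hlt2.trans hlt)

omit h1 hB hμ hK' in
/-- levels for `k ∈ IdP` and `i ≤ k + B` -/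
lemma lvP (hm : 5 * μ ≤ R.m * B) (hk : R.C.rf k + 2 * (R.m * B) ≤ b + F.rk0 k) (hki : k ≤ i) (hiB : i ≤ k + B)
    (hin : i ≤ R.n + p.J) : R.C.rf i + 4 * μ ≤ F.rk0 k - μ / 2 + b := by
  have key : ∀ i', k ≤ i' → i' ≤ R.n + p.J → R.C.rf i' ≤ R.C.rf k + R.m * (i' - k) := by
    intro i' h
    induction i', h using Nat.le_induction with
    | base => intro _; omega
    | succ n hn ih =>
      intro hl
      have e1 := ih (by omega)
      have e2 : n + 1 - k = (n - k) + 1 := by omega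
      rw [e2, Nat.mul_add]
      rcases hok.pth.stp n (by omega) with ⟨-, h, -⟩ | ⟨-, h, -⟩ | ⟨-, h, -⟩ <;> omega
  have e1 := key i hki hin
  have e2 : R.m * (i - k) ≤ R.m * B := Nat.mul_le_mul_left _ (by omega)
  have := r80 (i := k) hok hf hr hμB
  omega

end ok

/-! ### the sums -/

lemma exc_nn {σ : Type} (P : Law Ω) (C : Pth Ω σ) (K' : ℝ) (i b : ℕ) : 0 ≤ S3.exc P C K' i b := by
  unfold S3.exc
  have := prE_nonneg P (C.Bad K' i b)
  have := prE_nonneg P (H420.BadS C K' i b)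
  have := prE_nonneg P (H300.BadR C K' i b)
  linarith

omit [Fintype Ω] in
/-- a sum over a family with multiplicity at most `N` -/
lemma sum_mult {ι α : Type*} [DecidableEq α] (G : Finset ι) (S : Finset α) (f : ι → α) (hf : ∀ x ∈ G, f x ∈ S) (N : ℕ)
    (hN : ∀ s ∈ S, (G.filter fun x => f x = s).card ≤ N) (g : α → ℝ) (hg : ∀ s ∈ S, 0 ≤ g s) :
    ∑ x ∈ G, g (f x) ≤ N * ∑ s ∈ S, g s := by
  rw [← Finset.sum_fiberwise_of_maps_to hf, Finset.mul_sum]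
  refine Finset.sum_le_sum fun s hs => ?_
  have e : ∑ x ∈ G with f x = s, g (f x) = (G.filter fun x => f x = s).card * g s := by
    rw [← nsmul_eq_mul, ← Finset.sum_const]
    exact Finset.sum_congr rfl fun x hx => by rw [(Finset.mem_filter.1 hx).2]
  rw [e]
  exact mul_le_mul_of_nonneg_right (by exact_mod_cast hN s hs) (hg s hs)

/-- the four sums, abstract: `Id` the indices, `At d k` the later indices, `X` the bound of the exceptional sums -/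
lemma sum4 {ι : Type*} {π' : Type} (D : Mtd Ω π') {b1 : ℕ} (G : Finset ι) (k i d : ι → ℕ) (Id : Finset ℕ) (At : ℕ → ℕ → Finset ℕ)
    (N Dm : ℕ) {X : ℝ} (hG : ∀ x ∈ G, k x ∈ Id ∧ i x ∈ At (d x) (k x) ∧ d x ≤ Dm)
    (hN : ∀ s, (G.filter fun x => k x = s).card ≤ N)
    (h1 : ∀ d ≤ Dm, ∑ k ∈ Id, (S3.exc R.Q (D.fz k k) K' k b1 + ∑ i ∈ At d k, S3.exc R.Q (D.fz k k) K' i b1) ≤ X)
    (h2 : ∑ k ∈ Id, (ek R μ o' K' k + eu R μ o o' K' k) ≤ X) (hX : 0 ≤ X) :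
    ∑ x ∈ G, nF R D μ o o' K' (k x) (i x) b1 ≤ 4 * Real.sqrt (G.card * (N * ((Dm + 1) * X))) := by
  classical
  have hD1 : (1 : ℝ) ≤ Dm + 1 := by
    have : (0 : ℝ) ≤ Dm := Nat.cast_nonneg _
    linarith
  have hN0 : (0 : ℝ) ≤ N := Nat.cast_nonneg _
  have hkN : ∀ s ∈ Id, (G.filter fun x => k x = s).card ≤ N := fun s _ => hN s
  have hXD : X ≤ (Dm + 1) * X := by nlinarith
  have hNX : N * X ≤ N * ((Dm + 1) * X) := mul_le_mul_of_nonneg_left hXD hN0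
  -- events at `k`
  have A2 : ∑ x ∈ G, S3.exc R.Q (D.fz (k x) (k x)) K' (k x) b1 ≤ N * ((Dm + 1) * X) := by
    refine (sum_mult G Id k (fun x hx => (hG x hx).1) N hkN (fun k => S3.exc R.Q (D.fz k k) K' k b1)
      fun s _ => exc_nn _ _ _ _ _).trans (le_trans (mul_le_mul_of_nonneg_left ?_ hN0) hNX)
    refine le_trans (Finset.sum_le_sum fun k _ => ?_) (h1 0 (Nat.zero_le _))
    have : 0 ≤ ∑ i ∈ At 0 k, S3.exc R.Q (D.fz k k) K' i b1 := Finset.sum_nonneg fun _ _ => exc_nn _ _ _ _ _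
    linarith
  have A3 : ∑ x ∈ G, ek R μ o' K' (k x) ≤ N * ((Dm + 1) * X) := by
    refine (sum_mult G Id k (fun x hx => (hG x hx).1) N hkN (fun k => ek R μ o' K' k)
      fun s _ => prE_nonneg _ _).trans (le_trans (mul_le_mul_of_nonneg_left ?_ hN0) hNX)
    refine le_trans (Finset.sum_le_sum fun k _ => ?_) h2
    have : 0 ≤ eu R μ o o' K' k := prE_nonneg _ _
    linarith
  have A4 : ∑ x ∈ G, eu R μ o o' K' (k x) ≤ N * ((Dm + 1) * X) := by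
    refine (sum_mult G Id k (fun x hx => (hG x hx).1) N hkN (fun k => eu R μ o o' K' k)
      fun s _ => prE_nonneg _ _).trans (le_trans (mul_le_mul_of_nonneg_left ?_ hN0) hNX)
    refine le_trans (Finset.sum_le_sum fun k _ => ?_) h2
    have : 0 ≤ ek R μ o' K' k := prE_nonneg _ _
    linarith
  -- events at `i`
  have A1 : ∑ x ∈ G, S3.exc R.Q (D.fz (k x) (k x)) K' (i x) b1 ≤ N * ((Dm + 1) * X) := by
    set S : Finset (Σ _ : ℕ, Σ _ : ℕ, ℕ) := (Finset.range (Dm + 1)).sigma fun d => Id.sigma fun k => At d k with hS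
    have hmem : ∀ x ∈ G, (⟨d x, ⟨k x, i x⟩⟩ : Σ _ : ℕ, Σ _ : ℕ, ℕ) ∈ S := by
      intro x hx
      obtain ⟨g1, g2, g3⟩ := hG x hx
      rw [hS, Finset.mem_sigma]
      exact ⟨Finset.mem_range.2 (by show d x < Dm + 1; omega), Finset.mem_sigma.2 ⟨g1, g2⟩⟩
    have hNS : ∀ s ∈ S, (G.filter fun x => (⟨d x, ⟨k x, i x⟩⟩ : Σ _ : ℕ, Σ _ : ℕ, ℕ) = s).card ≤ N := by
      intro s _
      refine (Finset.card_le_card ?_).trans (hN s.2.1)
      intro x hx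
      rw [Finset.mem_filter] at hx ⊢
      refine ⟨hx.1, ?_⟩
      rw [← hx.2]
    refine (sum_mult G S (fun x => (⟨d x, ⟨k x, i x⟩⟩ : Σ _ : ℕ, Σ _ : ℕ, ℕ)) hmem N hNS
      (fun s => S3.exc R.Q (D.fz s.2.1 s.2.1) K' s.2.2 b1)
      fun s _ => exc_nn _ _ _ _ _).trans (mul_le_mul_of_nonneg_left ?_ hN0)
    have e1 : ∑ s ∈ S, S3.exc R.Q (D.fz s.2.1 s.2.1) K' s.2.2 b1 ≤
        ∑ d ∈ Finset.range (Dm + 1), ∑ k ∈ Id, ∑ i ∈ At d k, S3.exc R.Q (D.fz k k) K' i b1 := by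
      rw [hS, Finset.sum_sigma]
      refine le_of_eq (Finset.sum_congr rfl fun d _ => ?_)
      rw [Finset.sum_sigma]
    refine e1.trans ?_
    have e2 : ∀ d ∈ Finset.range (Dm + 1), ∑ k ∈ Id, ∑ i ∈ At d k, S3.exc R.Q (D.fz k k) K' i b1 ≤ X := by
      intro d hd
      refine le_trans (Finset.sum_le_sum fun k _ => ?_) (h1 d (by have := Finset.mem_range.1 hd; omega))
      have := exc_nn R.Q (D.fz k k) K' k b1
      linarith
    refine (Finset.sum_le_sum e2).trans ?_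
    rw [Finset.sum_const, Finset.card_range, nsmul_eq_mul]
    push_cast
    exact le_rfl
  have hG0 : (0 : ℝ) ≤ G.card := Nat.cast_nonneg _
  have fin : ∀ f : ι → ℝ, (∀ x ∈ G, 0 ≤ f x) → ∑ x ∈ G, f x ≤ N * ((Dm + 1) * X) →
      ∑ x ∈ G, Real.sqrt (f x) ≤ Real.sqrt (G.card * (N * ((Dm + 1) * X))) := fun f f0 f1 =>
    (H513.sqrt_sum5 G f f0).trans (Real.sqrt_le_sqrt (mul_le_mul_of_nonneg_left f1 hG0))
  have B1 := fin _ (fun x _ => exc_nn _ _ _ _ _) A1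
  have B2 := fin _ (fun x _ => exc_nn _ _ _ _ _) A2
  have B3 := fin (fun x => ek R μ o' K' (k x)) (fun x _ => prE_nonneg _ _) A3
  have B4 := fin (fun x => eu R μ o o' K' (k x)) (fun x _ => prE_nonneg _ _) A4
  unfold nF
  rw [Finset.sum_add_distrib, Finset.sum_add_distrib, Finset.sum_add_distrib]
  linarith


/-- the bound of the exceptional sums -/
noncomputable def xF (R : S3.Run Ω τ υ) (p : S3.Run.Num) (μ : ℕ) (K' : ℝ) (d : ℕ) : ℝ :=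
  K' ^ 2 * (d + 1) ^ 2 * (R.n + p.J + 1) * q2 (μ / 4)

lemma xF_nn (R : S3.Run Ω τ υ) (p : S3.Run.Num) (μ : ℕ) (K' : ℝ) (d : ℕ) : 0 ≤ xF R p μ K' d := by
  unfold xF
  have := q2_pos (μ / 4)
  positivity

lemma xF_mono (R : S3.Run Ω τ υ) (p : S3.Run.Num) (μ : ℕ) (K' : ℝ) {d D : ℕ} (h : d ≤ D) :
    xF R p μ K' d ≤ xF R p μ K' D := by
  unfold xF
  have h1 : ((d : ℝ) + 1) ^ 2 ≤ ((D : ℝ) + 1) ^ 2 := by
    have : (d : ℝ) ≤ D := by exact_mod_cast h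
    have h0 : (0 : ℝ) ≤ d := Nat.cast_nonneg _
    nlinarith
  have := q2_pos (μ / 4)
  have h3 : K' ^ 2 * ((d : ℝ) + 1) ^ 2 ≤ K' ^ 2 * ((D : ℝ) + 1) ^ 2 := mul_le_mul_of_nonneg_left h1 (sq_nonneg _)
  have h4 : K' ^ 2 * ((d : ℝ) + 1) ^ 2 * (R.n + p.J + 1) ≤ K' ^ 2 * ((D : ℝ) + 1) ^ 2 * (R.n + p.J + 1) :=
    mul_le_mul_of_nonneg_right h3 (by positivity)
  exact mul_le_mul_of_nonneg_right h4 this.le

lemma offL_le (hs : S3.F2o R p B bS bV F Vs Xs μ K' o o') {Id : Finset ℕ} (hI : ∀ k ∈ Id, k ≤ R.n) (d : ℕ) :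
    ∑ k ∈ Id, (ek R μ o' K' k + eu R μ o o' K' k) ≤ xF R p μ K' d := by
  have h1 : ∑ k ∈ Id, (ek R μ o' K' k + eu R μ o o' K' k) ≤ ∑ k ∈ range (R.n + 1), (ek R μ o' K' k + eu R μ o o' K' k) :=
    Finset.sum_le_sum_of_subset_of_nonneg (fun k hk => Finset.mem_range.2 (by have := hI k hk; omega))
      fun k _ _ => add_nonneg (prE_nonneg _ _) (prE_nonneg _ _)
  have h2 : ∑ k ∈ range (R.n + 1), (ek R μ o' K' k + eu R μ o o' K' k) ≤ K' ^ 2 * (R.n + p.J + 1) * q2 (μ / 4) := hs.offL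
  have h3 : K' ^ 2 * (R.n + p.J + 1) * q2 (μ / 4) = xF R p μ K' 0 := by
    unfold xF
    push_cast
    ring
  exact h1.trans (h2.trans (h3.le.trans (xF_mono R p μ K' (Nat.zero_le d))))

/-- **(N2), kind kappa** -/
theorem n2K (hs : S3.F2o R p B bS bV F Vs Xs μ K' o o') {ι : Type*} (G : Finset ι) (k i d : ι → ℕ) (N Dm : ℕ)
    (hDm : Dm ≤ B) (hG : ∀ x ∈ G, k x ∈ S3.IdK R Vs Xs ∧ i x ∈ S3.At' R p B (d x) (k x) ∧ d x ≤ Dm)
    (hN : ∀ s, (G.filter fun x => k x = s).card ≤ N) :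
    ∑ x ∈ G, nF R (S3.mt R F μ o o') μ o o' K' (k x) (i x) (R.m * R.b1) ≤
      4 * Real.sqrt (G.card * (N * ((Dm + 1) * xF R p μ K' Dm))) := by
  classical
  refine sum4 (S3.mt R F μ o o') G k i d (S3.IdK R Vs Xs) (fun d k => S3.At' R p B d k) N Dm hG hN ?_
    (offL_le hs (fun k hk => ?_) Dm) (xF_nn R p μ K' Dm)
  · intro d hd
    refine le_trans (Finset.sum_le_sum fun k _ => ?_) ((hs.offK d (hd.trans hDm)).trans (xF_mono R p μ K' hd))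
    have := exc_nn R.Q ((S3.mt R F μ o o').fz k k) K' k bV
    linarith
  · have := (Finset.mem_filter.1 hk).1
    exact (Finset.mem_Icc.1 this).2

/-- **(N2), kind deep phi** -/
theorem n2P (hs : S3.F2o R p B bS bV F Vs Xs μ K' o o') {ι : Type*} (G : Finset ι) (k i d : ι → ℕ) (N Dm : ℕ)
    (hDm : Dm ≤ B) (hG : ∀ x ∈ G, k x ∈ S3.IdP R F B Vs Xs ∧ i x ∈ S3.At' R p B (d x) (k x) ∧ d x ≤ Dm)
    (hN : ∀ s, (G.filter fun x => k x = s).card ≤ N) :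
    ∑ x ∈ G, nF R (S3.mt0 R F μ o o') μ o o' K' (k x) (i x) (R.m * R.b1) ≤
      4 * Real.sqrt (G.card * (N * ((Dm + 1) * xF R p μ K' Dm))) := by
  classical
  refine sum4 (S3.mt0 R F μ o o') G k i d (S3.IdP R F B Vs Xs) (fun d k => S3.At' R p B d k) N Dm hG hN ?_
    (offL_le hs (fun k hk => ?_) Dm) (xF_nn R p μ K' Dm)
  · intro d hd
    refine le_trans (Finset.sum_le_sum fun k _ => ?_) ((hs.offP d (hd.trans hDm)).trans (xF_mono R p μ K' hd))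
    have := exc_nn R.Q ((S3.mt0 R F μ o o').fz k k) K' k bV
    linarith
  · have := (Finset.mem_filter.1 hk).1
    exact (Finset.mem_Icc.1 this).2

end run

end Vale.Agent.P106.U.H958
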