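import Vale.Agent.P106.U.H785.Mtr
import Vale.Agent.P106.U.H958.Frz

/-!
# P106 / U / H958 : the path frozen over a letter with true digits (helper958; 776's note 20041 (3), 785's `Mtr`)

`mfz D k` : 101's path, at ALL indices the letter `lt k` of 785 (no history) and the time digits; its functional is the
functional of `lt k` written at the rounded times; levels of the steps `max i (k - 1)`.

* `mfz_cell_iff` : its cell `k b` is 785's `mtr k b`.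
* `mfz_Ok` : it is a path, from hypotheses at the step `k` only.
-/

set_option autoImplicit false

namespace Vale.Agent.P106.U.H958

open Finset Vale.Agent.P127 Vale.Agent.P127.Stk Vale.Agent.P106.U.Cell
open Vale.Agent.P106.U.H785.Mtr (Mtd Lt)
open Vale.Agent.P127.U.Mic (colp)
open Vale.Agent.P127.U.CellD (q2 rd Nb q2_pos q2_add q2_le q2_mul_pow fl1_fl1 rd_err)

variable {Ω π : Type}

/-- the path frozen at `k` over the letter `lt k` -/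
noncomputable def mfz (D : Mtd Ω π) (k : ℕ) : Pth Ω (Lt π × ℤ) where
  a i := D.a (max i (k - 1))
  rf i := D.rf (max i (k - 1))
  rk i := min (D.rr k) (D.rf (max i (k - 1)))
  ha := fun _ _ h => D.ha (max_le_max_right _ h)
  hf := fun _ _ h => D.hf (max_le_max_right _ h)
  hk := fun _ _ h => min_le_min_left _ (D.hf (max_le_max_right _ h))
  hkf := fun _ => min_le_right _ _
  μ := D.μ
  o := D.o
  l := D.l
  t := D.t
  p := D.p
  T i ω := (D.lt k ω, fl1 (D.a (max i (k - 1))) (D.t ω))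
  tm _ θ := θ.2
  ga _ θ := D.gaL k θ.1
  ka i θ := D.kaL k θ.1 - ((θ.2 : ℝ) / 2 ^ D.a (max i (k - 1)) - (θ.1.1 : ℝ) / 2 ^ D.a k) * D.gv k θ.1.2.1
  al _ θ := D.gv k θ.1.2.1
  hT := by
    intro i ω ω' e
    simp only [Prod.mk.injEq] at e ⊢
    exact ⟨e.1, fl1_fl1 (D.ha (max_le_max_right _ (Nat.le_succ i))) e.2⟩
  htm := fun _ _ => rfl

variable {D : Mtd Ω π} {k i j b : ℕ} {ω ω' : Ω} {K : ℝ}

lemma mfz_a (h : k ≤ i + 1) : (mfz D k).a i = D.a i := by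
  show D.a (max i (k - 1)) = D.a i
  rw [max_eq_left (by omega)]

lemma mfz_rf (h : k ≤ i + 1) : (mfz D k).rf i = D.rf i := by
  show D.rf (max i (k - 1)) = D.rf i
  rw [max_eq_left (by omega)]

lemma mfz_rk (h : k ≤ i) : (mfz D k).rk i = D.rr k := by
  show min (D.rr k) (D.rf (max i (k - 1))) = D.rr k
  rw [max_eq_left (by omega)]
  refine min_eq_left ?_
  have h1 := D.hkf k
  have h2 := D.hf h
  have : D.rr k ≤ D.rk k := Nat.sub_le _ _
  omega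

lemma mfz_s (h : k ≤ i + 1) (ω : Ω) : (mfz D k).s i ω = D.s i ω := by
  show rd ((mfz D k).a i) (D.t ω) = rd (D.a i) (D.t ω)
  rw [mfz_a h]

/-- own slope to the digits of the index `i` -/
noncomputable def own (D : Mtd Ω π) (k i : ℕ) (ω : Ω) : ℝ := rd (D.rf (max i (k - 1))) (D.p ω)

/-- the functional of the letter, own slope exchanged -/
noncomputable def cN0 (D : Mtd Ω π) (k : ℕ) (ω : Ω) : ℝ :=
  D.gaL k (D.lt k ω) - D.kaL k (D.lt k ω) * (D.l ω).w - D.g k ω * (D.l ω).N (D.s k ω)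

lemma mfz_ga (i : ℕ) (ω : Ω) : ((mfz D k).F i ω).ga = D.gaL k (D.lt k ω) := rfl

lemma mfz_al (i : ℕ) (ω : Ω) : ((mfz D k).F i ω).al = D.g k ω := rfl

lemma mfz_ka (i : ℕ) (ω : Ω) : ((mfz D k).F i ω).ka =
    D.kaL k (D.lt k ω) - ((mfz D k).s i ω - D.s k ω) * D.g k ω := rfl

/-- the N-coefficient at the ray does not depend on the index -/
lemma mfz_cN (i : ℕ) (ω : Ω) : ((mfz D k).F i ω).cN (D.l ω) ((mfz D k).s i ω) = cN0 D k ω := by
  have hN := (D.l ω).N_add (D.s k ω) ((mfz D k).s i ω - D.s k ω)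
  rw [add_sub_cancel] at hN
  unfold Fu.cN cN0
  rw [mfz_ga, mfz_ka, mfz_al, hN]
  ring

lemma mfz_cN_sh (i : ℕ) (ω : Ω) (s : ℝ) : (((mfz D k).F i ω).sh (s - (mfz D k).s i ω)).cN (D.l ω) s = cN0 D k ω := by
  have h := Fu.cN_sh ((mfz D k).F i ω) (D.l ω) ((mfz D k).s i ω) (s - (mfz D k).s i ω)
  rw [add_sub_cancel] at h
  rw [h, mfz_cN]

/-- the N-coefficient of the letter against the true one -/
lemma cN0_near (hw : |(D.l ω).w| ≤ 2) (hK : 0 ≤ K) (hap : |D.al k ω - D.g k ω| * q2 (D.a k) ≤ K * q2 (D.rk k)) :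
    |cN0 D k ω - D.un ω| ≤ (3 + K) * q2 (D.rr k) := by
  have e1 : |(D.kN k ω : ℝ) / 2 ^ D.rr k - D.oκ - D.κ k ω| ≤ q2 (D.rr k) := by
    have := rd_err (D.rr k) (D.κ k ω + D.oκ)
    have e : (D.kN k ω : ℝ) / 2 ^ D.rr k - D.oκ - D.κ k ω = rd (D.rr k) (D.κ k ω + D.oκ) - (D.κ k ω + D.oκ) := by
      unfold rd Mtd.kN
      ring
    rw [e]
    exact this
  have e2 : |(D.uN k ω : ℝ) / 2 ^ D.rr k - D.oγ - D.u k ω| ≤ q2 (D.rr k) := by
    have := rd_err (D.rr k) (D.u k ω + D.oγ)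
    have e : (D.uN k ω : ℝ) / 2 ^ D.rr k - D.oγ - D.u k ω = rd (D.rr k) (D.u k ω + D.oγ) - (D.u k ω + D.oγ) := by
      unfold rd Mtd.uN
      ring
    rw [e]
    exact this
  have e3 : |(D.l ω).N (D.s k ω) - D.Nr k ω| ≤ q2 (D.a k) := by
    have := rd_err (D.a k) ((D.l ω).N (D.s k ω) + D.o 2)
    have e : (D.l ω).N (D.s k ω) - D.Nr k ω =
        -(rd (D.a k) ((D.l ω).N (D.s k ω) + D.o 2) - ((D.l ω).N (D.s k ω) + D.o 2)) := by
      unfold Mtd.Nr Mtd.nN rd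
      ring
    rw [e, abs_neg]
    exact this
  have e4 : |(D.al k ω - D.g k ω) * ((D.l ω).N (D.s k ω) - D.Nr k ω)| ≤ K * q2 (D.rr k) := by
    rw [abs_mul]
    have h1 : q2 (D.rk k) ≤ q2 (D.rr k) := q2_le (Nat.sub_le _ _)
    calc |D.al k ω - D.g k ω| * |(D.l ω).N (D.s k ω) - D.Nr k ω| ≤ |D.al k ω - D.g k ω| * q2 (D.a k) :=
          mul_le_mul_of_nonneg_left e3 (abs_nonneg _)
      _ ≤ K * q2 (D.rk k) := hap
      _ ≤ _ := mul_le_mul_of_nonneg_left h1 hK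
  have e5 : |(D.κ k ω - ((D.kN k ω : ℝ) / 2 ^ D.rr k - D.oκ)) * (D.l ω).w| ≤ 2 * q2 (D.rr k) := by
    rw [abs_mul, abs_sub_comm]
    calc _ ≤ q2 (D.rr k) * 2 := mul_le_mul e1 hw (abs_nonneg _) (q2_pos _).le
      _ = _ := by ring
  have e : cN0 D k ω - D.un ω = ((D.uN k ω : ℝ) / 2 ^ D.rr k - D.oγ - D.u k ω) +
      (D.κ k ω - ((D.kN k ω : ℝ) / 2 ^ D.rr k - D.oκ)) * (D.l ω).w +
      (D.al k ω - D.g k ω) * ((D.l ω).N (D.s k ω) - D.Nr k ω) := by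
    unfold cN0 Mtd.gaL Mtd.kaL Mtd.u
    show (D.uN k ω : ℝ) / 2 ^ D.rr k - D.oγ + D.g k ω * ((D.nN k ω : ℝ) / 2 ^ D.a k - D.o 2) -
      ((D.kN k ω : ℝ) / 2 ^ D.rr k - D.oκ) * (D.l ω).w - D.g k ω * (D.l ω).N (D.s k ω) - D.un ω = _
    unfold Mtd.Nr
    ring
  rw [e]
  refine (abs_add_le _ _).trans ?_
  have h1 := abs_add_le ((D.uN k ω : ℝ) / 2 ^ D.rr k - D.oγ - D.u k ω)
    ((D.κ k ω - ((D.kN k ω : ℝ) / 2 ^ D.rr k - D.oκ)) * (D.l ω).w)
  linarith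

/-- hypotheses for `mfz D k` at `ω` -/
structure HyM (D : Mtd Ω π) (k : ℕ) (K : ℝ) (ω : Ω) : Prop where
  v1 : |(D.l ω).v| ≤ 2
  w1 : |(D.l ω).w| ≤ 2
  p1 : |D.p ω| ≤ q2 (2 * D.μ)
  n1 : 1 ≤ K * D.un ω
  n2 : D.un ω ≤ K
  k1 : |D.κ k ω| ≤ K
  /-- the number of the prefix, at the level of the step before -/
  g1 : |D.g k ω| * q2 (D.a (k - 1)) ≤ K
  ap : |D.al k ω - D.g k ω| * q2 (D.a k) ≤ K * q2 (D.rk k)
  r0 : 12 * K ^ 2 * q2 (D.rr k) ≤ 1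

/-- **`mfz D k` is a path of the class `3 K`** -/
theorem mfz_Ok (h1 : 1 ≤ K) (h : HyM D k K ω) : (mfz D k).Ok (3 * K) ω := by
  have hK : (0 : ℝ) ≤ K := by linarith
  have hq := q2_pos (D.rr k)
  have hc := cN0_near (D := D) h.w1 hK h.ap
  have hr0 := h.r0
  have hKK : K ≤ K ^ 2 := by nlinarith
  have h3 : (3 + K) * q2 (D.rr k) ≤ 1 / 3 := by
    have : (3 + K) * q2 (D.rr k) ≤ 4 * K * q2 (D.rr k) := by nlinarith
    have h5 : 4 * K * q2 (D.rr k) ≤ 4 * K ^ 2 * q2 (D.rr k) := by nlinarith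
    linarith
  have h4 : K * ((3 + K) * q2 (D.rr k)) ≤ 1 / 3 := by
    have : K * ((3 + K) * q2 (D.rr k)) ≤ K * (4 * K * q2 (D.rr k)) := by
      refine mul_le_mul_of_nonneg_left ?_ hK
      nlinarith
    nlinarith
  have hcu := abs_le.1 hc
  have hn1 := h.n1
  have hn2 := h.n2
  have hs : ∀ i, |(mfz D k).s i ω - D.s k ω| ≤ q2 (D.a (k - 1)) := by
    intro i
    rcases Nat.lt_or_ge i k with hi | hi
    · -- the level of `k - 1`
      have e1 : max i (k - 1) = k - 1 := max_eq_right (by omega)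
      show |rd (D.a (max i (k - 1))) (D.t ω) - rd (D.a k) (D.t ω)| ≤ _
      rw [e1, abs_sub_comm]
      exact Vale.Agent.P127.U.CellD.rd_sub (D.ha (by omega)) _
    · have e1 : max i (k - 1) = i := max_eq_left (by omega)
      show |rd (D.a (max i (k - 1))) (D.t ω) - rd (D.a k) (D.t ω)| ≤ _
      rw [e1]
      exact (Vale.Agent.P127.U.CellD.rd_sub (D.ha hi) _).trans (q2_le (D.ha (by omega)))
  have hcN : ∀ i, ((mfz D k).F i ω).cN ((mfz D k).l ω) ((mfz D k).s i ω) = cN0 D k ω := fun i => mfz_cN i ω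
  refine ⟨h.v1, h.w1, h.p1, ?_, ?_, ?_, ?_, ?_⟩
  · intro i
    rw [hcN]
    nlinarith
  · intro i
    rw [hcN]
    nlinarith
  · intro i
    rw [mfz_ka]
    have e1 : |(D.kN k ω : ℝ) / 2 ^ D.rr k - D.oκ - D.κ k ω| ≤ q2 (D.rr k) := by
      have := rd_err (D.rr k) (D.κ k ω + D.oκ)
      have e : (D.kN k ω : ℝ) / 2 ^ D.rr k - D.oκ - D.κ k ω = rd (D.rr k) (D.κ k ω + D.oκ) - (D.κ k ω + D.oκ) := by
        unfold rd Mtd.kN
        ring
      rw [e]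
      exact this
    have e2 : D.kaL k (D.lt k ω) = (D.kN k ω : ℝ) / 2 ^ D.rr k - D.oκ := rfl
    have e3 : |((mfz D k).s i ω - D.s k ω) * D.g k ω| ≤ K := by
      rw [abs_mul, mul_comm]
      exact (mul_le_mul_of_nonneg_left (hs i) (abs_nonneg _)).trans h.g1
    have hk1 := h.k1
    have hq1 : q2 (D.rr k) ≤ 1 := by nlinarith
    have e4 : |D.kaL k (D.lt k ω)| ≤ K + 1 := by
      rw [e2]
      have := abs_add_le ((D.kN k ω : ℝ) / 2 ^ D.rr k - D.oκ - D.κ k ω) (D.κ k ω)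
      rw [sub_add_cancel] at this
      linarith
    calc _ ≤ |D.kaL k (D.lt k ω)| + |((mfz D k).s i ω - D.s k ω) * D.g k ω| := abs_sub _ _
      _ ≤ 3 * K := by linarith
  · intro i
    rw [mfz_al]
    have e1 : q2 ((mfz D k).a i) ≤ q2 (D.a (k - 1)) := q2_le (D.ha (le_max_right _ _))
    have := mul_le_mul_of_nonneg_left e1 (abs_nonneg (D.g k ω))
    have := h.g1
    linarith
  · intro i j hij
    have hq3 : 0 ≤ 3 * K * q2 ((mfz D k).rk i) := by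
      have := q2_pos ((mfz D k).rk i)
      positivity
    refine ⟨?_, ?_, ?_⟩
    · show |((mfz D k).F j ω).cN (D.l ω) ((mfz D k).s j ω) -
        (((mfz D k).F i ω).sh ((mfz D k).s j ω - (mfz D k).s i ω)).cN (D.l ω) ((mfz D k).s j ω)| ≤ _
      rw [mfz_cN_sh, mfz_cN, sub_self, abs_zero]
      exact hq3
    · show |((mfz D k).F j ω).ka - (((mfz D k).F i ω).ka -
        ((mfz D k).s j ω - (mfz D k).s i ω) * ((mfz D k).F i ω).al)| ≤ _
      rw [mfz_ka, mfz_ka, mfz_al]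
      have e : D.kaL k (D.lt k ω) - ((mfz D k).s j ω - D.s k ω) * D.g k ω -
        (D.kaL k (D.lt k ω) - ((mfz D k).s i ω - D.s k ω) * D.g k ω -
          ((mfz D k).s j ω - (mfz D k).s i ω) * D.g k ω) = 0 := by ring
      rw [e, abs_zero]
      exact hq3
    · show |((mfz D k).F j ω).al - ((mfz D k).F i ω).al| * _ ≤ _
      rw [mfz_al, mfz_al, sub_self, abs_zero, zero_mul]
      exact hq3

/-! ### the cell at the index `k` is `mtr k b` -/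

lemma mfz_bs (h : k ≤ i) (b : ℕ) : (mfz D k).bs i b = min b (D.rf i - D.rr k) := by
  unfold Pth.bs
  rw [mfz_rf (by omega), mfz_rk h]

lemma mfz_R (h : k ≤ i) (b : ℕ) : (mfz D k).R i b = D.rr k + min b (D.rf i - D.rr k) := by
  unfold Pth.R
  rw [mfz_bs h, mfz_rk h]

lemma mfz_F_p1 (ω : Ω) : (mfz D k).F k ω = (D.p1 k).F 0 ω := by
  have e1 : (mfz D k).s k ω = D.s k ω := mfz_s (by omega) ω
  have e2 : (mfz D k).tv k ((mfz D k).T k ω) = D.s k ω := by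
    rw [Pth.tv_T]
    exact e1
  have e3 : (D.p1 k).tv 0 ((D.p1 k).T 0 ω) = D.s k ω := by
    rw [Pth.tv_T]
    rfl
  have ek : (mfz D k).ka k ((mfz D k).T k ω) = (D.p1 k).ka 0 ((D.p1 k).T 0 ω) := by
    have h := mfz_ka (D := D) (k := k) k ω
    rw [e1, sub_self, zero_mul, sub_zero] at h
    exact h
  unfold Pth.F Pth.Fv
  rw [e2, e3, ek]
  have er : rd ((mfz D k).rf k) ((mfz D k).p ω) = rd ((D.p1 k).rf 0) ((D.p1 k).p ω) := by
    show rd ((mfz D k).rf k) (D.p ω) = rd (D.rf k) (D.p ω)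
    rw [mfz_rf (by omega)]
  rw [er]
  rfl

lemma mfz_bs_p1 (b : ℕ) : (mfz D k).bs k b = (D.p1 k).bs 0 b := by
  rw [mfz_bs le_rfl]
  rfl

lemma mfz_R_p1 (b : ℕ) : (mfz D k).R k b = (D.p1 k).R 0 b := by
  rw [mfz_R le_rfl]
  rfl

lemma mfz_sl_p1 (b : ℕ) (ω : Ω) : (mfz D k).sl k b ω = (D.p1 k).sl 0 b ω := by
  unfold Pth.sl
  rw [mfz_F_p1, mfz_bs_p1]
  rfl

lemma mfz_Fr_p1 (b m : ℕ) (ω : Ω) : (mfz D k).Fr k b m ω = (D.p1 k).Fr 0 b m ω := by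
  unfold Pth.Fr Pth.ro
  rw [mfz_F_p1, mfz_bs_p1, mfz_sl_p1]
  rfl

lemma mfz_lv_p1 (b : ℕ) : (mfz D k).lv k b = (D.p1 k).lv 0 b := by
  unfold Pth.lv
  rw [mfz_R_p1, mfz_a (by omega)]
  rfl

lemma mfz_va_p1 (b : ℕ) (ω : Ω) : (mfz D k).va k b ω = (D.p1 k).va 0 b ω := by
  have e1 : (mfz D k).s k ω = (D.p1 k).s 0 ω := mfz_s (by omega) ω
  unfold Pth.va
  rw [mfz_R_p1, mfz_sl_p1, e1]
  simp only [mfz_Fr_p1]
  rfl

lemma mfz_dg_p1 (b : ℕ) (ω : Ω) : (mfz D k).dg k b ω = (D.p1 k).dg 0 b ω := by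
  unfold Pth.dg
  rw [mfz_lv_p1, mfz_va_p1]
  rfl

/-- **the cell is `mtr k b`** -/
theorem mfz_cell_iff (b : ℕ) (ω ω' : Ω) : (mfz D k).cell k b ω = (mfz D k).cell k b ω' ↔
    D.mtr k b ω = D.mtr k b ω' := by
  have e : ∀ ω, (mfz D k).cell k b ω = ((D.lt k ω, fl1 (D.a (max k (k - 1))) (D.t ω)), (D.p1 k).dg 0 b ω) := by
    intro ω
    unfold Pth.cell
    rw [mfz_dg_p1]
    rfl
  rw [e, e]
  unfold Mtd.mtr
  simp only [Prod.mk.injEq]
  constructor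
  · rintro ⟨⟨h1, _⟩, h3⟩
    exact ⟨h1, h3⟩
  · rintro ⟨h1, h3⟩
    refine ⟨⟨h1, ?_⟩, h3⟩
    rw [max_eq_left (by omega : k - 1 ≤ k)]
    exact congrArg Prod.fst h1

/-- the letter of a later index: the letter of `k` and the time -/
lemma mfz_T_iff (h : k ≤ i + 1) : (mfz D k).T i ω = (mfz D k).T i ω' ↔ D.lt k ω = D.lt k ω' ∧
    fl1 (D.a i) (D.t ω) = fl1 (D.a i) (D.t ω') := by
  show (D.lt k ω, fl1 (D.a (max i (k - 1))) (D.t ω)) = (D.lt k ω', fl1 (D.a (max i (k - 1))) (D.t ω')) ↔ _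
  rw [max_eq_left (by omega : k - 1 ≤ i), Prod.mk.injEq]

/-! ### the M-steps over `mtr` -/

section steps

variable [Fintype Ω]

/-- the time digits -/
noncomputable def tdM (D : Mtd Ω π) (i : ℕ) (ω : Ω) : ℤ := fl1 (D.a i) (D.t ω)

/-- **the (V, Z)-step over `mtr k`, time only** -/
theorem satVZ_m {P : Law Ω} {b' p i' : ℕ} (h1 : 1 ≤ K) (hK : ∀ ω, 0 < P.w ω → HyM D k K ω) (hb8 : 8 * D.μ ≤ b)
    (hR8 : 8 * D.μ ≤ D.rr k + min b (D.rf k - D.rr k)) (hbb : b + 8 * D.μ ≤ b') (hbp : b + p ≤ b') (hp : D.μ ≤ p)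
    (ha : D.a k + 4 * D.μ ≤ D.a i') (hi : k ≤ i') {m g : ℕ} (hk : 1 ≤ k) (hkj : D.a k = D.a (k - 1) + m)
    (hm : 1 ≤ m) (hmg : m ≤ g) (hg : g ≤ D.μ)
    (hμ : 10 * 2 ^ (m + 5 * g + 4) * (70 * (3 * K) ^ 4 * q2 D.μ) ≤ 1) {ι₁ ι₂ : ℝ}
    (hi1 : mi P (fun ω => fl1 (b + p) (D.l ω).v) ((mfz D k).cell i' b) (fun ω => (D.mtr k b ω, tdM D i' ω)) ≤ ι₁)
    (hi2 : mi P (tdM D i') (fun ω => (D.mtr k b' ω, fl1 (b + p) (D.l ω).v)) (D.mtr k b) ≤ ι₂) :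
    2 * m * Real.log 2 - (15 + 13 * m * (colp P (fun ω => fl1 (D.a k + g) (D.t ω)) (D.mtr k b) +
        colp P (fun ω => fl1 (b + g) (D.l ω).v) (D.mtr k b)) +
      2 ^ (22 * g) * (Real.sqrt ι₁ + Real.sqrt ι₂)) ≤
    hc P ((mfz D k).VZ k b) (fun ω => ((mfz D k).VZ (k - 1) b ω, (D.mtr k b ω, tdM D i' ω))) := by
  have hak : (mfz D k).a k = D.a k := mfz_a (by omega)
  have hai : (mfz D k).a i' = D.a i' := mfz_a (by omega)
  have hak1 : (mfz D k).a (k - 1) = D.a (k - 1) := mfz_a (by omega)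
  have hlt : ∀ ω ω', D.mtr k b ω = D.mtr k b ω' → D.lt k ω = D.lt k ω' := fun ω ω' e => congrArg Prod.fst e
  have hRb : ∀ c, b ≤ c → 8 * D.μ ≤ (mfz D k).R k c := by
    intro c hc
    rw [mfz_R le_rfl]
    omega
  have main := H357.satVZ (P := P) (C := mfz D k) (K := 3 * K) (b := b) (b' := b') (p := p) (i' := i') (j := k)
    (by linarith) (fun ω hω => mfz_Ok h1 (hK ω hω)) ⟨hb8, hRb b le_rfl⟩ ⟨by show 8 * D.μ ≤ b'; omega, hRb b' (by omega)⟩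
    hbb hbp hp (by rw [hak, hai]; exact ha) hi (k := k - 1) (by omega) (by rw [hak, hak1]; exact hkj) hm hmg hg hμ
    (ι₁ := ι₁) (ι₂ := ι₂) ?_ ?_
  · have e1 : colp P (fun ω => fl1 ((mfz D k).a k + g) ((mfz D k).t ω)) ((mfz D k).cell k b) =
        colp P (fun ω => fl1 (D.a k + g) (D.t ω)) (D.mtr k b) := by
      rw [hak]
      exact Vale.Agent.P127.U.Mic.colp_congr P (fun _ _ _ _ e => congrArg Prod.fst e)
        (fun _ _ _ _ e => congrArg Prod.fst e) (fun ω ω' _ _ e => (mfz_cell_iff b ω ω').2 e)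
        (fun ω ω' _ _ e => (mfz_cell_iff b ω ω').1 e)
    have e2 : colp P (fun ω => fl1 (b + g) ((mfz D k).l ω).v) ((mfz D k).cell k b) =
        colp P (fun ω => fl1 (b + g) (D.l ω).v) (D.mtr k b) :=
      Vale.Agent.P127.U.Mic.colp_congr P (fun _ _ _ _ e => congrArg Prod.fst e)
        (fun _ _ _ _ e => congrArg Prod.fst e) (fun ω ω' _ _ e => (mfz_cell_iff b ω ω').2 e)
        (fun ω ω' _ _ e => (mfz_cell_iff b ω ω').1 e)
    rw [e1, e2] at main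
    refine main.trans (le_of_eq ?_)
    refine hc_congr P (fun ω ω' _ _ e => congrArg Prod.fst e) (fun ω ω' _ _ e => congrArg Prod.fst e) ?_ ?_
    · intro ω ω' _ _ e
      simp only [Prod.mk.injEq] at e ⊢
      exact ⟨e.1, (mfz_cell_iff b ω ω').2 e.2.1, (mfz_T_iff (by omega)).2 ⟨hlt ω ω' e.2.1, e.2.2⟩⟩
    · intro ω ω' _ _ e
      simp only [Prod.mk.injEq] at e ⊢
      exact ⟨e.1, (mfz_cell_iff b ω ω').1 e.2.1, ((mfz_T_iff (by omega)).1 e.2.2).2⟩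
  · refine le_trans (le_of_eq ?_) hi1
    refine mi_congr_cond P _ _ ?_ ?_
    · intro ω ω' _ _ e
      simp only [Prod.mk.injEq] at e ⊢
      exact ⟨(mfz_cell_iff b ω ω').2 e.1, (mfz_T_iff (by omega)).2 ⟨hlt ω ω' e.1, e.2⟩⟩
    · intro ω ω' _ _ e
      simp only [Prod.mk.injEq] at e ⊢
      exact ⟨(mfz_cell_iff b ω ω').1 e.1, ((mfz_T_iff (by omega)).1 e.2).2⟩
  · refine le_trans ?_ hi2
    have e0 : mi P ((mfz D k).T i') (fun ω => ((mfz D k).cell k b' ω, fl1 (b + p) ((mfz D k).l ω).v))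
        ((mfz D k).cell k b) = mi P ((mfz D k).T i') (fun ω => ((mfz D k).cell k b' ω,
        fl1 (b + p) ((mfz D k).l ω).v)) (D.mtr k b) :=
      mi_congr_cond P _ _ (fun ω ω' _ _ e => (mfz_cell_iff b ω ω').2 e)
        (fun ω ω' _ _ e => (mfz_cell_iff b ω ω').1 e)
    rw [e0]
    refine (mi_mono_left P _ ?_).trans (mi_mono_right P _ ?_)
    · intro ω ω' _ _ e
      simp only [Prod.mk.injEq] at e
      exact (mfz_T_iff (by omega)).2 ⟨hlt ω ω' e.2, e.1⟩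
    · intro ω ω' _ _ e
      simp only [Prod.mk.injEq] at e ⊢
      exact ⟨(mfz_cell_iff b' ω ω').2 e.1.1, e.1.2⟩

/-- the cell `mtr k b` with the digits of the slope, in the frame of `lt k` -/
noncomputable def DpM (D : Mtd Ω π) (k b : ℕ) (ω : Ω) : (Lt π × Pth.Dg) × ℤ :=
  (D.mtr k b ω, fl1 (D.rf k) (H683.slR (mfz D k) k b ω + D.o 4))

/-- the later letter: time digits and digits of the slope, in the frame of `lt k` -/
noncomputable def ThM (D : Mtd Ω π) (k b i : ℕ) (ω : Ω) : ℤ × ℤ :=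
  (tdM D i ω, fl1 (D.rf i) (H683.slR (mfz D k) i b ω + D.o 4))

/-- **the N-step in the phi regime over `mtr (j + 1)`**, positions in the frame of `lt (j + 1)`: `PSatPhi` for the path frozen
over `lt (j + 1)` -/
theorem satPhi_mfz (h : MIC.PSatPhi) : ∃ c : ℕ, ∀ {Ω π : Type} [Fintype Ω] (P : Law Ω) (D : Mtd Ω π) (K : ℝ)
    (c0 m g p b b' j i : ℕ) (ι₁ ι₂ : ℝ), 1 ≤ K → (∀ ω, 0 < P.w ω → HyM D (j + 1) K ω) →
    j + 1 ≤ i → 8 * D.μ ≤ b → 8 * D.μ ≤ D.rf j → D.a (j + 1) + 8 * D.μ ≤ D.a i → D.rf (j + 1) + 8 * D.μ ≤ D.rf i →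
    D.rr (j + 1) ≤ D.rf j →
    D.rf (j + 1) + D.a i + 8 * D.μ ≤ b + D.rr (j + 1) + D.a (j + 1) →
    D.rf j + D.a i + 8 * D.μ ≤ b + D.rr (j + 1) + D.a j → D.rf i ≤ b + D.rr (j + 1) →
    ((D.a (j + 1) = D.a j + m ∧ D.rf (j + 1) = D.rf j) ∨ (D.a (j + 1) = D.a j ∧ D.rf (j + 1) = D.rf j + m)) →
    b + 8 * D.μ ≤ b' → D.μ ≤ p → b + p ≤ b' → 6 * K ≤ 2 ^ c0 → 1 ≤ m → m ≤ g → c * (g + c0 + 1) ≤ D.μ →
    mi P (fun ω => fl1 (b + p) (D.l ω).v) ((mfz D (j + 1)).cell i b)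
      (fun ω => (DpM D (j + 1) b ω, ThM D (j + 1) b i ω)) ≤ ι₁ →
    mi P (ThM D (j + 1) b i) (D.mtr (j + 1) b') (DpM D (j + 1) b) ≤ ι₂ →
    (3 * ((D.a (j + 1) : ℝ) - D.a j) + ((D.rf (j + 1) : ℝ) - D.rf j)) * Real.log 2 -
      (c * (c0 + 1) + c * m * (colp P (fun ω => fl1 (D.a (j + 1) + g) (D.t ω)) (DpM D (j + 1) b) +
        colp P (fun ω => fl1 (D.rf (j + 1) + g) (H683.slR (mfz D (j + 1)) (j + 1) b ω)) (DpM D (j + 1) b) +
        colp P (fun ω => fl1 (b + g) (D.l ω).v) (DpM D (j + 1) b)) +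
        (2 : ℝ) ^ (c * (g + c0 + 1)) * (Real.sqrt ι₁ + Real.sqrt ι₂)) ≤
    hc P ((mfz D (j + 1)).A (j + 1) b i)
      (fun ω => ((mfz D (j + 1)).A j b i ω, (D.mtr (j + 1) b ω, ThM D (j + 1) b i ω))) := by
  obtain ⟨c, h⟩ := h
  refine ⟨c, ?_⟩
  intro Ω π _ P D K c0 m g p b b' j i ι₁ ι₂ h1K hok hji hb hf ha hrf hrr hr1 hr0 hri hadv hbb hp hbp hK hm hmg hμ hi1 hi2
  have haj1 : (mfz D (j + 1)).a (j + 1) = D.a (j + 1) := mfz_a (by omega)
  have haj : (mfz D (j + 1)).a j = D.a j := mfz_a (by omega)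
  have hai : (mfz D (j + 1)).a i = D.a i := mfz_a (by omega)
  have hfj1 : (mfz D (j + 1)).rf (j + 1) = D.rf (j + 1) := mfz_rf (by omega)
  have hfj : (mfz D (j + 1)).rf j = D.rf j := mfz_rf (by omega)
  have hfi : (mfz D (j + 1)).rf i = D.rf i := mfz_rf (by omega)
  have hkj1 : (mfz D (j + 1)).rk (j + 1) = D.rr (j + 1) := mfz_rk le_rfl
  have hki : (mfz D (j + 1)).rk i = D.rr (j + 1) := mfz_rk hji
  have hkj : (mfz D (j + 1)).rk j = D.rr (j + 1) := by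
    show min (D.rr (j + 1)) (D.rf (max j (j + 1 - 1))) = D.rr (j + 1)
    rw [max_eq_left (by omega)]
    exact min_eq_left hrr
  have e1 := D.ha (Nat.le_succ j)
  have e2 := D.hf (Nat.le_succ j)
  have hm1 : (mfz D (j + 1)).μ = D.μ := rfl
  have R1 : H683.Reg (mfz D (j + 1)) (j + 1) i b := by
    refine ⟨hji, hb, ?_, ?_, ?_, ?_, ?_⟩
    · rw [hfj1, hm1]; omega
    · rw [haj1, hai]; exact ha
    · rw [hfj1, hfi]; exact hrf
    · rw [hfj1, hai, hkj1, haj1]; exact hr1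
    · rw [hfi, hki]; exact hri
  have R0 : H683.Reg (mfz D (j + 1)) j i b := by
    refine ⟨by omega, hb, ?_, ?_, ?_, ?_, ?_⟩
    · rw [hfj]; exact hf
    · rw [haj, hai, hm1]; omega
    · rw [hfj, hfi, hm1]; omega
    · rw [hfj, hai, hkj, haj]; exact hr0
    · rw [hfi, hki]; exact hri
  have eR1 : (mfz D (j + 1)).R (j + 1) b = D.rf (j + 1) := by
    rw [Pth.R_eq, hkj1, hfj1]; omega
  have eR0 : (mfz D (j + 1)).R j b = D.rf j := by
    rw [Pth.R_eq, hkj, hfj]; omega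
  have hadv' : MIC.Adv (mfz D (j + 1)) m b j := by
    unfold MIC.Adv
    rw [eR1, eR0, haj1, haj]
    exact hadv
  have eTh : ∀ ω, MIC.Th (mfz D (j + 1)) b i ω = ((mfz D (j + 1)).T i ω, (ThM D (j + 1) b i ω).2) := by
    intro ω
    unfold MIC.Th
    rw [if_pos (by rw [hfi, hki]; exact hri), hfi]
    rfl
  have eDp : ∀ ω ω', H683.Dp (mfz D (j + 1)) (j + 1) b ω = H683.Dp (mfz D (j + 1)) (j + 1) b ω' ↔
      DpM D (j + 1) b ω = DpM D (j + 1) b ω' := by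
    intro ω ω'
    unfold H683.Dp DpM
    rw [hfj1]
    simp only [Prod.mk.injEq]
    exact and_congr_left' (mfz_cell_iff b ω ω')
  have eTj : ∀ ω ω', DpM D (j + 1) b ω = DpM D (j + 1) b ω' → D.lt (j + 1) ω = D.lt (j + 1) ω' := by
    intro ω ω' e
    exact congrArg Prod.fst (congrArg Prod.fst e)
  have eThiff : ∀ ω ω', D.lt (j + 1) ω = D.lt (j + 1) ω' → (MIC.Th (mfz D (j + 1)) b i ω =
      MIC.Th (mfz D (j + 1)) b i ω' ↔ ThM D (j + 1) b i ω = ThM D (j + 1) b i ω') := by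
    intro ω ω' hT
    rw [eTh, eTh]
    unfold ThM
    simp only [Prod.mk.injEq]
    refine and_congr_left' ?_
    rw [mfz_T_iff (by omega)]
    exact ⟨fun e => e.2, fun e => ⟨hT, e⟩⟩
  have m1 : mi P (fun ω => fl1 (b + p) ((mfz D (j + 1)).l ω).v) ((mfz D (j + 1)).cell i b)
      (fun ω => (H683.Dp (mfz D (j + 1)) (j + 1) b ω, MIC.Th (mfz D (j + 1)) b i ω)) ≤ ι₁ := by
    refine le_trans (le_of_eq ?_) hi1
    refine mi_congr_cond P _ _ ?_ ?_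
    · intro ω ω' _ _ e
      simp only [Prod.mk.injEq] at e ⊢
      exact ⟨(eDp ω ω').2 e.1, (eThiff ω ω' (eTj ω ω' e.1)).2 e.2⟩
    · intro ω ω' _ _ e
      simp only [Prod.mk.injEq] at e ⊢
      have e1 := (eDp ω ω').1 e.1
      exact ⟨e1, (eThiff ω ω' (eTj ω ω' e1)).1 e.2⟩
  have m2 : mi P (MIC.Th (mfz D (j + 1)) b i) ((mfz D (j + 1)).cell (j + 1) b')
      (H683.Dp (mfz D (j + 1)) (j + 1) b) ≤ ι₂ := by
    refine le_trans ?_ hi2
    have e0 : mi P (MIC.Th (mfz D (j + 1)) b i) ((mfz D (j + 1)).cell (j + 1) b')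
        (H683.Dp (mfz D (j + 1)) (j + 1) b) = mi P (MIC.Th (mfz D (j + 1)) b i) ((mfz D (j + 1)).cell (j + 1) b')
        (DpM D (j + 1) b) :=
      mi_congr_cond P _ _ (fun ω ω' _ _ e => (eDp ω ω').2 e) (fun ω ω' _ _ e => (eDp ω ω').1 e)
    rw [e0]
    refine (mi_mono_left P _ ?_).trans (mi_mono_right P _ ?_)
    · intro ω ω' _ _ e
      simp only [Prod.mk.injEq] at e
      exact (eThiff ω ω' (eTj ω ω' e.2)).2 e.1
    · intro ω ω' _ _ e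
      simp only [Prod.mk.injEq] at e
      exact (mfz_cell_iff b' ω ω').2 e.1
  have main := h P (mfz D (j + 1)) (3 * K) c0 m g p b b' j i ι₁ ι₂ (fun ω hω => mfz_Ok h1K (hok ω hω)) R1 R0 hadv'
    hbb hp hbp (by linarith) hm hmg hμ m1 m2
  unfold MIC.SatN at main
  have c1 : MIC.wt (mfz D (j + 1)) b j = 3 * ((D.a (j + 1) : ℝ) - D.a j) + ((D.rf (j + 1) : ℝ) - D.rf j) := by
    unfold MIC.wt
    rw [eR1, eR0, haj1, haj]
  have c2 : ∀ {S : Type} (X : Ω → S), colp P X (H683.Dp (mfz D (j + 1)) (j + 1) b) = colp P X (DpM D (j + 1) b) :=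
    fun X => Vale.Agent.P127.U.Mic.colp_congr P (fun _ _ _ _ e => congrArg Prod.fst e)
      (fun _ _ _ _ e => congrArg Prod.fst e) (fun ω ω' _ _ e => (eDp ω ω').2 e) (fun ω ω' _ _ e => (eDp ω ω').1 e)
  have c3 : MIC.cT P (mfz D (j + 1)) b (j + 1) g =
      colp P (fun ω => fl1 (D.a (j + 1) + g) (D.t ω)) (DpM D (j + 1) b) := by
    unfold MIC.cT
    rw [c2, haj1]
    rfl
  have c4 : MIC.cF P (mfz D (j + 1)) b (j + 1) g =
      colp P (fun ω => fl1 (D.rf (j + 1) + g) (H683.slR (mfz D (j + 1)) (j + 1) b ω)) (DpM D (j + 1) b) := by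
    unfold MIC.cF
    rw [c2, hfj1]
  have c5 : MIC.cY P (mfz D (j + 1)) b (j + 1) g =
      colp P (fun ω => fl1 (b + g) (D.l ω).v) (DpM D (j + 1) b) := c2 _
  rw [c1, c3, c4, c5] at main
  refine main.trans (le_of_eq ?_)
  refine hc_congr P (fun ω ω' _ _ e => congrArg Prod.fst e) (fun ω ω' _ _ e => congrArg Prod.fst e) ?_ ?_
  · intro ω ω' _ _ e
    simp only [Prod.mk.injEq] at e ⊢
    exact ⟨e.1, (mfz_cell_iff b ω ω').2 e.2.1, (eThiff ω ω' (congrArg Prod.fst e.2.1)).2 e.2.2⟩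
  · intro ω ω' _ _ e
    simp only [Prod.mk.injEq] at e ⊢
    have e1 := (mfz_cell_iff b ω ω').1 e.2.1
    exact ⟨e.1, e1, (eThiff ω ω' (congrArg Prod.fst e1)).1 e.2.2⟩

end steps

end Vale.Agent.P106.U.H958
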