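import Vale.Agent.P106.U.H958.Mfz
import Vale.Agent.P106.U.H300.GenX

/-!
# P106 / U / H958 : two paths which are equal at one index (helper958)

`EqAt C C' i` : all data of the index `i` are the same. Then cells, slopes, exceptional events at `i` are the same functions.

* **`eqAt_mfz`** : `mfz D k` and 785's `D.fz j k` (`j ≤ k`) are equal at every index `i ≥ k`; hence the letters, cells and
  events of both are literally the same functions there: `mfz_cell_fz`, `mfz_slR_fz`, `mfz_Bad_fz` ...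
* `HyM_of_Hy` : hypotheses of `mfz_Ok` from 785's `Hy`.
-/

set_option autoImplicit false

namespace Vale.Agent.P106.U.H958

open Finset Vale.Agent.P127 Vale.Agent.P127.Stk Vale.Agent.P106.U.Cell
open Vale.Agent.P106.U.H785.Mtr (Mtd Lt)
open Vale.Agent.P127.U.CellD (q2 rd Nb q2_pos q2_add q2_le q2_mul_pow fl1_fl1 rd_err)

variable {Ω τ π : Type}

/-- the data of the index `i` are the same -/
structure EqAt (C C' : Pth Ω τ) (i : ℕ) : Prop where
  a : C.a i = C'.a i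
  rf : C.rf i = C'.rf i
  rk : C.rk i = C'.rk i
  μ : C.μ = C'.μ
  o : C.o = C'.o
  l : C.l = C'.l
  t : C.t = C'.t
  p : C.p = C'.p
  T : C.T i = C'.T i
  tm : C.tm i = C'.tm i
  ga : C.ga i = C'.ga i
  ka : C.ka i = C'.ka i
  al : C.al i = C'.al i

namespace EqAt

variable {C C' : Pth Ω τ} {i j : ℕ}

lemma symm (h : EqAt C C' i) : EqAt C' C i :=
  ⟨h.a.symm, h.rf.symm, h.rk.symm, h.μ.symm, h.o.symm, h.l.symm, h.t.symm, h.p.symm, h.T.symm, h.tm.symm, h.ga.symm,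
    h.ka.symm, h.al.symm⟩

lemma s (h : EqAt C C' i) : C.s i = C'.s i := by
  funext ω
  unfold Pth.s
  rw [h.a, h.t]

lemma F (h : EqAt C C' i) : C.F i = C'.F i := by
  funext ω
  unfold Pth.F Pth.Fv Pth.tv
  rw [h.a, h.rf, h.l, h.p, h.T, h.tm, h.ga, h.ka, h.al]

lemma bs (h : EqAt C C' i) : C.bs i = C'.bs i := by
  funext b
  unfold Pth.bs
  rw [h.rf, h.rk]

lemma R (h : EqAt C C' i) : C.R i = C'.R i := by
  funext b
  unfold Pth.R
  rw [h.rk, h.bs]

lemma sl (h : EqAt C C' i) : C.sl i = C'.sl i := by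
  funext b ω
  unfold Pth.sl
  rw [h.F, h.bs, h.l]

lemma ro (h : EqAt C C' i) : C.ro = C'.ro := by
  funext k n y
  unfold Pth.ro
  rw [h.o]

lemma Fr (h : EqAt C C' i) : C.Fr i = C'.Fr i := by
  funext b m ω
  unfold Pth.Fr
  rw [h.F, h.ro, h.sl, h.bs, h.l]

lemma Zs (h : EqAt C C' i) : C.Zs = C'.Zs := by
  funext b s ω
  unfold Pth.Zs
  rw [h.l, h.ro, h.μ]

lemma lv (h : EqAt C C' i) : C.lv i = C'.lv i := by
  funext b
  unfold Pth.lv
  rw [h.a, h.μ, h.R]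

lemma va (h : EqAt C C' i) : C.va i = C'.va i := by
  funext b ω
  unfold Pth.va
  rw [h.l, h.s, h.Zs, h.sl, h.Fr, h.R, h.μ]

lemma dg (h : EqAt C C' i) : C.dg i = C'.dg i := by
  funext b ω
  unfold Pth.dg
  rw [h.l, h.lv, h.va, h.o]

/-- the cell -/
lemma cell (h : EqAt C C' i) : C.cell i = C'.cell i := by
  funext b ω
  unfold Pth.cell
  rw [h.T, h.dg]

lemma VZ (h : EqAt C C' i) : C.VZ i = C'.VZ i := by
  funext b ω
  unfold Pth.VZ
  rw [h.a, h.l, h.s, h.Zs]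

lemma U (h : EqAt C C' i) : C.U i = C'.U i := by
  funext ω
  unfold Pth.U
  rw [h.T, h.rf, h.p]

/-- positions -/
lemma A (h : EqAt C C' i) (h' : EqAt C C' j) (b : ℕ) : C.A i b j = C'.A i b j := by
  funext ω
  unfold Pth.A
  rw [h.a, h.R, h.l, h.μ, h.o, h.Zs, h.sl, h.Fr, h.s, h'.s]

/-- real slope -/
lemma slR (h : EqAt C C' i) : H683.slR C i = H683.slR C' i := by
  funext b ω
  unfold H683.slR
  rw [h.p, h.F, h.l, h.s, h.bs]

lemma slR' (h : EqAt C C' i) : H420.slR C i = H420.slR C' i := by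
  funext b ω
  unfold H420.slR
  rw [h.p, h.F, h.l, h.s, h.bs]

lemma Bad (h : EqAt C C' i) (K : ℝ) : C.Bad K i = C'.Bad K i := by
  funext b ω
  unfold Pth.Bad
  rw [h.lv, h.va, h.o, h.μ]

lemma BadS (h : EqAt C C' i) (K : ℝ) : H420.BadS C K i = H420.BadS C' K i := by
  funext b ω
  unfold H420.BadS
  rw [h.rf, h.slR', h.o, h.μ]

lemma BadR (h : EqAt C C' i) (K : ℝ) : H300.BadR C K i = H300.BadR C' K i := by
  funext b ω
  unfold H300.BadR
  first
    | rw [h.R, h.slR, h.o, h.rf, h.μ]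
    | rw [h.R, h.slR', h.o, h.rf, h.μ]

lemma Dp (h : EqAt C C' i) : H683.Dp C i = H683.Dp C' i := by
  funext b ω
  unfold H683.Dp
  rw [h.cell, h.rf, h.slR, h.o]

/-- the letter of the later step (683, `MIC`) -/
lemma Th (h : EqAt C C' i) (b : ℕ) : MIC.Th C b i = MIC.Th C' b i := by
  funext ω
  unfold MIC.Th
  rw [h.T, h.rf, h.rk, h.slR, h.o]

end EqAt

variable {D : Mtd Ω π} {i j k b : ℕ} {ω ω' : Ω} {K : ℝ}

/-- **`mfz D k` and `D.fz j k` are equal at every index `i ≥ k`** -/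
theorem eqAt_mfz (hj : j ≤ k) (hi : k ≤ i) : EqAt (mfz D k) (D.fz j k) i := by
  have e1 : max i (k - 1) = i := max_eq_left (by omega)
  have e2 : max i j = i := max_eq_left (by omega)
  refine ⟨?_, ?_, ?_, rfl, rfl, rfl, rfl, rfl, ?_, rfl, rfl, ?_, rfl⟩
  · show D.a (max i (k - 1)) = D.a (max i j)
    rw [e1, e2]
  · show D.rf (max i (k - 1)) = D.rf (max i j)
    rw [e1, e2]
  · rw [mfz_rk hi]
    show D.rr k = D.rr (min (max i j) k)
    rw [e2, min_eq_right hi]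
  · funext ω
    show (D.lt k ω, fl1 (D.a (max i (k - 1))) (D.t ω)) = (D.lt k ω, fl1 (D.a (max i j)) (D.t ω))
    rw [e1, e2]
  · funext θ
    show D.kaL k θ.1 - ((θ.2 : ℝ) / 2 ^ D.a (max i (k - 1)) - (θ.1.1 : ℝ) / 2 ^ D.a k) * D.gv k θ.1.2.1 =
      D.kaL k θ.1 - ((θ.2 : ℝ) / 2 ^ D.a (max i j) - (θ.1.1 : ℝ) / 2 ^ D.a k) * D.gv k θ.1.2.1
    rw [e1, e2]

/-- hypotheses of `mfz_Ok` from 785's `Hy` on the steps `k - 1`, `k` -/
theorem HyM_of_Hy {I : Set ℕ} (h1 : 1 ≤ K) (h : D.Hy K I ω) (hk : k ∈ I) (hk' : k - 1 ∈ I)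
    (ha : D.a k ≤ D.a (k - 1) + D.rk (k - 1)) (r0 : 108 * K ^ 2 * q2 (D.rr k) ≤ 1) : HyM D k (3 * K) ω := by
  have K0 : 0 < K := by linarith
  refine ⟨h.v1, h.w1, h.p1, ?_, ?_, ?_, ?_, ?_, ?_⟩
  · have := h.n1
    have h2 : 0 < D.un ω := by
      by_contra hc
      push Not at hc
      have := mul_nonpos_of_nonneg_of_nonpos K0.le hc
      linarith
    nlinarith
  · have := h.n2
    linarith
  · have := h.k1 k hk
    linarith
  · have a1 := h.a1 _ hk'
    have aa := h.aa _ hk' _ hk (Nat.sub_le _ _)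
    have ap := h.ap _ hk
    have hrk : q2 (D.rk k) ≤ q2 (D.rk (k - 1)) := q2_le (D.hk (Nat.sub_le _ _))
    have e : q2 (D.a (k - 1)) * q2 (D.rk (k - 1)) ≤ q2 (D.a k) := by
      rw [← q2_add]
      exact q2_le ha
    have hm : ∀ x : ℝ, |x| * q2 (D.a k) ≤ K * q2 (D.rk (k - 1)) → |x| * q2 (D.a (k - 1)) ≤ K := by
      intro x hx
      have hq := q2_pos (D.rk (k - 1))
      have h3 : |x| * (q2 (D.a (k - 1)) * q2 (D.rk (k - 1))) ≤ K * q2 (D.rk (k - 1)) :=
        (mul_le_mul_of_nonneg_left e (abs_nonneg _)).trans hx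
      have h4 : (|x| * q2 (D.a (k - 1))) * q2 (D.rk (k - 1)) ≤ K * q2 (D.rk (k - 1)) := by
        rw [mul_assoc]; exact h3
      exact le_of_mul_le_mul_right h4 hq
    have b1 := hm _ aa
    have b2 := hm _ (ap.trans (mul_le_mul_of_nonneg_left hrk K0.le))
    have e6 : |D.g k ω| ≤ |D.al (k - 1) ω| + |D.al k ω - D.al (k - 1) ω| + |D.al k ω - D.g k ω| := by
      have : D.g k ω = D.al (k - 1) ω + (D.al k ω - D.al (k - 1) ω) + -(D.al k ω - D.g k ω) := by ring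
      rw [this]
      refine (abs_add_le _ _).trans (add_le_add (abs_add_le _ _) (le_of_eq ?_))
      rw [abs_neg]
      congr 1
      ring
    have e7 := mul_le_mul_of_nonneg_right e6 (q2_pos (D.a (k - 1))).le
    nlinarith
  · have := h.ap _ hk
    have hq := q2_pos (D.rk k)
    nlinarith
  · have : 12 * (3 * K) ^ 2 * q2 (D.rr k) = 108 * K ^ 2 * q2 (D.rr k) := by ring
    rw [this]
    exact r0

/-- **`mfz D k` is a path**, from 785's hypotheses -/
theorem mfz_Ok_of_Hy {I : Set ℕ} (h1 : 1 ≤ K) (h : D.Hy K I ω) (hk : k ∈ I) (hk' : k - 1 ∈ I)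
    (ha : D.a k ≤ D.a (k - 1) + D.rk (k - 1)) (r0 : 108 * K ^ 2 * q2 (D.rr k) ≤ 1) : (mfz D k).Ok (9 * K) ω := by
  have := mfz_Ok (K := 3 * K) (by linarith) (HyM_of_Hy h1 h hk hk' ha r0)
  rwa [show 3 * (3 * K) = 9 * K by ring] at this

end Vale.Agent.P106.U.H958
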