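import Vale.Agent.P106.U.H958.FzSum
import Vale.Agent.P106.U.H683.L2D
import Vale.Agent.P106.U.H336.SwW
import Vale.Agent.P106.U.H364.NwRec
import Vale.Agent.P106.U.H384.RunsR
import Vale.Agent.P106.U.H513.SIo

/-!
# P106 / U / H958 : row [SI], kind 2, over the situation `MIC.St` of a scale (helper958)

* `chain_sum`, `chain_pairs` : telescoping along ONE chain of admissible pairs (no runs): `I q ≤ Φ q - Φ q' + ν q` for every later
  `q'` with `S` more levels.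
* `i1_pair` : one step.
* **`si2_st`** : both sums of 683's `I1V`, `I2V` over `s : St ..`, in the form of 425's `ev_seG`; `ev_num2` : its numbers.
-/

set_option autoImplicit false

namespace Vale.Agent.P106.U.H958

open Finset Vale.Agent.P127 Vale.Agent.P127.Stk Vale.Agent.P106.U.Cell
open Vale.Agent.P106.U.H785.Mtr
open Vale.Agent.P127.U.CellD (q2 rd Nb q2_pos q2_add q2_le q2_mul_pow fl1_fl1 rd_err rd_sub)

/-! ### telescoping along a chain -/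

/-- **telescoping along a chain** -/
theorem chain_sum (I Φ ν : ℕ → ℝ) (T : Finset ℕ) : (∀ j ∈ T, I j ≤ Φ j) → (∀ j ∈ T, 0 ≤ Φ j) → (∀ j ∈ T, 0 ≤ ν j) →
    (∀ i ∈ T, ∀ j ∈ T, i < j → I i ≤ Φ i - Φ j + ν i) →
    ∀ c, 0 ≤ c → (∀ j ∈ T, Φ j ≤ c) → ∑ j ∈ T, I j ≤ c + ∑ j ∈ T, ν j := by
  classical
  induction T using Finset.induction_on_min with
  | empty =>
    intro _ _ _ _ c hc _
    simpa using hc
  | insert i T hi ih =>
    intro h1 h0 hν h2 c hc hΦ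
    have hiT : i ∉ T := fun h => lt_irrefl _ (hi i h)
    rw [Finset.sum_insert hiT, Finset.sum_insert hiT]
    have ih' := ih (fun j hj => h1 j (Finset.mem_insert_of_mem hj)) (fun j hj => h0 j (Finset.mem_insert_of_mem hj))
      (fun j hj => hν j (Finset.mem_insert_of_mem hj))
      (fun a ha b hb hab => h2 a (Finset.mem_insert_of_mem ha) b (Finset.mem_insert_of_mem hb) hab)
    have hii := Finset.mem_insert_self i T
    rcases T.eq_empty_or_nonempty with he | hne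
    · rw [he, Finset.sum_empty, Finset.sum_empty]
      have e1 := h1 i hii
      have e2 := hν i hii
      have e3 := hΦ i hii
      linarith
    · obtain ⟨j, hj, hmax⟩ := Finset.exists_max_image T Φ hne
      have e1 := ih' (Φ j) (h0 j (Finset.mem_insert_of_mem hj)) hmax
      have e2 := h2 i hii j (Finset.mem_insert_of_mem hj) (hi j hj)
      have e3 := hΦ i hii
      linarith

/-- **telescoping of pairs** `(j, k)`, `k ≤ j + L1`; a level is left after less than `L2` indices -/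
theorem chain_pairs (G : Finset (ℕ × ℕ)) (a : ℕ → ℕ) {L1 L2 S : ℕ} (hS : 0 < S) (hL2 : 0 < L2)
    (hG : ∀ q ∈ G, q.1 ≤ q.2 ∧ q.2 ≤ q.1 + L1) (ham : ∀ q ∈ G, ∀ q' ∈ G, q.1 ≤ q'.1 → a q.1 ≤ a q'.1)
    (hlev : ∀ q ∈ G, ∀ q' ∈ G, a q'.1 = a q.1 → q'.1 < q.1 + L2) (I Φ ν : ℕ → ℕ → ℝ) {H : ℝ} (hH : 0 ≤ H)
    (h1 : ∀ q ∈ G, I q.1 q.2 ≤ Φ q.1 q.2) (h0 : ∀ q ∈ G, 0 ≤ Φ q.1 q.2 ∧ Φ q.1 q.2 ≤ H)
    (hν : ∀ q ∈ G, 0 ≤ ν q.1 q.2)
    (h2 : ∀ q ∈ G, ∀ q' ∈ G, a q.1 + S ≤ a q'.1 → I q.1 q.2 ≤ Φ q.1 q.2 - Φ q'.1 q'.2 + ν q.1 q.2) :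
    ∑ q ∈ G, I q.1 q.2 ≤ ((L1 : ℝ) + 1) * (S * L2) * H + ∑ q ∈ G, ν q.1 q.2 := by
  classical
  set c : ℕ × ℕ → ℕ × (ℕ × ℕ) := fun q => (q.2 - q.1, (a q.1 % S, q.1 % L2)) with hc
  set C : Finset (ℕ × (ℕ × ℕ)) := range (L1 + 1) ×ˢ (range S ×ˢ range L2) with hC
  have hm : ∀ q ∈ G, c q ∈ C := by
    intro q hq
    obtain ⟨g1, g2⟩ := hG q hq
    rw [hC, Finset.mem_product, Finset.mem_product, Finset.mem_range, Finset.mem_range, Finset.mem_range]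
    refine ⟨?_, Nat.mod_lt _ hS, Nat.mod_lt _ hL2⟩
    show q.2 - q.1 < L1 + 1
    omega
  rw [← Finset.sum_fiberwise_of_maps_to hm, ← Finset.sum_fiberwise_of_maps_to hm]
  have hcard : ((L1 : ℝ) + 1) * (S * L2) * H = ∑ _x ∈ C, H := by
    rw [Finset.sum_const, nsmul_eq_mul, hC, Finset.card_product, Finset.card_product, Finset.card_range,
      Finset.card_range, Finset.card_range]
    push_cast
    ring
  rw [hcard, ← Finset.sum_add_distrib]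
  refine Finset.sum_le_sum fun x _ => ?_
  set Gx := G.filter fun q => c q = x with hGx
  have hx : ∀ q ∈ Gx, q ∈ G ∧ q.2 = q.1 + x.1 ∧ a q.1 % S = x.2.1 ∧ q.1 % L2 = x.2.2 := by
    intro q hq
    obtain ⟨g1, g2⟩ := Finset.mem_filter.1 hq
    have g3 := (hG q g1).1
    have e1 : q.2 - q.1 = x.1 := congrArg Prod.fst g2
    have e2 : (a q.1 % S, q.1 % L2) = x.2 := congrArg Prod.snd g2
    exact ⟨g1, by omega, congrArg Prod.fst e2, congrArg Prod.snd e2⟩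
  have inj : ∀ q ∈ Gx, ∀ q' ∈ Gx, q.1 = q'.1 → q = q' := by
    intro q hq q' hq' e
    have e1 := (hx q hq).2.1
    have e2 := (hx q' hq').2.1
    exact Prod.ext e (by omega)
  have key : ∀ F : ℕ → ℕ → ℝ, ∑ q ∈ Gx, F q.1 q.2 = ∑ j ∈ Gx.image Prod.fst, F j (j + x.1) := by
    intro F
    rw [Finset.sum_image inj]
    exact Finset.sum_congr rfl fun q hq => by rw [← (hx q hq).2.1]
  rw [key I, key ν]
  have back : ∀ j ∈ Gx.image Prod.fst, (j, j + x.1) ∈ Gx := by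
    intro j hj
    obtain ⟨q, hq, rfl⟩ := Finset.mem_image.1 hj
    have e1 := (hx q hq).2.1
    rw [← e1]
    exact hq
  refine chain_sum (fun j => I j (j + x.1)) (fun j => Φ j (j + x.1)) (fun j => ν j (j + x.1)) _
    (fun j hj => h1 _ (hx _ (back j hj)).1) (fun j hj => (h0 _ (hx _ (back j hj)).1).1)
    (fun j hj => hν _ (hx _ (back j hj)).1) ?_ H hH (fun j hj => (h0 _ (hx _ (back j hj)).1).2)
  intro i hi j hj hij
  obtain ⟨i1, i2, i3, i4⟩ := hx _ (back i hi)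
  obtain ⟨j1, j2, j3, j4⟩ := hx _ (back j hj)
  refine h2 (i, i + x.1) i1 (j, j + x.1) j1 ?_
  have e1 : a i ≤ a j := ham (i, i + x.1) i1 (j, j + x.1) j1 hij.le
  have e2 : a i ≠ a j := by
    intro e
    have e3 : j < i + L2 := hlev (i, i + x.1) i1 (j, j + x.1) j1 e.symm
    have e4 : i + L2 ≤ j := Nat.ModEq.add_le_of_lt (show i % L2 = j % L2 from i4.trans j4.symm) hij
    omega
  exact Nat.ModEq.add_le_of_lt (show a i % S = a j % S from i3.trans j3.symm) (lt_of_le_of_ne e1 e2)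

/-! ### one step -/

/-- **the first information** of a pair, against a later `mtr` -/
theorem i1_pair {Ω π : Type} [Fintype Ω] (P : Law Ω) (D : Mtd Ω π) {U : Type*} (Y : Ω → U) {u y u' b : ℕ} {ν : ℝ}
    (hn : hc P (fun ω => ((D.fz u u).cell y b ω, (S3.LDk (D.fz u u) b u ω, S3.LTh (D.fz u u) b y ω))) (D.mtr u' b) ≤ ν) :
    mi P Y ((D.fz u u).cell y b) (fun ω => (S3.LDk (D.fz u u) b u ω, S3.LTh (D.fz u u) b y ω)) ≤
      hc P Y (D.mtr u b) - hc P Y (D.mtr u' b) + ν := by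
  have a1 : hc P Y (fun ω => (S3.LDk (D.fz u u) b u ω, S3.LTh (D.fz u u) b y ω)) ≤ hc P Y (D.mtr u b) := by
    refine hc_mono_right P Y fun ω ω' _ _ e => ?_
    exact (Mtd.fz_cell_iff D le_rfl b ω ω').1 (congrArg (fun z => z.1.1) e)
  have a2 := hc_le_add' P Y (fun ω => ((D.fz u u).cell y b ω, (S3.LDk (D.fz u u) b u ω, S3.LTh (D.fz u u) b y ω)))
    (D.mtr u' b)
  have a3 : hc P Y (fun ω => (((D.fz u u).cell y b ω, (S3.LDk (D.fz u u) b u ω, S3.LTh (D.fz u u) b y ω)),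
      D.mtr u' b ω)) ≤ hc P Y (fun ω => ((D.fz u u).cell y b ω, (S3.LDk (D.fz u u) b u ω, S3.LTh (D.fz u u) b y ω))) :=
    hc_mono_right P Y fun ω ω' _ _ e => congrArg Prod.fst e
  unfold mi
  linarith

/-- the first information is at most the entropy of `Y` given `mtr` -/
theorem i1_le {Ω π : Type} [Fintype Ω] (P : Law Ω) (D : Mtd Ω π) {U : Type*} (Y : Ω → U) {u y b : ℕ} :
    mi P Y ((D.fz u u).cell y b) (fun ω => (S3.LDk (D.fz u u) b u ω, S3.LTh (D.fz u u) b y ω)) ≤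
      hc P Y (D.mtr u b) := by
  refine (mi_le_hc P Y _ _).trans ?_
  refine hc_mono_right P Y fun ω ω' _ _ e => ?_
  exact (Mtd.fz_cell_iff D le_rfl b ω ω').1 (congrArg (fun z => z.1.1) e)

/-! ### the record -/

section rec

open Vale.Agent.P106.U.S3 (Run At' IdP)
open Vale.Agent.P106.U.S5 Vale.Agent.P106.U.MIC
open Vale.Agent.P106.U.H833 (aN kN fN RN lx I1N I2N lev_a lev_k lev_f)
open Vale.Agent.P106.U.H495 (WAt)
open Vale.Agent.P106.U.H683.L2 hiding Dd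
open Vale.Agent.P106.U.H336 (IdxOk win_y win_late SwL)
open Vale.Agent.P106.U.H364.NwRec

/-- `rk` advances -/
theorem adv_rk {Ω : Type} [Fintype Ω] {τ υ : Type} {R : Run Ω τ υ} {p : Run.Num} (hP : R.Path p) : ∀ t i j, i ≤ j →
    j ≤ R.n → aN R i + p.J * t ≤ aN R j → R.C.rk i + R.m * t ≤ R.C.rk j := by
  intro t
  induction t with
  | zero =>
    intro i j hij _ _
    have := R.C.hk hij
    omega
  | succ t ih =>
    intro i j hij hj ha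
    have e1 : p.J * (t + 1) = p.J * t + p.J := by ring
    have J1 := hP.J1
    obtain ⟨e, h1, h2, h3, h4⟩ := H384.F1.exists_a hP (z := aN R i + p.J * t) hij (by omega)
      (by show aN R i ≤ _; omega) (by show _ < aN R j; omega)
    have h4' : aN R e = aN R i + p.J * t := h4
    have i1 := ih i e h1 (by omega) (by omega)
    have a1 := lev_a hP (i := e) (by omega)
    have a2 := lev_a hP (i := j) (by omega)
    have i2 := hP.advK e j h2.le hj (by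
      rw [a1, a2, Nat.mul_comm p.J, ← Nat.mul_add]
      exact Nat.mul_le_mul_left _ (by omega))
    have k1 := lev_k hP (i := e) (by omega)
    have k2 := lev_k hP (i := j) (by omega)
    have k3 : kN R e < kN R j := by
      by_contra hc
      have := Nat.mul_le_mul_left R.m (Nat.le_of_not_lt hc)
      omega
    have k4 : R.m * (kN R e + 1) ≤ R.m * kN R j := Nat.mul_le_mul_left _ k3
    rw [Nat.mul_add, Nat.mul_one] at k4
    rw [Nat.mul_add, Nat.mul_one]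
    omega

variable {η : ℝ} {x : ℕ} {σ : Cst} {ε : ℝ} {ρ : Thr} {g : Gv} {m B h : ℕ}

/-- the blocks of the margin -/
theorem MuS_mul (s : St η x σ ε ρ g m B h) : s.R.m * MuS x = 8 * μS x m := by
  rw [s.run.hm]
  unfold MuS μS
  ring

variable {s : St η x σ ε ρ g m B h} {Sw : Finset ℕ} {L1 L2 Lk Kr L : ℕ}

/-- **the near bound of an admissible pair**, against a pair `L1 + 2 Kr` levels later -/
theorem near2 (hσ : σ.Ok) (hρ : ρ.Ok) (N : NwNum σ ρ m B h) (hμB : 5 * μS x m ≤ B) (hB : 1 ≤ B) (hKr : ρ.J * MuS x ≤ Kr)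
    (hK : 0 < Kr) (hKL : Kr ≤ Lk) (hL : L1 + Kr ≤ L) (hS : SwL s.R B s.Vs s.Xs L ⊆ Sw) {j k j' k' : ℕ}
    (hW : WAt s.N s.a (Pu s Sw) L1 L2 Lk Kr j k) (hW' : WAt s.N s.a (Pu s Sw) L1 L2 Lk Kr j' k')
    (ha : s.a j + (L1 + 2 * Kr) ≤ s.a j') :
    Stk.hc s.R.Q (fun ω => (((H683.L2.Dd s).fz (s.f j + 1) (s.f j + 1)).cell (yx s Kr k) (bq s) ω,
      (S3.LDk ((H683.L2.Dd s).fz (s.f j + 1) (s.f j + 1)) (bq s) (s.f j + 1) ω,
        S3.LTh ((H683.L2.Dd s).fz (s.f j + 1) (s.f j + 1)) (bq s) (yx s Kr k) ω))) ((H683.L2.Dd s).mtr (s.f j' + 1) (bq s)) ≤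
      cF ρ.K * nF s.R (H683.L2.Dd s) (μS x m) s.o s.o' (KS ρ) (s.f j + 1) (yx s Kr k) (bq s) := by
  have H := s.run
  have hP := H.ok.pth
  have J1 := hP.J1
  have m1 := hP.m1
  have hμB' : μS x m ≤ B := by omega
  have W := nw_rec (c := 100) hσ hρ H (by norm_num) le_rfl N hμB'
  have hMu := MuS_mul s
  have hJ := H.hJ
  have D := s.word.sd
  -- the two pairs
  obtain ⟨p1, p2, p3, p4, p5, p6, p7, p8, p9⟩ := win_y hB hK hKL hL hS (c := 2) hW (j := j) le_rfl hW.1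
  obtain ⟨l1, l2, l3, l4, l5, l6, l7, l8⟩ := win_late hK (c := 2) hW
  obtain ⟨q1, q2', q3, q4, q5, q6, q7, q8, q9⟩ := win_y hB hK hKL hL hS (c := 2) hW' (j := j') le_rfl hW'.1
  obtain ⟨w1, w2, w3, w4, w5, w6, w7, w8⟩ := win_late hK (c := 2) hW'
  obtain ⟨u1, u2, u3, u4⟩ := p4.k2 rfl
  obtain ⟨y1, y2, y3, y4⟩ := p5.k2 rfl
  obtain ⟨v1, v2, v3, v4⟩ := q4.k2 rfl
  have hkN : k ≤ s.N := by omega
  have hj'N : j' < s.N := by
    have := hW'.1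
    omega
  -- levels
  have e1 : s.a k ≤ s.a j + (k - j) := H336.a_le_add s hW.1.le hkN
  have e2 : k ≤ j + L1 := hW.2.1
  have e3 : s.a (j + 1) ≤ s.a j + (j + 1 - j) := H336.a_le_add s (Nat.le_succ j) (by have := hW.1; omega)
  have e4 : s.a j' ≤ s.a (j' + 1) := D.am (Nat.le_succ j') hj'N
  have e5 : lx s.N s.a Kr k < j' := by
    by_contra hc
    have h1 : s.a j' ≤ s.a (lx s.N s.a Kr k) := D.am (Nat.le_of_not_lt hc) l2.le
    omega
  have e6 : s.f (lx s.N s.a Kr k) < s.f j' := H336.f_lt s e5 hj'N.le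
  have hfn := H336.f_le s j'
  have q11 := q4.n
  -- numbers
  have hBm : B ≤ s.R.m * B := Nat.le_mul_of_pos_left B m1
  have n1 : s.R.m * MuS x ≤ s.R.m * Kr := by
    refine Nat.mul_le_mul_left _ (le_trans ?_ hKr)
    rw [← hJ]
    exact Nat.le_mul_of_pos_left _ J1
  have b8 : 8 * μS x m ≤ bq s := by
    have h1 := W.low
    have h2 : s.R.b1 ≤ s.R.m * s.R.b1 := Nat.le_mul_of_pos_left _ m1
    show 8 * μS x m ≤ s.R.m * s.R.b1
    omega
  have hx : s.R.m * s.R.b1 ≤ s.pn.B₁ := by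
    have h1 := s.f2.loS
    have h2 := s.f2.loV
    have h3 := s.f2.hi
    rw [Nat.mul_add] at h1
    omega
  have hy : yx s Kr k = s.f (lx s.N s.a Kr k) := rfl
  have hyn : s.f (lx s.N s.a Kr k) ≤ s.R.n := l5.le
  -- a
  have ga : s.R.C.a (yx s Kr k) + 2 * μS x m ≤ s.R.C.a (s.f j' + 1) := by
    have a1 := lev_a hP (i := s.f (lx s.N s.a Kr k)) (by omega)
    have a2 := lev_a hP (i := s.f j' + 1) (by omega)
    rw [hy, a1, a2, l7, q3]
    have h1 : s.R.m * (s.a k + Kr + Kr) ≤ s.R.m * s.a (j' + 1) := Nat.mul_le_mul_left _ (by omega)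
    rw [Nat.mul_add _ _ Kr] at h1
    omega
  -- rk
  have gk : s.R.C.rk (s.f j + 1) + μS x m / 2 ≤ s.R.C.rk (s.f j' + 1) := by
    have h1 := adv_rk hP (MuS x) (s.f j + 1) (s.f j' + 1) (by omega) q11 (by
      rw [p3, q3, hJ]
      omega)
    omega
  -- rf
  have gf : s.R.C.rf (yx s Kr k) + 4 * μS x m ≤ s.R.C.rf (s.f j' + 1) := by
    have h1 := H833.advT hP s.hf (H336.f_le s s.N) D hx (MuS x) (lx s.N s.a Kr k) j' e5.le hj'N.le (by
      have h2 : aN s.R (s.f (lx s.N s.a Kr k)) = s.a k + Kr := l7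
      have h3 : s.a j' = aN s.R (s.f j') := rfl
      rw [h2, ← h3, hJ]
      omega)
    have a1 := lev_f hP (i := s.f (lx s.N s.a Kr k)) (by omega)
    have a2 := lev_f hP (i := s.f j' + 1) (by omega)
    have a3 := lev_k hP (i := s.f (lx s.N s.a Kr k)) (by omega)
    have a4 := s.F.l0 (s.f (lx s.N s.a Kr k))
    have a5 : fN s.R (s.f (lx s.N s.a Kr k)) ≤ kN s.R (s.f (lx s.N s.a Kr k)) + s.R.b1 := by
      by_contra hc
      have h2 := Nat.mul_le_mul_left s.R.m (Nat.le_of_not_le hc)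
      rw [Nat.mul_add] at h2
      omega
    have a6 : RN s.R s.R.b1 (s.f (lx s.N s.a Kr k)) = fN s.R (s.f (lx s.N s.a Kr k)) := min_eq_right a5
    have a7 : RN s.R s.R.b1 (s.f j') ≤ fN s.R (s.f j') := min_le_right _ _
    have a8 := lev_f hP (i := s.f j') (by omega)
    have a9 : s.R.C.rf (s.f j') ≤ s.R.C.rf (s.f j' + 1) := s.R.C.hf (Nat.le_succ (s.f j'))
    have a10 : s.R.m * (fN s.R (s.f (lx s.N s.a Kr k)) + MuS x) ≤ s.R.m * fN s.R (s.f j') :=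
      Nat.mul_le_mul_left _ (by omega)
    rw [Nat.mul_add] at a10
    rw [hy]
    omega
  have gR : s.R.C.rf (yx s Kr k) + 4 * μS x m ≤ (H683.L2.Dd s).R (s.f j' + 1) (bq s) := by
    show _ ≤ min (s.F.rk0 (s.f j' + 1) - μS x m / 2 + s.R.m * s.R.b1) (s.R.C.rf (s.f j' + 1))
    refine le_min ?_ gf
    have h1 := s.F.m0 (show s.f (lx s.N s.a Kr k) ≤ s.f j' + 1 by omega)
    have h2 := s.f2.lo0 (s.f j' + 1)
    have h3 := W.hr
    rw [hy]
    omega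
  have gS : s.R.C.rf (yx s Kr k) + 4 * μS x m ≤ s.F.rk0 (s.f j + 1) - μS x m / 2 + bq s :=
    lvP H.ok s.f2 W.hr hμB' (by omega) (show _ ≤ s.R.m * s.R.b1 + _ from u4) p6.le p8.2.1 (by omega)
  exact n1P (o := s.o) (o' := s.o') H.ok s.f2 hρ.K1 W.hB W.hr hμB' W.μC le_rfl ⟨by omega, u1⟩ ⟨by omega, v1⟩ p6.le
    (by rw [hy]; omega) ga b8 gk gR gS

/-! ### the sums -/

/-- the constants -/
noncomputable def s2C (K K1 : ℝ) (L1 Lb : ℕ) : ℝ :=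
  (2 * K1 + 4) * (4 * cF K * (L1 * ((Lb : ℝ) + 1) ^ 2) + L1 * ((Lb : ℝ) + 1) ^ 3)

noncomputable def s2X (L1 L2 Kr x m : ℕ) : ℝ :=
  ((L1 : ℝ) + 1) * (((L1 + 2 * Kr : ℕ) : ℝ) * L2) * ((2 * μS x m : ℕ) * Real.log 2)

theorem cF_nn (K : ℝ) : 0 ≤ cF K := by
  obtain ⟨z1, z2, z3⟩ := z_nn (4 * K)
  have := z3 ⌈641 * (4 * K) ^ 2⌉₊
  unfold cF
  linarith

theorem s2X_nn (L1 L2 Kr x m : ℕ) : 0 ≤ s2X L1 L2 Kr x m := by
  unfold s2X
  have := Real.log_nonneg (by norm_num : (1 : ℝ) ≤ 2)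
  positivity

open Classical in
/-- the admissible pairs -/
noncomputable def G2 (s : St η x σ ε ρ g m B h) (Sw : Finset ℕ) (L1 L2 Lk Kr : ℕ) : Finset (ℕ × ℕ) :=
  (range s.N ×ˢ range (s.N + 1)).filter fun q => WAt s.N s.a (Pu s Sw) L1 L2 Lk Kr q.1 q.2

theorem mem_G2 {q : ℕ × ℕ} (hq : q ∈ G2 s Sw L1 L2 Lk Kr) : WAt s.N s.a (Pu s Sw) L1 L2 Lk Kr q.1 q.2 := by
  classical
  unfold G2 at hq
  exact (Finset.mem_filter.1 hq).2

theorem wat_le {j k : ℕ} (hW : WAt s.N s.a (Pu s Sw) L1 L2 Lk Kr j k) : j < k ∧ k ≤ j + L1 ∧ k ≤ s.N := by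
  obtain ⟨h1, h2, ⟨i1, h3, h4, _⟩, _⟩ := hW
  exact ⟨h1, h2, h3.trans h4⟩

/-- multiplicity of the first index -/
theorem mult2 (v : ℕ) : ((G2 s Sw L1 L2 Lk Kr).filter fun q => s.f q.1 + 1 = v).card ≤ L1 := by
  classical
  rcases ((G2 s Sw L1 L2 Lk Kr).filter fun q => s.f q.1 + 1 = v).eq_empty_or_nonempty with he | ⟨q0, h0⟩
  · rw [he, Finset.card_empty]
    exact Nat.zero_le _
  · rw [Finset.mem_filter] at h0
    have b0 := wat_le (mem_G2 h0.1)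
    refine (Finset.card_le_card (t := (Ioc q0.1 (q0.1 + L1)).image fun k => (q0.1, k)) ?_).trans
      (Finset.card_image_le.trans (by rw [Nat.card_Ioc]; omega))
    intro q hq
    rw [Finset.mem_filter] at hq
    have b1 := wat_le (mem_G2 hq.1)
    have e : q.1 = q0.1 := by
      rcases lt_trichotomy q.1 q0.1 with h | h | h
      · have := H336.f_lt s h (by omega)
        omega
      · exact h
      · have := H336.f_lt s h (by omega)
        omega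
    rw [Finset.mem_image]
    exact ⟨q.2, Finset.mem_Ioc.2 (by omega), Prod.ext e.symm rfl⟩

theorem card_G2 : (G2 s Sw L1 L2 Lk Kr).card ≤ L1 * s.N := by
  classical
  have h := Finset.card_le_mul_card_image_of_maps_to (s := G2 s Sw L1 L2 Lk Kr) (t := range s.N) (f := Prod.fst)
    (fun q hq => by
      have := wat_le (mem_G2 hq)
      rw [Finset.mem_range]
      omega) L1 (fun v hv => by
      refine (Finset.card_le_card ?_).trans (mult2 (s := s) (Sw := Sw) (L1 := L1) (L2 := L2) (Lk := Lk) (Kr := Kr) (s.f v + 1))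
      intro q hq
      rw [Finset.mem_filter] at hq ⊢
      exact ⟨hq.1, by rw [hq.2]⟩)
  rwa [Finset.card_range] at h

/-- the double sums as sums over the pairs -/
theorem sum_G2 (F : ℕ → ℕ → ℝ) [∀ j k, Decidable (WAt s.N s.a (Pu s Sw) L1 L2 Lk Kr j k)] :
    ∑ j ∈ range s.N, ∑ k ∈ Ioc j (j + L1), (if WAt s.N s.a (Pu s Sw) L1 L2 Lk Kr j k then F j k else 0) =
      ∑ q ∈ G2 s Sw L1 L2 Lk Kr, F q.1 q.2 := by
  classical
  rw [H513.sum_pairs5 s.N L1 (fun j k => WAt s.N s.a (Pu s Sw) L1 L2 Lk Kr j k) F fun j k h => wat_le h]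
  refine Finset.sum_congr ?_ fun _ _ => rfl
  unfold G2
  ext q
  simp only [Finset.mem_filter]

/-- **the sum of the near bounds** -/
theorem nu2 (hB : 1 ≤ B) (hρ : ρ.Ok) (hK : 0 < Kr) (hKL : Kr ≤ Lk) (hL : L1 + Kr ≤ L)
    (hLB : L1 + Kr ≤ B) (hS : SwL s.R B s.Vs s.Xs L ⊆ Sw) :
    ∑ q ∈ G2 s Sw L1 L2 Lk Kr, nF s.R (H683.L2.Dd s) (μS x m) s.o s.o' (KS ρ) (s.f q.1 + 1) (yx s Kr q.2) (bq s) ≤
      4 * (L1 * (((L1 + Kr : ℕ) : ℝ) + 1) ^ 2 * KS ρ * (s.R.n + s.pn.J + 1) * q2 (μS x m / 8)) := by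
  classical
  have hP := s.run.ok.pth
  have hK0 : 0 ≤ KS ρ := by
    have := hρ.K1
    unfold KS
    positivity
  have h1 := n2P s.f2o (G2 s Sw L1 L2 Lk Kr) (fun q => s.f q.1 + 1) (fun q => yx s Kr q.2)
    (fun q => aN s.R (yx s Kr q.2) - aN s.R (s.f q.1 + 1)) L1 (L1 + Kr) hLB (fun q hq => by
      have hW := mem_G2 hq
      obtain ⟨p1, p2, p3, p4, p5, p6, p7, p8, p9⟩ := win_y hB hK hKL hL hS (c := 2) hW (j := q.1) le_rfl hW.1
      exact ⟨(p4.k2 rfl).2.1, p9, p7⟩) mult2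
  refine h1.trans (mul_le_mul_of_nonneg_left ?_ (by norm_num))
  have hN : (s.N : ℝ) ≤ s.R.n + s.pn.J + 1 := by
    have h2 := H823.Cmp.Nc_le hP (x := s.R.b1)
    have h3 : s.N ≤ s.R.n + s.pn.J + 1 := by
      show H823.Cmp.Nc s.R s.R.b1 - s.i0 ≤ _
      omega
    exact_mod_cast h3
  have hN0 : (0 : ℝ) ≤ s.N := Nat.cast_nonneg _
  set n : ℝ := s.R.n + s.pn.J + 1 with hn
  set b : ℝ := ((L1 + Kr : ℕ) : ℝ) + 1 with hb
  have hb1 : 1 ≤ b := by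
    have : (0 : ℝ) ≤ ((L1 + Kr : ℕ) : ℝ) := Nat.cast_nonneg _
    linarith
  have hL0 : (0 : ℝ) ≤ L1 := Nat.cast_nonneg _
  have hq0 := (q2_pos (μS x m / 4)).le
  have hn0 : 0 ≤ n := hN0.trans hN
  have hc : ((G2 s Sw L1 L2 Lk Kr).card : ℝ) ≤ L1 * s.N := by exact_mod_cast card_G2
  refine (Real.sqrt_le_sqrt ?_).trans (H513.sqrt_off (N := (s.N : ℝ)) (n := n) (K' := L1 * b ^ 2 * KS ρ)
    (μ := μS x m) hN0 hN (by positivity))
  unfold xF
  have e1 : ((G2 s Sw L1 L2 Lk Kr).card : ℝ) * (L1 * (b * (KS ρ ^ 2 * b ^ 2 * n * q2 (μS x m / 4)))) ≤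
      (L1 * s.N) * (L1 * (b * (KS ρ ^ 2 * b ^ 2 * n * q2 (μS x m / 4)))) :=
    mul_le_mul_of_nonneg_right hc (by positivity)
  refine e1.trans ?_
  have e2 : b ^ 3 ≤ b ^ 4 := pow_le_pow_right₀ hb1 (by norm_num)
  have e3 : (L1 : ℝ) * s.N * (L1 * (b * (KS ρ ^ 2 * b ^ 2 * n * q2 (μS x m / 4)))) =
      (L1 ^ 2 * s.N * KS ρ ^ 2 * n * q2 (μS x m / 4)) * b ^ 3 := by ring
  have e4 : (s.N : ℝ) * ((L1 * b ^ 2 * KS ρ) ^ 2 * n * q2 (μS x m / 4)) =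
      (L1 ^ 2 * s.N * KS ρ ^ 2 * n * q2 (μS x m / 4)) * b ^ 4 := by ring
  rw [e3, e4]
  exact mul_le_mul_of_nonneg_left e2 (by positivity)

/-- the number of the indices -/
theorem n2_le (s : St η x σ ε ρ g m B h) (hJ : (m : ℝ) * (ρ.J + 1) ≤ h) :
    (s.R.n : ℝ) + s.pn.J + 1 ≤ (2 * σ.K1 + 4) * ((h : ℝ) / m) := by
  have e1 := H931.n_le s.run
  have m1 := s.run.ok.pth.m1
  rw [s.run.hm] at m1
  have hm0 : (0 : ℝ) < m := by exact_mod_cast m1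
  rw [← mul_div_assoc, le_div_iff₀ hm0, s.run.hJ]
  nlinarith

/-- **the sum of the first informations** -/
theorem i1V_sum (hσ : σ.Ok) (hρ : ρ.Ok) (N : NwNum σ ρ m B h) (hμB : 5 * μS x m ≤ B) (hB : 1 ≤ B)
    (hL2 : 0 < L2) (hKr : ρ.J * MuS x ≤ Kr) (hK : 0 < Kr) (hKL : Kr ≤ Lk) (hL : L1 + Kr ≤ L)
    (hLB : L1 + Kr ≤ B) (hS : SwL s.R B s.Vs s.Xs L ⊆ Sw) :
    ∑ j ∈ range s.N, ∑ k ∈ Ioc j (j + L1), I1V s Sw L1 L2 Lk Kr j k ≤ s2X L1 L2 Kr x m +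
      cF ρ.K * (4 * (L1 * (((L1 + Kr : ℕ) : ℝ) + 1) ^ 2 * KS ρ * (s.R.n + s.pn.J + 1) * q2 (μS x m / 8))) := by
  classical
  set Y : s.Ω → ℤ := fun ω => fl1 (bq s + 2 * μS x m) (s.R.C.l ω).v with hY
  have e0 : ∑ j ∈ range s.N, ∑ k ∈ Ioc j (j + L1), I1V s Sw L1 L2 Lk Kr j k =
      ∑ q ∈ G2 s Sw L1 L2 Lk Kr, mi s.R.Q Y (((H683.L2.Dd s).fz (s.f q.1 + 1) (s.f q.1 + 1)).cell (yx s Kr q.2) (bq s))
        (fun ω => (S3.LDk ((H683.L2.Dd s).fz (s.f q.1 + 1) (s.f q.1 + 1)) (bq s) (s.f q.1 + 1) ω,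
          S3.LTh ((H683.L2.Dd s).fz (s.f q.1 + 1) (s.f q.1 + 1)) (bq s) (yx s Kr q.2) ω)) := by
    rw [← sum_G2 (s := s) (Sw := Sw) (L1 := L1) (L2 := L2) (Lk := Lk) (Kr := Kr) (fun j k => mi s.R.Q Y
      (((H683.L2.Dd s).fz (s.f j + 1) (s.f j + 1)).cell (yx s Kr k) (bq s))
        (fun ω => (S3.LDk ((H683.L2.Dd s).fz (s.f j + 1) (s.f j + 1)) (bq s) (s.f j + 1) ω,
          S3.LTh ((H683.L2.Dd s).fz (s.f j + 1) (s.f j + 1)) (bq s) (yx s Kr k) ω)))]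
    rfl
  rw [e0]
  have D := s.word.sd
  have hlog := Real.log_nonneg (by norm_num : (1 : ℝ) ≤ 2)
  have key := chain_pairs (G2 s Sw L1 L2 Lk Kr) s.a (L1 := L1) (L2 := L2) (S := L1 + 2 * Kr) (by omega) hL2
    (fun q hq => by
      have := wat_le (mem_G2 hq)
      omega)
    (fun q hq q' hq' h => D.am h (by
      have := wat_le (mem_G2 hq')
      show q'.1 ≤ s.N
      omega))
    (fun q hq q' hq' h => by
      obtain ⟨h1, h2, ⟨i1, h3, h4, h5, h6⟩, h7⟩ := mem_G2 hq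
      by_contra hc
      have h8 := wat_le (mem_G2 hq')
      have h9 : s.a i1 ≤ s.a q'.1 := D.am (by omega) (by show q'.1 ≤ s.N; omega)
      have h10 : s.a q.1 ≤ s.a q.2 := D.am h1.le (h3.trans h4)
      omega)
    (fun j k => mi s.R.Q Y (((H683.L2.Dd s).fz (s.f j + 1) (s.f j + 1)).cell (yx s Kr k) (bq s))
        (fun ω => (S3.LDk ((H683.L2.Dd s).fz (s.f j + 1) (s.f j + 1)) (bq s) (s.f j + 1) ω,
          S3.LTh ((H683.L2.Dd s).fz (s.f j + 1) (s.f j + 1)) (bq s) (yx s Kr k) ω)))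
    (fun j _ => Stk.hc s.R.Q Y ((H683.L2.Dd s).mtr (s.f j + 1) (bq s)))
    (fun j k => cF ρ.K * nF s.R (H683.L2.Dd s) (μS x m) s.o s.o' (KS ρ) (s.f j + 1) (yx s Kr k) (bq s))
    (H := (2 * μS x m : ℕ) * Real.log 2) (by positivity)
    (fun q _ => i1_le s.R.Q (H683.L2.Dd s) Y)
    (fun q _ => ⟨Vale.Agent.P127.Stk.hc_nonneg _ _ _, by
      have h1 := H420.hc_v s.R.Q ((H683.L2.Dd s).fz (s.f q.1 + 1) (s.f q.1 + 1)) (s.f q.1 + 1) (bq s) (2 * μS x m)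
      refine le_trans (hc_mono_right s.R.Q Y fun ω ω' _ _ e => ?_) h1
      exact (Mtd.fz_cell_iff (H683.L2.Dd s) le_rfl (bq s) ω ω').2 e⟩)
    (fun q _ => mul_nonneg (cF_nn ρ.K) (by unfold nF; positivity))
    (fun q hq q' hq' h => i1_pair s.R.Q (H683.L2.Dd s) Y (near2 hσ hρ N hμB hB hKr hK hKL hL hS (mem_G2 hq)
      (mem_G2 hq') h))
  refine key.trans ?_
  rw [← Finset.mul_sum]
  have h1 := mul_le_mul_of_nonneg_left (nu2 (s := s) (Sw := Sw) (L1 := L1) (L2 := L2) (Lk := Lk) (Kr := Kr) hB hρ hK hKL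
    hL hLB hS) (cF_nn ρ.K)
  unfold s2X
  linarith

/-- **the sum of the second informations** -/
theorem i2V_sum (hB : 1 ≤ B) (hK : 0 < Kr) (hKL : Kr ≤ Lk) (hL : L1 + Kr ≤ L) (hLB : L1 + Kr ≤ B)
    (hS : SwL s.R B s.Vs s.Xs L ⊆ Sw) :
    ∑ j ∈ range s.N, ∑ k ∈ Ioc j (j + L1), I2V s Sw L1 L2 Lk Kr j k ≤
      L1 * ∑ d ∈ range (L1 + Kr + 1), S3.F2b s.R s.pn B (μS x m) (KS ρ) d := by
  classical
  set M : ℕ → ℕ → ℝ := fun k i => mi s.R.Q (S3.LTh ((H683.L2.Dd s).fz k k) (bq s) i)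
    (((H683.L2.Dd s).fz k k).cell k s.bV) (S3.LDk ((H683.L2.Dd s).fz k k) (bq s) k) with hM
  have hM0 : ∀ k i, 0 ≤ M k i := fun k i => mi_nonneg _ _ _ _
  have e0 : ∑ j ∈ range s.N, ∑ k ∈ Ioc j (j + L1), I2V s Sw L1 L2 Lk Kr j k =
      ∑ q ∈ G2 s Sw L1 L2 Lk Kr, M (s.f q.1 + 1) (yx s Kr q.2) := by
    rw [← sum_G2 (s := s) (Sw := Sw) (L1 := L1) (L2 := L2) (Lk := Lk) (Kr := Kr) (fun j k => M (s.f j + 1) (yx s Kr k))]
    rfl
  rw [e0]
  have hq : ∀ q ∈ G2 s Sw L1 L2 Lk Kr, s.f q.1 + 1 ∈ IdP s.R s.F B s.Vs s.Xs ∧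
      aN s.R (yx s Kr q.2) - aN s.R (s.f q.1 + 1) ≤ L1 + Kr ∧
      yx s Kr q.2 ∈ At' s.R s.pn B (aN s.R (yx s Kr q.2) - aN s.R (s.f q.1 + 1)) (s.f q.1 + 1) := by
    intro q hq
    have hW := mem_G2 hq
    obtain ⟨p1, p2, p3, p4, p5, p6, p7, p8, p9⟩ := win_y hB hK hKL hL hS (c := 2) hW (j := q.1) le_rfl hW.1
    exact ⟨(p4.k2 rfl).2.1, p7, p9⟩
  have hd : ∀ q ∈ G2 s Sw L1 L2 Lk Kr, aN s.R (yx s Kr q.2) - aN s.R (s.f q.1 + 1) ∈ range (L1 + Kr + 1) := by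
    intro q hqG
    have := (hq q hqG).2.1
    rw [Finset.mem_range]
    omega
  rw [← Finset.sum_fiberwise_of_maps_to hd, Finset.mul_sum]
  refine Finset.sum_le_sum fun d hd' => ?_
  rw [Finset.mem_range] at hd'
  refine (H513.sum_group5 ((G2 s Sw L1 L2 Lk Kr).filter fun q => aN s.R (yx s Kr q.2) - aN s.R (s.f q.1 + 1) = d)
    (IdP s.R s.F B s.Vs s.Xs) (At' s.R s.pn B d) (fun q => s.f q.1 + 1) (fun q => yx s Kr q.2) M L1 hM0 ?_ ?_ ?_).trans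
    (mul_le_mul_of_nonneg_left (s.f2o.P1 d (by omega)) (Nat.cast_nonneg _))
  · intro q hqd
    exact (hq q (Finset.mem_filter.1 hqd).1).1
  · intro q hqd
    obtain ⟨h1, h2⟩ := Finset.mem_filter.1 hqd
    have h3 := (hq q h1).2.2
    rw [h2] at h3
    exact h3
  · intro v _
    refine (Finset.card_le_card ?_).trans (mult2 (s := s) (Sw := Sw) (L1 := L1) (L2 := L2) (Lk := Lk) (Kr := Kr) v)
    intro q hqv
    rw [Finset.mem_filter, Finset.mem_filter] at hqv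
    rw [Finset.mem_filter]
    exact ⟨hqv.1.1, hqv.2⟩

/-- **[SI], kind 2, over the situation of a scale**: hypotheses of 425's `ev_seG` for 683's `I1V`, `I2V` -/
theorem si2_st (hσ : σ.Ok) (hρ : ρ.Ok) (s : St η x σ ε ρ g m B h) (N : NwNum σ ρ m B h) (hμB : 5 * μS x m ≤ B)
    (hJ : (m : ℝ) * (ρ.J + 1) ≤ h) (hB : 1 ≤ B) {Sw : Finset ℕ} {L1 L2 Lk Kr L : ℕ}
    (hL2 : 0 < L2) (hKr : ρ.J * MuS x ≤ Kr) (hK : 0 < Kr) (hKL : Kr ≤ Lk) (hL : L1 + Kr ≤ L)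
    (hLB : L1 + Kr ≤ B) (hS : SwL s.R B s.Vs s.Xs L ⊆ Sw) :
    ∑ j ∈ range s.N, ∑ k ∈ Ioc j (j + L1), I1V s Sw L1 L2 Lk Kr j k ≤
      H513.siD L1 (L1 + Kr) * ((h : ℝ) / B) + KS ρ * (m + (μS x m : ℕ) + 1) * q2 (μS x m / 8) *
        (s2C ρ.K σ.K1 L1 (L1 + Kr) * ((h : ℝ) / m)) + s2X L1 L2 Kr x m ∧
    ∑ j ∈ range s.N, ∑ k ∈ Ioc j (j + L1), I2V s Sw L1 L2 Lk Kr j k ≤
      H513.siD L1 (L1 + Kr) * ((h : ℝ) / B) + KS ρ * (m + (μS x m : ℕ) + 1) * q2 (μS x m / 8) *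
        (s2C ρ.K σ.K1 L1 (L1 + Kr) * ((h : ℝ) / m)) + s2X L1 L2 Kr x m := by
  have hn := n2_le s hJ
  have hn0 : (0 : ℝ) ≤ (s.R.n : ℝ) + s.pn.J + 1 := by positivity
  have hK14 : 0 ≤ (2 * σ.K1 + 4) * ((h : ℝ) / m) := hn0.trans hn
  have hK0 : 0 ≤ KS ρ := by
    have := hρ.K1
    unfold KS
    positivity
  have hq0 := (q2_pos (μS x m / 8)).le
  have hc0 := cF_nn ρ.K
  have hx0 := s2X_nn L1 L2 Kr x m
  have hD0 := H513.siD_nonneg L1 (L1 + Kr)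
  have hhB : (0 : ℝ) ≤ (h : ℝ) / B := by positivity
  have hL0 : (0 : ℝ) ≤ L1 := Nat.cast_nonneg _
  have hw1 : (1 : ℝ) ≤ (m : ℝ) + (μS x m : ℕ) + 1 := by
    have : (0 : ℝ) ≤ (m : ℝ) + (μS x m : ℕ) := by positivity
    linarith
  set n : ℝ := (s.R.n : ℝ) + s.pn.J + 1 with hnd
  set b : ℝ := ((L1 + Kr : ℕ) : ℝ) + 1 with hb
  have hb0 : 0 ≤ b := by positivity
  set w : ℝ := (m : ℝ) + (μS x m : ℕ) + 1 with hw
  set z : ℝ := (h : ℝ) / m with hz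
  set q := q2 (μS x m / 8) with hq
  have eC : KS ρ * w * q * (s2C ρ.K σ.K1 L1 (L1 + Kr) * z) =
      cF ρ.K * (4 * (L1 * b ^ 2 * KS ρ * ((2 * σ.K1 + 4) * z) * q)) * w +
        L1 * (b ^ 3 * KS ρ * w * q * ((2 * σ.K1 + 4) * z)) := by
    unfold s2C
    rw [hb]
    ring
  have t1 : 0 ≤ L1 * (b ^ 3 * KS ρ * w * q * ((2 * σ.K1 + 4) * z)) := by positivity
  have t2 : 0 ≤ cF ρ.K * (4 * (L1 * b ^ 2 * KS ρ * ((2 * σ.K1 + 4) * z) * q)) := by positivity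
  constructor
  · refine (i1V_sum hσ hρ N hμB hB hL2 hKr hK hKL hL hLB hS).trans ?_
    have e1 : cF ρ.K * (4 * (L1 * b ^ 2 * KS ρ * n * q)) ≤ cF ρ.K * (4 * (L1 * b ^ 2 * KS ρ * ((2 * σ.K1 + 4) * z) * q)) := by
      refine mul_le_mul_of_nonneg_left (mul_le_mul_of_nonneg_left ?_ (by norm_num)) hc0
      exact mul_le_mul_of_nonneg_right (mul_le_mul_of_nonneg_left hn (by positivity)) hq0
    have e2 := mul_le_mul_of_nonneg_left hw1 t2
    rw [eC]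
    have e3 : 0 ≤ H513.siD L1 (L1 + Kr) * ((h : ℝ) / B) := by positivity
    linarith
  · refine (i2V_sum hB hK hKL hL hLB hS).trans ?_
    have e1 : ∑ d ∈ range (L1 + Kr + 1), S3.F2b s.R s.pn B (μS x m) (KS ρ) d ≤
        b * ((h : ℝ) / B) + b ^ 3 * KS ρ * w * q * n := by
      have e := H652.F2bs_le (h := (h : ℝ)) (B := (B : ℝ)) (K := KS ρ) (m := (m : ℝ)) (μ := ((μS x m : ℕ) : ℝ)) (q := q)
        (n := n) hK0 (by positivity) hq0 hn0 (L1 + Kr)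
      refine le_trans (le_of_eq (Finset.sum_congr rfl fun d _ => ?_)) e
      unfold S3.F2b
      rw [s.run.hh, s.run.hm]
    have e2 : b ^ 3 * KS ρ * w * q * n ≤ b ^ 3 * KS ρ * w * q * ((2 * σ.K1 + 4) * z) :=
      mul_le_mul_of_nonneg_left hn (by positivity)
    have e3 := mul_le_mul_of_nonneg_left (e1.trans (add_le_add le_rfl e2)) hL0
    have e4 := mul_nonneg t2 (by linarith : 0 ≤ w)
    have e5 : H513.siD L1 (L1 + Kr) * ((h : ℝ) / B) = L1 * (b * ((h : ℝ) / B)) := by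
      unfold H513.siD
      rw [hb]
      ring
    rw [eC, e5]
    linarith

/-- the numbers -/
theorem ev_num2 (σ : Cst) (hσ : σ.Ok) (ρ : Thr) (x L1 Kr : ℕ) : H652.Ev3 fun m B h =>
    NwNum σ ρ m B h ∧ 5 * μS x m ≤ B ∧ (m : ℝ) * (ρ.J + 1) ≤ h ∧ 1 ≤ B ∧ L1 + Kr ≤ B := by
  have n1 := ev_NwNum σ hσ ρ
  have n2 : H652.Ev3 fun m B _ => 5 * μS x m + 1 + (L1 + Kr) ≤ B := H652.Ev3.of_B' fun m => H652.ev_nat _
  have n3 : H652.Ev3 fun m _ h => (m : ℝ) * (ρ.J + 1) ≤ h := by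
    refine H652.Ev3.of_h fun m _ => ?_
    obtain ⟨n, hn⟩ := exists_nat_ge ((m : ℝ) * (ρ.J + 1))
    exact (H652.ev_nat n).mono fun h hh => hn.trans (by exact_mod_cast hh)
  exact ((n1.and n2).and n3).mono fun m B h H => ⟨H.1.1, by have := H.1.2; omega, H.2, by have := H.1.2; omega,
    by have := H.1.2; omega⟩

end rec

end Vale.Agent.P106.U.H958
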