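import Vale.Agent.P106.H25.LabV0
import Vale.Agent.P106.U.H364.N4
import Vale.Agent.P106.U.H364.Nhc

/-!
# P106 / U / H958 : the junction of the V windows of the kappa regime (helper958)

* `LCtx.dstep` : two points of one cell `C1.cell j b`, the same late time: positions, null coordinates and values of the state.
* `LCtx.hb` : bounds of slope and kappa of the state.
* **`hc_lab`** : `H(lbH 1 (XH) (MH) | cell, late time) ≤ 18 μ log 2 + 9 log K + 16`.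
* **`hJ_V`** : the same for 25's `AV` given the late time and `mtr`.
-/

set_option autoImplicit false

namespace Vale.Agent.P106.U.H958

open Finset Vale.Agent.P127 Vale.Agent.P127.Stk Vale.Agent.P106.U.Cell Vale.Agent.P106.U.H466
open Vale.Agent.P127.U.CellD (q2 rd Nb q2_pos q2_add q2_le rd_err rd_le lt_rd rd_mono q2_mul_pow fl1_fl1)

section state

variable {Ω τ₁ τ₂ : Type} {C1 : Pth Ω τ₁} {C2 : Pth Ω τ₂} {un κW αW : Ω → ℝ} {S : Ω → Prop} {K : ℝ}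
  {j i b bb bV ν : ℕ}

/-- values of the functional of the representative and of the cell -/
theorem g_G0 (X : LCtx C1 C2 un κW αW S K j i b bb bV ν) {dr : Ω → Ω} (hdr : Rep S (C1.cell j b) dr) {ω ω' : Ω}
    (hω : S ω) (hD : C1.cell j b ω' = C1.cell j b ω) :
    |(G0 C1 j dr (C1.s j ω) ω).g (C1.l ω') (C1.s j ω) - (G0 C1 j dr (C1.s j ω) ω).g (C1.l ω) (C1.s j ω)| ≤
      2 * (2 ^ C1.μ) ^ 7 * (q2 (C1.a j) * q2 (C1.rk j) * q2 b ^ 2) ∧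
    |(G0 C1 j dr (C1.s j ω) ω).gd (C1.l ω') (C1.s j ω) - (G0 C1 j dr (C1.s j ω) ω).gd (C1.l ω) (C1.s j ω)| ≤
      2 * (2 ^ C1.μ) ^ 5 * (q2 (C1.rk j) * q2 b ^ 2) := by
  have h := near C1 X.k1 hD
  have h0 := near C1 X.k1 (hdr.val ω hω)
  have hm : C1.R j b - 3 * C1.μ = C1.rk j + b - 3 * C1.μ := by unfold Pth.R Pth.bs; have := X.k1; omega
  have M1 : (1 : ℝ) ≤ 2 ^ C1.μ := one_le_pow₀ (by norm_num)
  have qa := q2_pos (C1.a j)
  have qk := q2_pos (C1.rk j)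
  have qb := q2_pos b
  set M : ℝ := 2 ^ C1.μ with hM
  set δ : ℝ := C1.ro 4 (C1.R j b - 3 * C1.μ) (C1.sl j b (dr ω)) - C1.sl j b (dr ω) with hδ
  have hδ1 : |δ| ≤ q2 (C1.rk j) * q2 b * M ^ 3 := by
    refine (ro_err C1 4 _ _).trans ?_
    rw [hm]
    refine (q2_sub _ _).trans (le_of_eq ?_)
    rw [q2_add, hM, ← pow_mul, mul_comm 3 C1.μ]
  -- the functional at the representative
  set F : Fu := C1.F j (dr ω) with hF
  have hGD : GD C1 j b ω = ⟨F.ga, F.ph + δ, F.ka, F.al⟩ := by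
    rw [← h0.G]
    unfold GD Pth.Fr Pth.sl
    rw [Fu.mk.injEq]
    refine ⟨rfl, ?_, rfl, rfl⟩
    rw [hδ]
    unfold Pth.sl
    ring
  have hg : ∀ l : Ray, (G0 C1 j dr (C1.s j ω) ω).g l (C1.s j ω) = (GD C1 j b ω).g l (C1.s j ω) + δ * l.X (C1.s j ω) := by
    intro l
    have e1 := Fu.g_sh F l (C1.s j ω) (C1.s j ω - C1.s j ω)
    have e2 : G0 C1 j dr (C1.s j ω) ω = F.sh (C1.s j ω - C1.s j ω) := rfl
    rw [add_sub_cancel, sub_self, zero_mul, add_zero] at e1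
    rw [e2, sub_self, e1, hGD]
    unfold Fu.g
    dsimp only
    ring
  have hgd : ∀ l : Ray, (G0 C1 j dr (C1.s j ω) ω).gd l (C1.s j ω) = (GD C1 j b ω).gd l (C1.s j ω) + δ * l.v := by
    intro l
    have e1 := Fu.gd_sh F l (C1.s j ω) (C1.s j ω - C1.s j ω)
    have e2 : G0 C1 j dr (C1.s j ω) ω = F.sh (C1.s j ω - C1.s j ω) := rfl
    rw [add_sub_cancel, sub_self] at e1
    rw [e2, sub_self, e1, hGD]
    unfold Fu.gd
    dsimp only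
    ring
  have m47 : M ^ 4 ≤ M ^ 7 := pow_le_pow_right₀ M1 (by norm_num)
  have m35 : M ^ 3 ≤ M ^ 5 := pow_le_pow_right₀ M1 (by norm_num)
  constructor
  · rw [hg, hg]
    have e : (GD C1 j b ω).g (C1.l ω') (C1.s j ω) + δ * (C1.l ω').X (C1.s j ω) -
        ((GD C1 j b ω).g (C1.l ω) (C1.s j ω) + δ * (C1.l ω).X (C1.s j ω)) =
        ((GD C1 j b ω).g (C1.l ω') (C1.s j ω) - (GD C1 j b ω).g (C1.l ω) (C1.s j ω)) +
        δ * ((C1.l ω').X (C1.s j ω) - (C1.l ω).X (C1.s j ω)) := by ring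
    rw [e]
    have t1 := h.g
    have t2 : |δ * ((C1.l ω').X (C1.s j ω) - (C1.l ω).X (C1.s j ω))| ≤
        (q2 (C1.rk j) * q2 b * M ^ 3) * (q2 (C1.a j) * q2 b * M) := by
      rw [abs_mul]
      exact mul_le_mul hδ1 h.X (abs_nonneg _) (by positivity)
    refine (abs_add_le _ _).trans ((add_le_add t1 t2).trans ?_)
    have e2 : q2 (C1.a j) * q2 b ^ 2 * q2 (C1.rk j) * M ^ 7 + (q2 (C1.rk j) * q2 b * M ^ 3) * (q2 (C1.a j) * q2 b * M) =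
        (M ^ 7 + M ^ 4) * (q2 (C1.a j) * q2 (C1.rk j) * q2 b ^ 2) := by ring
    rw [e2]
    exact mul_le_mul_of_nonneg_right (by linarith) (by positivity)
  · rw [hgd, hgd]
    have e : (GD C1 j b ω).gd (C1.l ω') (C1.s j ω) + δ * (C1.l ω').v -
        ((GD C1 j b ω).gd (C1.l ω) (C1.s j ω) + δ * (C1.l ω).v) =
        ((GD C1 j b ω).gd (C1.l ω') (C1.s j ω) - (GD C1 j b ω).gd (C1.l ω) (C1.s j ω)) +
        δ * ((C1.l ω').v - (C1.l ω).v) := by ring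
    rw [e]
    have t1 := h.gd
    have t2 : |δ * ((C1.l ω').v - (C1.l ω).v)| ≤ (q2 (C1.rk j) * q2 b * M ^ 3) * q2 b := by
      rw [abs_mul]
      exact mul_le_mul hδ1 h.v (abs_nonneg _) (by positivity)
    refine (abs_add_le _ _).trans ((add_le_add t1 t2).trans ?_)
    have e2 : q2 b ^ 2 * q2 (C1.rk j) * M ^ 5 + (q2 (C1.rk j) * q2 b * M ^ 3) * q2 b =
        (M ^ 5 + M ^ 3) * (q2 (C1.rk j) * q2 b ^ 2) := by ring
    rw [e2]
    exact mul_le_mul_of_nonneg_right (by linarith) (by positivity)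

/-- **two points of one cell, the same late time** -/
theorem dstep (X : LCtx C1 C2 un κW αW S K j i b bb bV ν) {dr : Ω → Ω} (hdr : Rep S (C1.cell j b) dr) {ω ω' : Ω}
    (hω : S ω) (hω' : S ω') (hD : C1.cell j b ω' = C1.cell j b ω) (hs : C2.s i ω' = C2.s i ω) :
    |hV C1 C2 j i b ω' - hV C1 C2 j i b ω| ≤ 2 * 2 ^ C1.μ ∧
    |hZ C1 C2 j i b ω' - hZ C1 C2 j i b ω| ≤ 2 * (2 ^ C1.μ) ^ 3 ∧
    |hG C1 C2 j i b dr ω' - hG C1 C2 j i b dr ω| ≤ 4 * (2 ^ C1.μ) ^ 7 := by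
  have h := near C1 X.k1 hD
  have M1 : (1 : ℝ) ≤ 2 ^ C1.μ := one_le_pow₀ (by norm_num)
  have qa := q2_pos (C1.a j)
  have qk := q2_pos (C1.rk j)
  have qb := q2_pos b
  set M : ℝ := 2 ^ C1.μ with hM
  set t := C2.s i ω with ht
  set t0 := C1.s j ω with ht0
  have et0 : C1.s j ω' = t0 := h.s
  set σ : ℝ := 2 ^ C1.a j * (t - t0) with hσ
  have hσ1 : |σ| ≤ 1 := by
    refine scl ?_
    rw [one_mul]
    exact X.ds
  have e1 := pt_mv C1 j j b dr t0 t ω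
  have e2 := pt_mv C1 j j b dr t0 t ω'
  rw [vcell C1 hD, cccell C1 hD] at e2
  rw [← hσ] at e1 e2
  set P := pt C1 j j b dr t0 ω with hP
  set P' := pt C1 j j b dr t0 ω' with hP'
  have b1 := X.bd hdr t0 hω
  have b2 := X.bd hdr t0 hω'
  have hG' : ∀ s, G0 C1 j dr s ω' = G0 C1 j dr s ω := fun s => Gcell C1 (le_refl j) hdr hD s
  obtain ⟨g1, g2⟩ := g_G0 X hdr hω hD
  -- differences at the early time
  have dV : |P'.V - P.V| ≤ M := by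
    show |2 ^ (C1.a j + b) * (C1.l ω').X t0 - 2 ^ (C1.a j + b) * (C1.l ω).X t0| ≤ M
    rw [← mul_sub]
    refine scl (h.X.trans (le_of_eq ?_))
    rw [q2_add]
    ring
  have dZ : |P'.Z - P.Z| ≤ M ^ 3 := by
    show |2 ^ (C1.a j + 2 * b) * C1.Zs b t0 ω' - 2 ^ (C1.a j + 2 * b) * C1.Zs b t0 ω| ≤ M ^ 3
    rw [← mul_sub]
    refine scl (h.Z.trans (le_of_eq ?_))
    rw [q2_add, q2_mul]
    ring
  have dg : |P'.g - P.g| ≤ 2 * M ^ 7 := by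
    show |2 ^ (C1.a j + C1.rk j + 2 * b) * (G0 C1 j dr t0 ω').g (C1.l ω') t0 -
      2 ^ (C1.a j + C1.rk j + 2 * b) * (G0 C1 j dr t0 ω).g (C1.l ω) t0| ≤ _
    rw [← mul_sub, hG']
    refine scl (g1.trans (le_of_eq ?_))
    rw [q2_add, q2_add, q2_mul]
  have dd : |P'.d - P.d| ≤ 2 * M ^ 5 := by
    show |2 ^ (C1.rk j + 2 * b) * (G0 C1 j dr t0 ω').gd (C1.l ω') t0 -
      2 ^ (C1.rk j + 2 * b) * (G0 C1 j dr t0 ω).gd (C1.l ω) t0| ≤ _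
    rw [← mul_sub, hG']
    refine scl (g2.trans (le_of_eq ?_))
    rw [q2_add, q2_mul]
  have dy : |P'.y - P.y| ≤ 1 := X.dy hdr t0 hω hω'
  have hy2 : |(P'.y ^ 2 + P'.u ^ 2) / 2 - (P.y ^ 2 + P.u ^ 2) / 2| ≤ M ^ 2 := by
    have a1 := b1.y0
    have a2 := b1.y1
    have a3 := b2.y0
    have a4 := b2.y1
    have a5 : P.u ^ 2 ≤ M ^ 2 := by
      rw [← sq_abs P.u]
      exact pow_le_pow_left₀ (abs_nonneg _) b1.u 2
    have a6 : P'.u ^ 2 ≤ M ^ 2 := by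
      rw [← sq_abs P'.u]
      exact pow_le_pow_left₀ (abs_nonneg _) b2.u 2
    have a7 : P.y ^ 2 ≤ 1 := by nlinarith
    have a8 : P'.y ^ 2 ≤ 1 := by nlinarith
    have a9 := sq_nonneg P.y
    have a10 := sq_nonneg P'.y
    have a11 := sq_nonneg P.u
    have a12 := sq_nonneg P'.u
    have a13 : 1 ≤ M ^ 2 := one_le_pow₀ M1
    rw [abs_le]
    constructor <;> linarith
  have m1 : 1 ≤ M ^ 2 := one_le_pow₀ M1
  have m23 : M ^ 2 ≤ M ^ 3 := pow_le_pow_right₀ M1 (by norm_num)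
  have m57 : M ^ 5 ≤ M ^ 7 := pow_le_pow_right₀ M1 (by norm_num)
  refine ⟨?_, ?_, ?_⟩
  · show |2 ^ (C1.a j + b) * (C1.l ω').X (C2.s i ω') - 2 ^ (C1.a j + b) * (C1.l ω).X (C2.s i ω)| ≤ _
    rw [hs]
    have f1 : 2 ^ (C1.a j + b) * (C1.l ω').X t = P'.V + σ * (2 ^ b * vb C1 b ω + P'.y) := congrArg Pt.V e2
    have f2 : 2 ^ (C1.a j + b) * (C1.l ω).X t = P.V + σ * (2 ^ b * vb C1 b ω + P.y) := congrArg Pt.V e1
    rw [f1, f2]
    have e : P'.V + σ * (2 ^ b * vb C1 b ω + P'.y) - (P.V + σ * (2 ^ b * vb C1 b ω + P.y)) =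
        (P'.V - P.V) + σ * (P'.y - P.y) := by ring
    rw [e]
    have t1 : |σ * (P'.y - P.y)| ≤ 1 := by
      rw [abs_mul]
      calc _ ≤ 1 * 1 := mul_le_mul hσ1 dy (abs_nonneg _) (by norm_num)
        _ = 1 := by norm_num
    refine (abs_add_le _ _).trans ?_
    linarith
  · show |2 ^ (C1.a j + 2 * b) * C1.Zs b (C2.s i ω') ω' - 2 ^ (C1.a j + 2 * b) * C1.Zs b (C2.s i ω) ω| ≤ _
    rw [hs]
    have f1 : 2 ^ (C1.a j + 2 * b) * C1.Zs b t ω' = P'.Z + σ * ((P'.y ^ 2 + P'.u ^ 2) / 2 - cc C1 b ω) := congrArg Pt.Z e2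
    have f2 : 2 ^ (C1.a j + 2 * b) * C1.Zs b t ω = P.Z + σ * ((P.y ^ 2 + P.u ^ 2) / 2 - cc C1 b ω) := congrArg Pt.Z e1
    rw [f1, f2]
    have e : P'.Z + σ * ((P'.y ^ 2 + P'.u ^ 2) / 2 - cc C1 b ω) - (P.Z + σ * ((P.y ^ 2 + P.u ^ 2) / 2 - cc C1 b ω)) =
        (P'.Z - P.Z) + σ * ((P'.y ^ 2 + P'.u ^ 2) / 2 - (P.y ^ 2 + P.u ^ 2) / 2) := by ring
    rw [e]
    have t1 : |σ * ((P'.y ^ 2 + P'.u ^ 2) / 2 - (P.y ^ 2 + P.u ^ 2) / 2)| ≤ M ^ 2 := by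
      rw [abs_mul]
      calc _ ≤ 1 * M ^ 2 := mul_le_mul hσ1 hy2 (abs_nonneg _) (by norm_num)
        _ = _ := by ring
    refine (abs_add_le _ _).trans ?_
    linarith
  · show |2 ^ (C1.a j + C1.rk j + 2 * b) * (G0 C1 j dr (C2.s i ω') ω').g (C1.l ω') (C2.s i ω') -
      2 ^ (C1.a j + C1.rk j + 2 * b) * (G0 C1 j dr (C2.s i ω) ω).g (C1.l ω) (C2.s i ω)| ≤ _
    rw [hs]
    have f1 : 2 ^ (C1.a j + C1.rk j + 2 * b) * (G0 C1 j dr t ω').g (C1.l ω') t = P'.g + σ * P'.d := congrArg Pt.g e2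
    have f2 : 2 ^ (C1.a j + C1.rk j + 2 * b) * (G0 C1 j dr t ω).g (C1.l ω) t = P.g + σ * P.d := congrArg Pt.g e1
    rw [f1, f2]
    have e : P'.g + σ * P'.d - (P.g + σ * P.d) = (P'.g - P.g) + σ * (P'.d - P.d) := by ring
    rw [e]
    have t1 : |σ * (P'.d - P.d)| ≤ 2 * M ^ 5 := by
      rw [abs_mul]
      calc _ ≤ 1 * (2 * M ^ 5) := mul_le_mul hσ1 dd (abs_nonneg _) (by norm_num)
        _ = _ := by ring
    refine (abs_add_le _ _).trans ?_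
    linarith

/-- slope and kappa of the state -/
theorem hb (X : LCtx C1 C2 un κW αW S K j i b bb bV ν) {dr : Ω → Ω} (hdr : Rep S (C1.cell j b) dr) {ω : Ω} (hω : S ω) :
    |hP C1 C2 j i b dr ω| ≤ 17 * K ^ 3 * (2 ^ C1.μ) ^ 3 ∧ |hK C1 C2 j i ω| ≤ 2 * K ^ 3 * 2 ^ C1.μ := by
  have K1 := X.K1
  have M1 : (1 : ℝ) ≤ 2 ^ C1.μ := one_le_pow₀ (by norm_num)
  have hk : |hK C1 C2 j i ω| ≤ 2 * K ^ 3 * 2 ^ C1.μ := by
    unfold hK
    refine scl ((X.E_bd hω).2.2.trans ?_)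
    have := X.NM
    have q := q2_pos (C1.rk j)
    calc 2 * K ^ 3 * (q2 (C1.rk j) * 2 ^ ν) ≤ 2 * K ^ 3 * (q2 (C1.rk j) * 2 ^ C1.μ) := by gcongr
      _ = _ := by ring
  refine ⟨?_, hk⟩
  have bd := X.bd hdr (C2.s i ω) hω
  rw [hP_eq]
  unfold phi
  have p1 : |C1.p ω| ≤ 1 := (X.ok ω hω).p1.trans (q2_one _)
  set M : ℝ := 2 ^ C1.μ with hM
  set q := pt C1 j j b dr (C2.s i ω) ω with hq
  set k := hK C1 C2 j i ω with hk'
  have hy : |q.y| ≤ 1 := by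
    rw [abs_le]
    constructor <;> linarith [bd.y0, bd.y1]
  have K3 : 0 ≤ K ^ 3 := by positivity
  have t1 : |k * q.y| ≤ 2 * K ^ 3 * M := by
    rw [abs_mul]
    calc _ ≤ (2 * K ^ 3 * M) * 1 := mul_le_mul hk hy (abs_nonneg _) (by positivity)
      _ = _ := by ring
  have t2 : |C1.p ω * k * q.u| ≤ 2 * K ^ 3 * M * M := by
    rw [abs_mul, abs_mul]
    calc |C1.p ω| * |k| * |q.u| ≤ 1 * (2 * K ^ 3 * M) * M :=
          mul_le_mul (mul_le_mul p1 hk (abs_nonneg _) (by norm_num)) bd.u (abs_nonneg _) (by positivity)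
      _ = _ := by ring
  have t0 := bd.r
  have s1 := abs_sub (q.r - k * q.y) (C1.p ω * k * q.u)
  have s2 := abs_sub q.r (k * q.y)
  have m1 : K ^ 3 * M ≤ K ^ 3 * M ^ 3 := mul_le_mul_of_nonneg_left (by
    calc M = M ^ 1 := (pow_one M).symm
      _ ≤ M ^ 3 := pow_le_pow_right₀ M1 (by norm_num)) K3
  have m2 : K ^ 3 * (M * M) ≤ K ^ 3 * M ^ 3 := mul_le_mul_of_nonneg_left (by
    calc M * M = M ^ 2 := by ring
      _ ≤ M ^ 3 := pow_le_pow_right₀ M1 (by norm_num)) K3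
  have e : C1.p ω * k * q.u = C1.p ω * hK C1 C2 j i ω * q.u := rfl
  nlinarith

end state

section ent

variable {Ω τ₁ τ₂ : Type} [Fintype Ω] {C1 : Pth Ω τ₁} {C2 : Pth Ω τ₂} {un κW αW : Ω → ℝ} {K : ℝ}
  {j i b bb bV ν : ℕ}

/-- an integer part of a number with bounded differences -/
lemma hc_fl {T : Type*} (P : Law Ω) (f : Ω → ℝ) (Y : Ω → T) {B A : ℝ} (hB : 0 ≤ B) (hA : 2 * B + 5 ≤ A)
    (h : ∀ ω ω', 0 < P.w ω → 0 < P.w ω' → Y ω = Y ω' → |f ω' - f ω| ≤ B) :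
    hc P (fun ω => ⌊f ω⌋) Y ≤ Real.log A := by
  have h1 := hc_le_log P _ _ _ (H364.N4.int_card P (fun ω => ⌊f ω⌋) Y (m := ⌈B⌉₊) (by
    intro ω ω' p p' e
    have h2 := h ω ω' p p' e
    have h3 : B ≤ ⌈B⌉₊ := Nat.le_ceil _
    have a1 := Int.floor_le (f ω)
    have a2 := Int.lt_floor_add_one (f ω)
    have a3 := Int.floor_le (f ω')
    have a4 := Int.lt_floor_add_one (f ω')
    rw [abs_le] at h2
    have b1 : (⌊f ω'⌋ : ℝ) - ⌊f ω⌋ < (⌈B⌉₊ : ℝ) + 2 - 1 := by linarith [h2.2]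
    have b2 : -((⌈B⌉₊ : ℝ) + 2 - 1) < (⌊f ω'⌋ : ℝ) - ⌊f ω⌋ := by linarith [h2.1]
    have c1 : ⌊f ω'⌋ - ⌊f ω⌋ < (⌈B⌉₊ : ℤ) + 2 - 1 := by exact_mod_cast b1
    have c2 : -((⌈B⌉₊ : ℤ) + 2 - 1) < ⌊f ω'⌋ - ⌊f ω⌋ := by exact_mod_cast b2
    show |⌊f ω'⌋ - ⌊f ω⌋| ≤ (⌈B⌉₊ : ℤ) + 1
    rw [abs_le]
    constructor <;> omega))
  refine h1.trans (Real.log_le_log (by positivity) ?_)
  push_cast
  have := Nat.ceil_lt_add_one hB
  linarith

/-- **the unit label of the state, given the cell and the late time** -/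
theorem hc_lab {T : Type*} (P : Law Ω) (X : LCtx C1 C2 un κW αW (fun ω => 0 < P.w ω) K j i b bb bV ν)
    {dr : Ω → Ω} (hdr : Rep (fun ω => 0 < P.w ω) (C1.cell j b) dr) {σ : ℝ} (h1 : 1 ≤ σ) (hσ : σ ≤ 2 ^ C1.μ)
    (Y : Ω → T) (hY : ∀ ω ω', 0 < P.w ω → 0 < P.w ω' → Y ω = Y ω' →
      C1.cell j b ω' = C1.cell j b ω ∧ C2.s i ω' = C2.s i ω) :
    hc P (fun ω => H25.lbH 1 (XH C1 C2 σ j i b dr ω) (MH C1 C2 σ j i b dr ω)) Y ≤
      18 * C1.μ * Real.log 2 + 9 * Real.log K + 16 := by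
  have K1 := X.K1
  have M1 : (1 : ℝ) ≤ 2 ^ C1.μ := one_le_pow₀ (by norm_num)
  set M : ℝ := 2 ^ C1.μ with hM
  have K3 : 1 ≤ K ^ 3 := one_le_pow₀ K1
  have pw : ∀ {m n : ℕ}, m ≤ n → M ^ m ≤ M ^ n := fun h => pow_le_pow_right₀ M1 h
  have kp : ∀ n, M ^ n ≤ K ^ 3 * M ^ n := fun n => by
    have : 0 < M ^ n := by positivity
    nlinarith
  have m1 : ∀ n, 1 ≤ M ^ n := fun n => one_le_pow₀ M1
  -- the differences
  have D : ∀ ω ω', 0 < P.w ω → 0 < P.w ω' → Y ω = Y ω' →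
      |hV C1 C2 j i b ω' - hV C1 C2 j i b ω| ≤ 2 * M ∧ |hZ C1 C2 j i b ω' - hZ C1 C2 j i b ω| ≤ 2 * M ^ 3 ∧
      |hG C1 C2 j i b dr ω' - hG C1 C2 j i b dr ω| ≤ 4 * M ^ 7 := fun ω ω' p p' e =>
    dstep X hdr p p' (hY ω ω' p p' e).1 (hY ω ω' p p' e).2
  have Bp : ∀ ω, 0 < P.w ω → |σ * hP C1 C2 j i b dr ω| ≤ 17 * (K ^ 3 * M ^ 4) := fun ω p => by
    rw [abs_mul, abs_of_pos (by linarith : 0 < σ)]
    calc σ * |hP C1 C2 j i b dr ω| ≤ M * (17 * K ^ 3 * M ^ 3) :=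
          mul_le_mul hσ (hb X hdr p).1 (abs_nonneg _) (by linarith)
      _ = _ := by ring
  have Bk : ∀ ω, 0 < P.w ω → |σ * hK C1 C2 j i ω| ≤ 2 * (K ^ 3 * M ^ 2) := fun ω p => by
    rw [abs_mul, abs_of_pos (by linarith : 0 < σ)]
    calc σ * |hK C1 C2 j i ω| ≤ M * (2 * K ^ 3 * M) :=
          mul_le_mul hσ (hb X hdr p).2 (abs_nonneg _) (by linarith)
      _ = _ := by ring
  -- the five integers
  set f0 : Ω → ℝ := fun ω => hV C1 C2 j i b ω with hf0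
  set f1 : Ω → ℝ := fun ω => hZ C1 C2 j i b ω with hf1
  set f2 : Ω → ℝ := fun ω => σ * hP C1 C2 j i b dr ω with hf2
  set f3 : Ω → ℝ := fun ω => σ * hK C1 C2 j i ω with hf3
  set Z : Ω → (ℤ × ℤ) × T := fun ω => ((⌊f2 ω⌋, ⌊f3 ω⌋), Y ω) with hZ'
  set f4 : Ω → ℝ := fun ω => σ * hG C1 C2 j i b dr ω - ⌊f2 ω⌋ * f0 ω - ⌊f3 ω⌋ * f1 ω with hf4
  have a0 : hc P (fun ω => ⌊f0 ω⌋) Y ≤ Real.log (9 * M) := by
    refine hc_fl P f0 Y (B := 2 * M) (by positivity) (by linarith) fun ω ω' p p' e => (D ω ω' p p' e).1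
  have a1 : hc P (fun ω => ⌊f1 ω⌋) Y ≤ Real.log (9 * M ^ 3) := by
    refine hc_fl P f1 Y (B := 2 * M ^ 3) (by positivity) (by linarith [m1 3]) fun ω ω' p p' e => (D ω ω' p p' e).2.1
  have a2 : hc P (fun ω => ⌊f2 ω⌋) Y ≤ Real.log (73 * (K ^ 3 * M ^ 4)) := by
    refine hc_fl P f2 Y (B := 34 * (K ^ 3 * M ^ 4)) (by positivity) (by linarith [m1 4, kp 4])
      fun ω ω' p p' e => ?_
    have b1 := Bp ω p
    have b2 := Bp ω' p'
    rw [abs_le] at b1 b2 ⊢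
    constructor <;> linarith [b1.1, b1.2, b2.1, b2.2]
  have a3 : hc P (fun ω => ⌊f3 ω⌋) Y ≤ Real.log (13 * (K ^ 3 * M ^ 2)) := by
    refine hc_fl P f3 Y (B := 4 * (K ^ 3 * M ^ 2)) (by positivity) (by linarith [m1 2, kp 2])
      fun ω ω' p p' e => ?_
    have b1 := Bk ω p
    have b2 := Bk ω' p'
    rw [abs_le] at b1 b2 ⊢
    constructor <;> linarith [b1.1, b1.2, b2.1, b2.2]
  have a4 : hc P (fun ω => ⌊f4 ω⌋) Z ≤ Real.log (97 * (K ^ 3 * M ^ 8)) := by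
    refine hc_fl P f4 Z (B := 46 * (K ^ 3 * M ^ 8)) (by positivity) (by linarith [m1 8, kp 8])
      fun ω ω' p p' e => ?_
    simp only [hZ', Prod.mk.injEq] at e
    obtain ⟨⟨e2, e3⟩, eY⟩ := e
    obtain ⟨d0, d1, dg⟩ := D ω ω' p p' eY
    have n2 : |(⌊f2 ω⌋ : ℝ)| ≤ 18 * (K ^ 3 * M ^ 4) := by
      have b1 := Bp ω p
      have c1 := Int.floor_le (f2 ω)
      have c2 := Int.lt_floor_add_one (f2 ω)
      rw [abs_le] at b1 ⊢
      have := m1 4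
      have := kp 4
      constructor <;> linarith [b1.1, b1.2]
    have n3 : |(⌊f3 ω⌋ : ℝ)| ≤ 3 * (K ^ 3 * M ^ 2) := by
      have b1 := Bk ω p
      have c1 := Int.floor_le (f3 ω)
      have c2 := Int.lt_floor_add_one (f3 ω)
      rw [abs_le] at b1 ⊢
      have := m1 2
      have := kp 2
      constructor <;> linarith [b1.1, b1.2]
    have ee : f4 ω' - f4 ω = σ * (hG C1 C2 j i b dr ω' - hG C1 C2 j i b dr ω) - ⌊f2 ω⌋ * (f0 ω' - f0 ω) -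
        ⌊f3 ω⌋ * (f1 ω' - f1 ω) := by
      simp only [hf4]
      rw [← e2, ← e3]
      ring
    rw [ee]
    have t1 : |σ * (hG C1 C2 j i b dr ω' - hG C1 C2 j i b dr ω)| ≤ 4 * (K ^ 3 * M ^ 8) := by
      rw [abs_mul, abs_of_pos (by linarith : 0 < σ)]
      calc _ ≤ M * (4 * M ^ 7) := mul_le_mul hσ dg (abs_nonneg _) (by linarith)
        _ = 4 * M ^ 8 := by ring
        _ ≤ _ := by linarith [kp 8]
    have t2 : |⌊f2 ω⌋ * (f0 ω' - f0 ω)| ≤ 36 * (K ^ 3 * M ^ 8) := by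
      rw [abs_mul]
      calc _ ≤ 18 * (K ^ 3 * M ^ 4) * (2 * M) := mul_le_mul n2 d0 (abs_nonneg _) (by positivity)
        _ = 36 * (K ^ 3 * M ^ 5) := by ring
        _ ≤ _ := by
          have := mul_le_mul_of_nonneg_left (pw (show 5 ≤ 8 by norm_num)) (by positivity : 0 ≤ K ^ 3)
          linarith
    have t3 : |⌊f3 ω⌋ * (f1 ω' - f1 ω)| ≤ 6 * (K ^ 3 * M ^ 8) := by
      rw [abs_mul]
      calc _ ≤ 3 * (K ^ 3 * M ^ 2) * (2 * M ^ 3) := mul_le_mul n3 d1 (abs_nonneg _) (by positivity)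
        _ = 6 * (K ^ 3 * M ^ 5) := by ring
        _ ≤ _ := by
          have := mul_le_mul_of_nonneg_left (pw (show 5 ≤ 8 by norm_num)) (by positivity : 0 ≤ K ^ 3)
          linarith
    rw [abs_le] at t1 t2 t3 ⊢
    constructor <;> linarith [t1.1, t1.2, t2.1, t2.2, t3.1, t3.2]
  -- the label
  have b1 : hc P (fun ω => H25.lbH 1 (XH C1 C2 σ j i b dr ω) (MH C1 C2 σ j i b dr ω)) Y ≤
      hc P (fun ω => ((⌊f2 ω⌋, ⌊f3 ω⌋), (⌊f4 ω⌋, (⌊f0 ω⌋, ⌊f1 ω⌋)))) Y := by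
    refine hc_mono_left P ?_
    intro ω ω' _ _ e
    simp only [Prod.mk.injEq] at e
    obtain ⟨⟨⟨e2, e3⟩, e4, e0, e1⟩, -⟩ := e
    have x0 : ∀ x, XH C1 C2 σ j i b dr x 0 = f0 x := fun x => rfl
    have x1 : ∀ x, XH C1 C2 σ j i b dr x 1 = f1 x := fun x => rfl
    have x2 : ∀ x, XH C1 C2 σ j i b dr x 2 = f2 x := fun x => rfl
    have x3 : ∀ x, XH C1 C2 σ j i b dr x 3 = f3 x := fun x => rfl
    have xm : ∀ x, MH C1 C2 σ j i b dr x = σ * hG C1 C2 j i b dr x := fun x => rfl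
    unfold H25.lbH
    refine Prod.ext ?_ ?_
    · simp only [div_one, one_mul, mul_one, x0, x1, x2, x3, xm]
      exact e4
    · funext l
      simp only [div_one]
      fin_cases l
      · exact e0
      · exact e1
      · exact e2
      · exact e3
  have c1 := hc_pair P (fun ω => (⌊f2 ω⌋, ⌊f3 ω⌋)) (fun ω => (⌊f4 ω⌋, (⌊f0 ω⌋, ⌊f1 ω⌋))) Y
  have c2 := hc_pair P (fun ω => ⌊f2 ω⌋) (fun ω => ⌊f3 ω⌋) Y
  have c3 : hc P (fun ω => ⌊f3 ω⌋) (fun ω => (⌊f2 ω⌋, Y ω)) ≤ hc P (fun ω => ⌊f3 ω⌋) Y :=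
    hc_mono_right P _ fun _ _ _ _ e => congrArg Prod.snd e
  have c4 := hc_pair P (fun ω => ⌊f4 ω⌋) (fun ω => (⌊f0 ω⌋, ⌊f1 ω⌋)) Z
  have c5 := hc_pair P (fun ω => ⌊f0 ω⌋) (fun ω => ⌊f1 ω⌋) (fun ω => (⌊f4 ω⌋, Z ω))
  have c6 : hc P (fun ω => ⌊f0 ω⌋) (fun ω => (⌊f4 ω⌋, Z ω)) ≤ hc P (fun ω => ⌊f0 ω⌋) Y :=
    hc_mono_right P _ fun _ _ _ _ e => congrArg (fun x => x.2.2) e
  have c7 : hc P (fun ω => ⌊f1 ω⌋) (fun ω => (⌊f0 ω⌋, (⌊f4 ω⌋, Z ω))) ≤ hc P (fun ω => ⌊f1 ω⌋) Y :=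
    hc_mono_right P _ fun _ _ _ _ e => congrArg (fun x => x.2.2.2) e
  -- logarithms
  have M0 : 0 < M := by linarith
  have K0 : 0 < K := by linarith
  have lM : Real.log M = C1.μ * Real.log 2 := by rw [hM, Real.log_pow]
  have l1 : Real.log (9 * M) = Real.log 9 + Real.log M := Real.log_mul (by norm_num) M0.ne'
  have l2 : Real.log (9 * M ^ 3) = Real.log 9 + 3 * Real.log M := by
    rw [Real.log_mul (by norm_num) (by positivity), Real.log_pow]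
    push_cast
    ring
  have lk : ∀ (c : ℝ) (n : ℕ), 0 < c → Real.log (c * (K ^ 3 * M ^ n)) = Real.log c + 3 * Real.log K + n * Real.log M := by
    intro c n hc
    rw [Real.log_mul hc.ne' (by positivity), Real.log_mul (by positivity) (by positivity), Real.log_pow, Real.log_pow]
    push_cast
    ring
  rw [l1] at a0
  rw [l2] at a1
  rw [lk _ _ (by norm_num)] at a2 a3 a4
  have num : Real.log 9 + Real.log 9 + Real.log 73 + Real.log 13 + Real.log 97 ≤ 16 := by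
    rw [← Real.log_mul (by norm_num) (by norm_num), ← Real.log_mul (by norm_num) (by norm_num),
      ← Real.log_mul (by norm_num) (by norm_num), ← Real.log_mul (by norm_num) (by norm_num)]
    rw [Real.log_le_iff_le_exp (by norm_num)]
    have e1 : (2.7182818283 : ℝ) < Real.exp 1 := Real.exp_one_gt_d9
    have e2 : Real.exp 16 = Real.exp 1 ^ 16 := by
      rw [← Real.exp_nat_mul]
      norm_num
    rw [e2]
    calc (9 * 9 * 73 * 13 * 97 : ℝ) ≤ 2.7182818283 ^ 16 := by norm_num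
      _ ≤ Real.exp 1 ^ 16 := pow_le_pow_left₀ (by norm_num) e1.le 16
  push_cast at a2 a3 a4
  nlinarith

end ent

section mtr

open Vale.Agent.P106.U.H785.Mtr (Mtd Lt)

variable {Ω π : Type} [Fintype Ω] {D : Mtd Ω π} {un κW αW : Ω → ℝ} {K : ℝ} {r i b bb bV ν : ℕ}

/-- **junction of the V windows, kappa regime** (hypothesis `hJ`), `Th` = any letter which determines the time of the step `i` -/
theorem hJ_V {T : Type*} (P : Law Ω) (X : LCtx (D.p1 r) (D.p1 i) un κW αW (fun ω => 0 < P.w ω) K r i b bb bV ν)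
    {dr : ℕ → Ω → Ω} (hdr : Rep (fun ω => 0 < P.w ω) ((D.p1 r).cell r b) (dr r)) (hν : D.ν ≤ D.μ) (Th : Ω → T)
    (hTh : ∀ ω ω', 0 < P.w ω → 0 < P.w ω' → Th ω = Th ω' → fl1 (D.a i) (D.t ω) = fl1 (D.a i) (D.t ω')) :
    hc P (H25.AV D b i dr r) (fun ω => (Th ω, D.mtr r b ω)) ≤ 18 * D.μ * Real.log 2 + 9 * Real.log K + 16 := by
  set Y : Ω → T × (Lt π × Pth.Dg) := fun ω => (Th ω, D.mtr r b ω) with hY
  have h1 : (1 : ℝ) ≤ 2 ^ D.ν := one_le_pow₀ (by norm_num)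
  have h2 : (2 : ℝ) ^ D.ν ≤ 2 ^ D.μ := pow_le_pow_right₀ (by norm_num) hν
  have h3 := hc_lab P X hdr (σ := 2 ^ D.ν) h1 h2 Y (fun ω ω' p p' e => by
    have e1 : Th ω = Th ω' := congrArg Prod.fst e
    have e2 : D.mtr r b ω = D.mtr r b ω' := congrArg Prod.snd e
    refine ⟨(D.p1_cell_iff r r b ω' ω).2 e2.symm, ?_⟩
    have e3 := hTh ω ω' p p' e1
    show rd (D.a i) (D.t ω') = rd (D.a i) (D.t ω)
    unfold rd
    rw [e3])
  have h4 : hc P (H25.AV D b i dr r) Y ≤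
      hc P (fun ω => (D.mtr r b ω, H25.lbH 1 (XH (D.p1 r) (D.p1 i) (2 ^ D.ν) r i b (dr r) ω)
        (MH (D.p1 r) (D.p1 i) (2 ^ D.ν) r i b (dr r) ω))) Y := le_of_eq rfl
  have h5 := hc_pair P (D.mtr r b) (fun ω => H25.lbH 1 (XH (D.p1 r) (D.p1 i) (2 ^ D.ν) r i b (dr r) ω)
    (MH (D.p1 r) (D.p1 i) (2 ^ D.ν) r i b (dr r) ω)) Y
  have h6 : hc P (D.mtr r b) Y = 0 := hc_zero P fun ω ω' _ _ e => congrArg Prod.snd e
  have h7 : hc P (fun ω => H25.lbH 1 (XH (D.p1 r) (D.p1 i) (2 ^ D.ν) r i b (dr r) ω)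
      (MH (D.p1 r) (D.p1 i) (2 ^ D.ν) r i b (dr r) ω)) (fun ω => (D.mtr r b ω, Y ω)) ≤
      hc P (fun ω => H25.lbH 1 (XH (D.p1 r) (D.p1 i) (2 ^ D.ν) r i b (dr r) ω)
      (MH (D.p1 r) (D.p1 i) (2 ^ D.ν) r i b (dr r) ω)) Y := hc_mono_right P _ fun _ _ _ _ e => congrArg Prod.snd e
  have h8 : hc P (fun ω => H25.lbH 1 (XH (D.p1 r) (D.p1 i) (2 ^ D.ν) r i b (dr r) ω)
      (MH (D.p1 r) (D.p1 i) (2 ^ D.ν) r i b (dr r) ω)) Y ≤ 18 * D.μ * Real.log 2 + 9 * Real.log K + 16 := h3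
  linarith

end mtr

end Vale.Agent.P106.U.H958
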