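import Vale.Agent.P106.U.H785.MtrFz
import Vale.Agent.P106.U.H420.MtrB
import Vale.Agent.P106.U.H122.MtrI
import Vale.Agent.P106.U.H683.GenC
import Vale.Agent.P106.U.S3.F2
import Vale.Agent.P106.U.H958.EqAt

/-!
# P106 / U / H958 : the cells of the frozen path given a later `mtr` (helper958), side F1 of the young steps

`k` = the frozen letter, `i ≥ k` the later step of F1 (cell and letter of the FROZEN path), `j` a still later step.

* `two_fz` : the functional of `lt j` is finer than the frozen functional (101's `Two`, 683's `TwoK`).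
* **`hc_fz_down`** : `H((fz k' k).cell i b | lt k, mtr j b) ≤ c √P(Bad)`.
* **`hc_fzS_down`** : the digits of the slope of the later step.
* **`hc_fzE_down`** : cell and `LTh` of the later step, given `(pf k, mtr j b)`: all exceptional events.
-/

set_option autoImplicit false

namespace Vale.Agent.P106.U.H958

open Finset Vale.Agent.P127 Vale.Agent.P127.Stk Vale.Agent.P106.U.Cell
open Vale.Agent.P106.U.H785.Mtr
open Vale.Agent.P127.U.CellD (q2 rd Nb q2_pos q2_add q2_le q2_mul_pow fl1_fl1 rd_err rd_sub)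

variable {Ω π : Type} {D : Mtd Ω π} {k' k i j b : ℕ} {ω ω' : Ω} {K : ℝ} {I : Set ℕ}

/-- the functional of the letter `lt j` against the frozen functional, at the time of the step `j` -/
lemma agr_fz (h1 : 1 ≤ K) (h : D.Hy K I ω) (hk : k ∈ I) (hj : j ∈ I) (hkj : k ≤ j) (n : ℕ)
    {G : Fu} (hG : G.ga = D.gaL j (D.lt j ω) ∧ G.ka = D.kaL j (D.lt j ω) ∧ G.al = D.g j ω)
    (F : Fu) (hF : F.cN (D.l ω) (D.s j ω) = D.cNL k ω ∧ F.ka = D.kaL k (D.lt k ω) - (D.s j ω - D.s k ω) * D.g k ω ∧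
      F.al = D.g k ω) (hn : n = D.a j) :
    Pth.Agr (8 * K) (D.rr k) n F G (D.l ω) (D.s j ω) := by
  obtain ⟨g1, g2, g3⟩ := hG
  obtain ⟨f1, f2, f3⟩ := hF
  have K0 : 0 < K := by linarith
  have Iq : 0 < q2 (D.rr k) := q2_pos _
  have m := Mtd.rr_mono D hkj
  have rl := Mtd.rr_le D k
  have rl' : q2 (D.rk j) ≤ q2 (D.rk k) := q2_le (D.hk hkj)
  have hqa : q2 (D.a j) ≤ q2 (D.a k) := q2_le (D.ha hkj)
  refine ⟨?_, ?_, ?_⟩
  · have eG : G.cN (D.l ω) (D.s j ω) = D.cNL j ω := by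
      unfold Fu.cN Mtd.cNL
      rw [g1, g2, g3]
    rw [eG, f1]
    have e1 := Mtd.cN_near h1 h hk
    have e2 := Mtd.cN_near h1 h hj
    have e3 : 4 * K * q2 (D.rr j) ≤ 4 * K * q2 (D.rr k) := mul_le_mul_of_nonneg_left m (by linarith)
    rw [abs_le] at e1 e2 ⊢
    constructor <;> linarith [e1.1, e1.2, e2.1, e2.2]
  · rw [g2, f2]
    have e1 := Mtd.ka_near D k ω
    have e2 := Mtd.ka_near D j ω
    have e3 := h.ka _ hk _ hj hkj
    have e4 : K * q2 (D.rk k) ≤ K * q2 (D.rr k) := mul_le_mul_of_nonneg_left rl K0.le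
    have e5 : q2 (D.rr k) ≤ K * q2 (D.rr k) := by nlinarith
    rw [abs_le] at e1 e2 e3 ⊢
    constructor <;> linarith [e1.1, e1.2, e2.1, e2.2, e3.1, e3.2]
  · rw [g3, f3, hn]
    have e1 := h.ap _ hk
    have e2 := h.ap _ hj
    have e3 := h.aa _ hk _ hj hkj
    have e4 : K * q2 (D.rk k) ≤ K * q2 (D.rr k) := mul_le_mul_of_nonneg_left rl K0.le
    have e5 : K * q2 (D.rk j) ≤ K * q2 (D.rk k) := mul_le_mul_of_nonneg_left rl' K0.le
    have e6 : |D.g j ω - D.g k ω| ≤ |D.al j ω - D.g j ω| + |D.al j ω - D.al k ω| + |D.al k ω - D.g k ω| := by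
      have : D.g j ω - D.g k ω = -(D.al j ω - D.g j ω) + (D.al j ω - D.al k ω) + (D.al k ω - D.g k ω) := by ring
      rw [this]
      refine (abs_add_le _ _).trans (add_le_add ((abs_add_le _ _).trans (add_le_add ?_ le_rfl)) le_rfl)
      rw [abs_neg]
    have e7 := mul_le_mul_of_nonneg_right e6 (q2_pos (D.a j)).le
    have e8 : |D.al k ω - D.g k ω| * q2 (D.a j) ≤ |D.al k ω - D.g k ω| * q2 (D.a k) :=
      mul_le_mul_of_nonneg_left hqa (abs_nonneg _)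
    nlinarith

/-- the frozen functional moved to the time of the step `j` -/
lemma fz_sh (D : Mtd Ω π) (k' k i j : ℕ) (ω : Ω) :
    (((D.fz k' k).F i ω).sh (D.s j ω - (D.fz k' k).s i ω)).cN (D.l ω) (D.s j ω) = D.cNL k ω ∧
    (((D.fz k' k).F i ω).sh (D.s j ω - (D.fz k' k).s i ω)).ka =
      D.kaL k (D.lt k ω) - (D.s j ω - D.s k ω) * D.g k ω ∧
    (((D.fz k' k).F i ω).sh (D.s j ω - (D.fz k' k).s i ω)).al = D.g k ω := by
  refine ⟨?_, ?_, Mtd.fz_al D k' k i ω⟩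
  · have h := Fu.cN_sh ((D.fz k' k).F i ω) (D.l ω) ((D.fz k' k).s i ω) (D.s j ω - (D.fz k' k).s i ω)
    rw [add_sub_cancel] at h
    rw [h]
    exact Mtd.fz_cN D k' k i ω
  · show ((D.fz k' k).F i ω).ka - (D.s j ω - (D.fz k' k).s i ω) * ((D.fz k' k).F i ω).al = _
    rw [Mtd.fz_ka, Mtd.fz_al]
    ring

lemma fz_rk' (hk' : k' ≤ k) (hki : k ≤ i) : (D.fz k' k).rk i = D.rr k := Mtd.fz_rk D (hk'.trans hki) hki

/-- **the frozen path and the path of two letters** -/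
lemma two_fz (h1 : 1 ≤ K) (h : D.Hy K I ω) (hk : k ∈ I) (hj : j ∈ I) (hk' : k' ≤ k) (hki : k ≤ i) (hij : i ≤ j)
    (hkj : k ≤ j) : H101.Two (D.fz k' k) (D.p2 k j hkj) (8 * K) i 1 ω := by
  constructor
  · rw [fz_rk' hk' hki]
    exact agr_fz h1 h hk hj hkj _ (G := (D.p2 k j hkj).F 1 ω) ⟨rfl, rfl, rfl⟩ _ (fz_sh D k' k i j ω) rfl
  · show |(D.fz k' k).s i ω - D.s j ω| ≤ q2 ((D.fz k' k).a i)
    rw [Mtd.fz_s D (hk'.trans hki), Mtd.fz_a' D (hk'.trans hki), abs_sub_comm]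
    exact rd_sub (D.ha hij) _

/-- the same, 683's form -/
lemma twoK_fz (h1 : 1 ≤ K) (h : D.Hy K I ω) (hk : k ∈ I) (hj : j ∈ I) (ha : D.a k' = D.a k) (i : ℕ)
    (hkj : k ≤ j) : H683.TwoK (D.p2 k j hkj) (D.fz k' k) (8 * K) 1 i (D.rr k) ω :=
  ⟨rfl, rfl, rfl, Mtd.fz_ok h1 h hk ha,
    agr_fz h1 h hk hj hkj _ (G := (D.p2 k j hkj).F 1 ω) ⟨rfl, rfl, rfl⟩ _ (fz_sh D k' k i j ω) rfl⟩

/-- equal letters and equal later times: equal letters of the frozen path -/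
lemma fz_T_of (hk' : k' ≤ k) (hki : k ≤ i) (hij : i ≤ j) (e1 : D.lt k ω = D.lt k ω')
    (e2 : D.mtr j b ω = D.mtr j b ω') : (D.fz k' k).T i ω = (D.fz k' k).T i ω' := by
  refine Prod.ext e1 ?_
  show fl1 (D.a (max i k')) (D.t ω) = fl1 (D.a (max i k')) (D.t ω')
  rw [max_eq_left (hk'.trans hki)]
  exact fl1_fl1 (D.ha hij) (congrArg (fun x : Lt π × Pth.Dg => x.1.1) e2)

/-- levels of the three steps -/
structure Dz (D : Mtd Ω π) (K : ℝ) (I : Set ℕ) (k' k i j b : ℕ) : Prop where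
  K1 : 1 ≤ K
  hk : k ∈ I
  hj : j ∈ I
  kk : k' ≤ k
  ak : D.a k' = D.a k
  ki : k ≤ i
  ij : i ≤ j
  a : D.a i + 2 * D.μ ≤ D.a j
  b8 : 8 * D.μ ≤ b
  R8 : 8 * D.μ ≤ (D.fz k' k).R i b
  R : (D.fz k' k).R i b + D.μ ≤ D.R j b

lemma p2_ok (h1 : 1 ≤ K) (h : D.Hy K I ω) (hk : k ∈ I) (hj : j ∈ I) (hkj : k ≤ j) :
    (D.p2 k j hkj).Ok (8 * K) ω := by
  refine Mtd.pa_ok h1 h fun n => ?_
  unfold Mtd.tw
  split_ifs
  · exact hk
  · exact hj

lemma p2_R1 (hkj : k ≤ j) : (D.p2 k j hkj).R 1 b = D.R j b := by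
  rw [Pth.R_eq]
  rfl

variable [Fintype Ω]

/-- **the cell of the frozen path at a later step, given the letter and a still later `mtr`** -/
theorem hc_fz_down (P : Law Ω) (H : Dz D K I k' k i j b) (hy : ∀ ω, 0 < P.w ω → D.Hy K I ω) :
    hc P ((D.fz k' k).cell i b) (fun ω => (D.lt k ω, D.mtr j b ω)) ≤
      (6 + 10 * Real.log (2 * ⌈480 * (8 * K) ^ 7⌉₊ + 3)) *
        Real.sqrt (prE P ((D.fz k' k).Bad (640 * (8 * K) ^ 7) i b)) := by
  have hkj := H.ki.trans H.ij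
  have K1 := H.K1
  refine H420.hc_two P (D.fz k' k) (D.p2 k j hkj) (i2 := 1) (b2 := b) (by linarith) rfl rfl
    (fun ω p => Mtd.fz_ok K1 (hy ω p) H.hk H.ak) (fun ω p => p2_ok K1 (hy ω p) H.hk H.hj hkj) rfl ?_
    (fun ω p => two_fz K1 (hy ω p) H.hk H.hj H.kk H.ki H.ij hkj) ⟨H.b8, H.R8⟩ ⟨H.b8, ?_⟩ le_rfl ?_ ?_ _ ?_ ?_
  · rw [Mtd.fz_rf D (H.kk.trans H.ki)]
    exact D.hf H.ij
  · rw [p2_R1]
    have := H.R8
    have := H.R
    show 8 * D.μ ≤ D.R j b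
    omega
  · rw [Mtd.fz_a' D (H.kk.trans H.ki)]
    show D.a i + b + 2 * D.μ ≤ D.a j + b
    have := H.a
    omega
  · rw [p2_R1]
    exact H.R
  · intro ω ω' _ _ e
    simp only [Prod.mk.injEq] at e
    exact fz_T_of H.kk H.ki H.ij e.1 e.2
  · intro ω ω' _ _ e
    simp only [Prod.mk.injEq] at e
    exact (D.p2_cell1_iff k j hkj b ω ω').2 e

/-- **the digits of the slope at the later step, in the frozen frame** -/
theorem hc_fzS_down (P : Law Ω) (H : Dz D K I k' k i j b) (hy : ∀ ω, 0 < P.w ω → D.Hy K I ω)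
    (hR : D.rf i + 4 * D.μ ≤ D.R j b) (hr : D.rf i + 4 * D.μ ≤ D.rr k + b) :
    hc P (fun ω => fl1 (D.rf i) (H683.slR (D.fz k' k) i b ω + D.o 4)) (fun ω => (D.lt k ω, D.mtr j b ω)) ≤
      (2 + Real.log (2 * ⌈64 * (8 * K) ^ 6⌉₊ + 3)) *
        Real.sqrt (prE P (H683.Badf (D.fz k' k) (8 * K) i b (D.rf i) (D.rf i + D.μ))) := by
  have hkj := H.ki.trans H.ij
  have K1 := H.K1
  have h := H683.hc_fix (C := D.p2 k j hkj) (C0 := D.fz k' k) (K := 8 * K) (r := D.rr k) (k0 := i) (b0 := b)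
    (b := b) P (i := 1) (fun ω p => p2_ok K1 (hy ω p) H.hk H.hj hkj)
    (fun ω p => twoK_fz K1 (hy ω p) H.hk H.hj H.ak i hkj) ?_ ?_ H.b8 (E := D.rf i + D.μ) (n := D.rf i) ?_ ?_
    (by omega) (M := ⌈64 * (8 * K) ^ 6⌉₊) (Nat.le_ceil _)
  · refine le_trans (le_of_eq ?_) h
    refine hc_congr P (fun ω ω' _ _ e => congrArg Prod.fst e) (fun ω ω' _ _ e => congrArg Prod.fst e) ?_ ?_
    · intro ω ω' _ _ e
      have e2 := (D.p2_cell1_iff k j hkj b ω ω').1 e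
      exact Prod.ext e2.1 e2.2
    · intro ω ω' _ _ e
      simp only [Prod.mk.injEq] at e
      exact (D.p2_cell1_iff k j hkj b ω ω').2 e
  · intro x y _ _ e
    have e2 := (D.p2_cell1_iff k j hkj b x y).1 e
    exact fz_T_of H.kk H.ki H.ij e2.1 e2.2
  · unfold Pth.bs
    omega
  · rw [p2_R1]
    show D.rf i + D.μ + 3 * D.μ ≤ D.R j b
    omega
  · show D.rf i + D.μ + 3 * D.μ ≤ D.rr k + b
    omega

omit [Fintype Ω] in
/-- levels of the steps `k`, `j` (122's `Dn`) -/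
lemma Dz.dn (H : Dz D K I k' k i j b) (hR8 : 8 * D.μ ≤ D.R k b) (hν : D.rk k + D.ν ≤ D.rk j) :
    H122.Dn D K I k j b := by
  refine ⟨H.K1, H.hk, H.hj, H.ki.trans H.ij, ?_, hν, ?_, H.b8, hR8⟩
  · have := D.ha H.ki
    have := H.a
    omega
  · have h1 := H.R
    have h2 : D.R k b ≤ (D.fz k' k).R i b := by
      rw [Pth.R_eq, fz_rk' H.kk H.ki, Mtd.fz_rf D (H.kk.trans H.ki)]
      have := D.hf H.ki
      unfold Mtd.R
      omega
    omega

/-- the constants of `hc_fzE_down` -/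
noncomputable def cZ1 (K : ℝ) : ℝ := 6 + 10 * Real.log (2 * ⌈480 * (8 * K) ^ 7⌉₊ + 3)

noncomputable def cZ2 (K : ℝ) : ℝ := 2 + Real.log (2 * ⌈64 * (8 * K) ^ 6⌉₊ + 3)

noncomputable def cZ3 (M : ℕ) : ℝ := 6 + 3 * Real.log ((2 * M + 3 : ℕ) : ℝ)

open Classical in
/-- **cell and letter of the later step of the frozen path, given the prefix and a still later `mtr`** -/
theorem hc_fzE_down (P : Law Ω) (H : Dz D K I k' k i j b) (hR8 : 8 * D.μ ≤ D.R k b) (hν : D.rk k + D.ν ≤ D.rk j)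
    (hy : ∀ ω, 0 < P.w ω → D.Hy K I ω) {M : ℕ} (hM : 641 * K ^ 2 ≤ M)
    (hS : D.rf i ≤ b + D.rr k → D.rf i + 4 * D.μ ≤ D.R j b ∧ D.rf i + 4 * D.μ ≤ D.rr k + b) :
    hc P (fun ω => ((D.fz k' k).cell i b ω, S3.LTh (D.fz k' k) b i ω)) (fun ω => (D.pf k ω, D.mtr j b ω)) ≤
      cZ1 K * Real.sqrt (prE P ((D.fz k' k).Bad (640 * (8 * K) ^ 7) i b)) +
      cZ2 K * Real.sqrt (prE P (H683.Badf (D.fz k' k) (8 * K) i b (D.rf i) (D.rf i + D.μ))) +
      cZ3 M * Real.sqrt (prE P (H122.BdI D K k j b (H.ki.trans H.ij))) := by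
  have a1 := hc_fz_down P H hy
  have a3 := H122.hc_lt_down P (H.dn hR8 hν) hy hM
  set Y : Ω → π × (Lt π × Pth.Dg) := fun ω => (D.pf k ω, D.mtr j b ω) with hY
  set S : Ω → ℤ := fun ω => if D.rf i ≤ b + D.rr k then fl1 (D.rf i) (H683.slR (D.fz k' k) i b ω + D.o 4) else 0
    with hSd
  have a2 : hc P S (fun ω => (D.lt k ω, D.mtr j b ω)) ≤
      cZ2 K * Real.sqrt (prE P (H683.Badf (D.fz k' k) (8 * K) i b (D.rf i) (D.rf i + D.μ))) := by
    by_cases h : D.rf i ≤ b + D.rr k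
    · have e := hc_fzS_down P H hy (hS h).1 (hS h).2
      have e2 : S = fun ω => fl1 (D.rf i) (H683.slR (D.fz k' k) i b ω + D.o 4) := by
        funext ω
        rw [hSd]
        simp only [h, if_true]
      rw [e2]
      exact e
    · have e2 : hc P S (fun ω => (D.lt k ω, D.mtr j b ω)) = 0 := by
        refine hc_zero P ?_
        intro ω ω' _ _ _
        rw [hSd]
        simp only [h, if_false]
      rw [e2]
      have h0 : 0 ≤ cZ2 K := by
        unfold cZ2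
        have : 0 ≤ Real.log (2 * ⌈64 * (8 * K) ^ 6⌉₊ + 3) := Real.log_nonneg (by
          have : (0 : ℝ) ≤ (⌈64 * (8 * K) ^ 6⌉₊ : ℝ) := Nat.cast_nonneg _
          linarith)
        linarith
      exact mul_nonneg h0 (Real.sqrt_nonneg _)
  -- the pair, given the letter
  have b1 := hc_le_add' P (fun ω => ((D.fz k' k).cell i b ω, S3.LTh (D.fz k' k) b i ω)) (D.lt k) Y
  have b2 : hc P (fun ω => ((D.fz k' k).cell i b ω, S3.LTh (D.fz k' k) b i ω)) (fun ω => (D.lt k ω, Y ω)) ≤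
      hc P (fun ω => ((D.fz k' k).cell i b ω, S ω)) (fun ω => (D.lt k ω, D.mtr j b ω)) := by
    refine (hc_mono_left P (X' := fun ω => ((D.fz k' k).cell i b ω, S ω)) ?_).trans (hc_mono_right P _ ?_)
    · intro ω ω' _ _ e
      simp only [Prod.mk.injEq] at e
      obtain ⟨⟨e1, e2⟩, _⟩ := e
      refine Prod.ext e1 ?_
      have eT : (D.fz k' k).T i ω = (D.fz k' k).T i ω' := congrArg Prod.fst e1
      refine Prod.ext eT ?_
      show (if (D.fz k' k).rf i ≤ b + (D.fz k' k).rk i then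
          fl1 ((D.fz k' k).rf i) (H683.slR (D.fz k' k) i b ω + (D.fz k' k).o 4) else 0) =
        (if (D.fz k' k).rf i ≤ b + (D.fz k' k).rk i then
          fl1 ((D.fz k' k).rf i) (H683.slR (D.fz k' k) i b ω' + (D.fz k' k).o 4) else 0)
      rw [Mtd.fz_rf D (H.kk.trans H.ki), fz_rk' H.kk H.ki]
      exact e2
    · intro ω ω' _ _ e
      simp only [Prod.mk.injEq, hY] at e ⊢
      exact ⟨e.1, e.2.2⟩
  have b3 := hc_pair P ((D.fz k' k).cell i b) S (fun ω => (D.lt k ω, D.mtr j b ω))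
  have b4 : hc P S (fun ω => ((D.fz k' k).cell i b ω, (D.lt k ω, D.mtr j b ω))) ≤
      hc P S (fun ω => (D.lt k ω, D.mtr j b ω)) :=
    hc_mono_right P _ fun _ _ _ _ e => congrArg Prod.snd e
  have b5 : hc P (D.lt k) Y ≤ cZ3 M * Real.sqrt (prE P (H122.BdI D K k j b (H.ki.trans H.ij))) := a3
  have b6 : hc P ((D.fz k' k).cell i b) (fun ω => (D.lt k ω, D.mtr j b ω)) ≤
    cZ1 K * Real.sqrt (prE P ((D.fz k' k).Bad (640 * (8 * K) ^ 7) i b)) := a1
  linarith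

end Vale.Agent.P106.U.H958
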