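import Vale.Agent.P106.U.H958.FzD
import Vale.Agent.P106.U.H624.JunR

/-!
# P106 / U / H958 : the letter of an earlier step given a later `mtr`, over the record (helper958)

* `Sl`, `Sl.kappa`, `Sl.gamma` : 122's `Sm.kappa`, `Sm.gamma` from the later LETTER only.
* `bad_p2` : the exceptional event of the path of two letters at the first step = that of the frozen path at its step.
* **`hc_lt0_down`** : kind deep phi: the letter `(mt0 ..).lt k` given `(F.pf k, (mt0 ..).mtr j b)`, exceptional events at the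
  precision `rk` of the cap (`offL`).
-/

set_option autoImplicit false

namespace Vale.Agent.P106.U.H958

open Finset Vale.Agent.P127 Vale.Agent.P127.Stk Vale.Agent.P106.U.Cell
open Vale.Agent.P106.U.H785.Mtr
open Vale.Agent.P127.U.CellD (q2 rd Nb q2_pos q2_add q2_le q2_mul_pow fl1_fl1 rd_err rd_sub)

section letters

variable {Ω π : Type} {D : Mtd Ω π} {i j k b : ℕ} {ω ω' : Ω} {K : ℝ} {I : Set ℕ}

/-- two points with the same later letter and the same prefix -/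
structure Sl (D : Mtd Ω π) (K : ℝ) (I : Set ℕ) (i j : ℕ) (ω ω' : Ω) : Prop where
  K1 : 1 ≤ K
  hi : i ∈ I
  hj : j ∈ I
  ij : i ≤ j
  k : D.rk i + D.ν ≤ D.rk j
  h : D.Hy K I ω
  h' : D.Hy K I ω'
  pf : D.pf i ω = D.pf i ω'
  e : D.lt j ω = D.lt j ω'

namespace Sl

lemma g (S : Sl D K I i j ω ω') : D.g i ω' = D.g i ω := by
  unfold Mtd.g
  rw [S.pf]

lemma tj (S : Sl D K I i j ω ω') : fl1 (D.a j) (D.t ω) = fl1 (D.a j) (D.t ω') := congrArg (fun x : Lt π => x.1) S.e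

lemma kj (S : Sl D K I i j ω ω') : D.kN j ω = D.kN j ω' := congrArg (fun x : Lt π => x.2.2.1) S.e

lemma uj (S : Sl D K I i j ω ω') : D.uN j ω = D.uN j ω' := congrArg (fun x : Lt π => x.2.2.2.1) S.e

lemma nj (S : Sl D K I i j ω ω') : D.nN j ω = D.nN j ω' := congrArg (fun x : Lt π => x.2.2.2.2) S.e

lemma ti (S : Sl D K I i j ω ω') : fl1 (D.a i) (D.t ω) = fl1 (D.a i) (D.t ω') := fl1_fl1 (D.ha S.ij) S.tj

lemma rr (S : Sl D K I i j ω ω') : q2 (D.rr j) ≤ q2 (D.rk i) := q2_le (by have := S.k; unfold Mtd.rr; omega)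

/-- kappa -/
lemma kappa (S : Sl D K I i j ω ω') : |D.κ i ω' - D.κ i ω| ≤ 3 * K * q2 (D.rk i) := by
  have e1 := S.h.ka i S.hi j S.hj S.ij
  have e2 := S.h'.ka i S.hi j S.hj S.ij
  rw [H122.s_of S.tj, H122.s_of S.ti, S.g] at e2
  have e3 : |D.κ j ω' - D.κ j ω| ≤ q2 (D.rr j) := H122.off_near S.kj
  have e4 := S.rr
  have K1 := S.K1
  have q := q2_pos (D.rk i)
  rw [abs_le] at e1 e2 e3 ⊢
  have : q2 (D.rk i) ≤ K * q2 (D.rk i) := by nlinarith
  constructor <;> linarith [e1.1, e1.2, e2.1, e2.2, e3.1, e3.2]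

/-- gamma -/
lemma gamma (S : Sl D K I i j ω ω') (hn : D.nN i ω = D.nN i ω') : |D.u i ω' - D.u i ω| ≤ 19 * K * q2 (D.rk i) := by
  have K1 := S.K1
  have K0 : 0 < K := by linarith
  set r := q2 (D.rk i) with hr
  have r0 : 0 < r := q2_pos _
  set σ := D.s j ω - D.s i ω with hσ
  have hs : |σ| ≤ q2 (D.a i) := by
    have := rd_sub (D.ha S.ij) (D.t ω)
    exact this
  have sj := H122.s_of S.tj
  have si := H122.s_of S.ti
  have hNi : D.Nr i ω' = D.Nr i ω := by unfold Mtd.Nr; rw [hn]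
  have hNj : D.Nr j ω' = D.Nr j ω := by unfold Mtd.Nr; rw [S.nj]
  -- the identity
  have id : ∀ x : Ω, D.s j x = D.s j ω → D.s i x = D.s i ω →
      D.u i x - D.u j x = (D.κ i x - D.κ j x - σ * D.g i x) * (D.l x).w +
        (D.g i x - D.al i x) * σ * (D.l x).w + (D.al i x - D.al j x) * ((D.l x).N (D.s j x) - D.Nr j x) +
        D.al i x * (D.Nr j x - D.Nr i x) := by
    intro x h1 h2
    unfold Mtd.u
    have : (D.l x).N (D.s i x) = (D.l x).N (D.s j x) - σ * (D.l x).w := by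
      rw [h1, h2, hσ]
      unfold Ray.N
      ring
    rw [this]
    ring
  have E1 := id ω rfl rfl
  have E2 := id ω' sj si
  -- bounds of the terms
  have A1 : ∀ x : Ω, D.Hy K I x → D.s j x = D.s j ω → D.s i x = D.s i ω →
      |(D.κ i x - D.κ j x - σ * D.g i x) * (D.l x).w| ≤ 2 * K * r := by
    intro x hx h1 h2
    have t := hx.ka i S.hi j S.hj S.ij
    rw [h1, h2] at t
    rw [abs_mul]
    calc _ ≤ K * r * 2 := mul_le_mul t hx.w1 (abs_nonneg _) (by positivity)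
      _ = _ := by ring
  have A2 : ∀ x : Ω, D.Hy K I x → |(D.g i x - D.al i x) * σ * (D.l x).w| ≤ 2 * K * r := by
    intro x hx
    have t := hx.ap i S.hi
    rw [abs_mul, abs_mul, abs_sub_comm]
    have t2 : |D.al i x - D.g i x| * |σ| ≤ K * r := (mul_le_mul_of_nonneg_left hs (abs_nonneg _)).trans t
    calc _ ≤ K * r * 2 := mul_le_mul t2 hx.w1 (abs_nonneg _) (by positivity)
      _ = _ := by ring
  have A3 : ∀ x : Ω, D.Hy K I x → |(D.al i x - D.al j x) * ((D.l x).N (D.s j x) - D.Nr j x)| ≤ K * r := by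
    intro x hx
    have t := hx.aa i S.hi j S.hj S.ij
    rw [abs_mul, abs_sub_comm (D.al i x)]
    exact (mul_le_mul_of_nonneg_left (Mtd.Nr_near D j x) (abs_nonneg _)).trans t
  have A4 : |(D.al i ω' - D.al i ω) * (D.Nr j ω - D.Nr i ω)| ≤ 8 * K * r := by
    have t1 := S.h.ap i S.hi
    have t2 := S.h'.ap i S.hi
    rw [S.g] at t2
    have t3 : |D.al i ω' - D.al i ω| * q2 (D.a i) ≤ 2 * K * r := by
      have e : D.al i ω' - D.al i ω = (D.al i ω' - D.g i ω) - (D.al i ω - D.g i ω) := by ring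
      rw [e]
      have := mul_le_mul_of_nonneg_right (abs_sub (D.al i ω' - D.g i ω) (D.al i ω - D.g i ω)) (q2_pos (D.a i)).le
      linarith
    have t4 : |D.Nr j ω - D.Nr i ω| ≤ 4 * q2 (D.a i) := by
      have n1 := Mtd.Nr_near D j ω
      have n2 := Mtd.Nr_near D i ω
      have n3 : q2 (D.a j) ≤ q2 (D.a i) := q2_le (D.ha S.ij)
      have n4 : (D.l ω).N (D.s i ω) = (D.l ω).N (D.s j ω) - σ * (D.l ω).w := by
        rw [hσ]
        unfold Ray.N
        ring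
      have n5 : |σ * (D.l ω).w| ≤ 2 * q2 (D.a i) := by
        rw [abs_mul, mul_comm 2]
        exact mul_le_mul hs S.h.w1 (abs_nonneg _) (q2_pos _).le
      rw [n4] at n2
      rw [abs_le] at n1 n2 n5 ⊢
      constructor <;> linarith [n1.1, n1.2, n2.1, n2.2, n5.1, n5.2]
    rw [abs_mul]
    calc _ ≤ |D.al i ω' - D.al i ω| * (4 * q2 (D.a i)) := mul_le_mul_of_nonneg_left t4 (abs_nonneg _)
      _ = 4 * (|D.al i ω' - D.al i ω| * q2 (D.a i)) := by ring
      _ ≤ 4 * (2 * K * r) := by linarith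
      _ = _ := by ring
  have B1 := A1 ω S.h rfl rfl
  have B1' := A1 ω' S.h' sj si
  have B2 := A2 ω S.h
  have B2' := A2 ω' S.h'
  have B3 := A3 ω S.h
  have B3' := A3 ω' S.h'
  have e5 : |D.u j ω' - D.u j ω| ≤ q2 (D.rr j) := H122.off_near S.uj
  have e6 : q2 (D.rr j) ≤ r := S.rr
  have e7 : r ≤ K * r := by nlinarith
  rw [hNi, hNj] at E2
  have E4 : D.al i ω' * (D.Nr j ω - D.Nr i ω) = D.al i ω * (D.Nr j ω - D.Nr i ω) +
      (D.al i ω' - D.al i ω) * (D.Nr j ω - D.Nr i ω) := by ring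
  rw [hNj] at B3'
  rw [abs_le] at *
  constructor <;> linarith [B1.1, B1.2, B1'.1, B1'.2, B2.1, B2.2, B2'.1, B2'.2, B3.1, B3.2, B3'.1, B3'.2, A4.1, A4.2,
    e5.1, e5.2]

end Sl

/-! ### position at the earlier step, from the later cell -/

/-- levels of the steps, without the precision of the line -/
structure Dn0 (D : Mtd Ω π) (K : ℝ) (I : Set ℕ) (i j b : ℕ) : Prop where
  K1 : 1 ≤ K
  hj : j ∈ I
  ij : i ≤ j
  a : D.a i + 2 * D.μ ≤ D.a j
  R8 : 8 * D.μ ≤ D.R j b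
  b8 : 8 * D.μ ≤ b

/-- the rays in the later cell -/
lemma nr0 (H : Dn0 D K I i j b) (h : D.Hy K I ω) (h' : D.Hy K I ω') (e : D.mtr j b ω = D.mtr j b ω') :
    |(D.l ω').w - (D.l ω).w| ≤ 640 * K ^ 2 * q2 (b + 2 * D.μ) ∧
      |(D.l ω').N (D.s j ω) - (D.l ω).N (D.s j ω)| ≤ q2 (D.a j + b - D.μ) := by
  have hL : (D.p1 j).Lev 0 b := by
    refine ⟨H.b8, ?_⟩
    rw [D.p1_R]
    exact H.R8
  have hN := Pth.Nr_of_cell' (K := 8 * K) (by have := H.K1; linarith) (Mtd.pa_ok H.K1 h fun _ => H.hj) hL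
    ((D.p1_cell_iff j 0 b ω ω').2 e)
  refine ⟨hN.w.trans (le_of_eq (by show 10 * (8 * K) ^ 2 * q2 (b + 2 * D.μ) = _; ring)), hN.N⟩

/-- N-position at the earlier step -/
lemma npos0 (H : Dn0 D K I i j b) (h : D.Hy K I ω) (h' : D.Hy K I ω') (e : D.mtr j b ω = D.mtr j b ω') :
    |(D.l ω').N (D.s i ω') - (D.l ω).N (D.s i ω)| ≤ 641 * K ^ 2 * q2 (D.a i + b) := by
  obtain ⟨h1, h2⟩ := nr0 H h h' e
  have K1 := H.K1
  have K2 : 1 ≤ K ^ 2 := one_le_pow₀ K1
  have tj : fl1 (D.a j) (D.t ω) = fl1 (D.a j) (D.t ω') := congrArg (fun x : Lt π × Pth.Dg => x.1.1) e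
  have ti : fl1 (D.a i) (D.t ω) = fl1 (D.a i) (D.t ω') := fl1_fl1 (D.ha H.ij) tj
  have hs : |D.s i ω - D.s j ω| ≤ q2 (D.a i) := by
    rw [abs_sub_comm]
    exact rd_sub (D.ha H.ij) _
  have e : (D.l ω').N (D.s i ω') - (D.l ω).N (D.s i ω) = ((D.l ω').N (D.s j ω) - (D.l ω).N (D.s j ω)) +
      (D.s i ω - D.s j ω) * ((D.l ω').w - (D.l ω).w) := by
    rw [H122.s_of ti]
    unfold Ray.N
    ring
  rw [e]
  have t1 : |(D.s i ω - D.s j ω) * ((D.l ω').w - (D.l ω).w)| ≤ 640 * K ^ 2 * q2 (D.a i + b) := by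
    rw [abs_mul]
    calc _ ≤ q2 (D.a i) * (640 * K ^ 2 * q2 (b + 2 * D.μ)) := mul_le_mul hs h1 (abs_nonneg _) (q2_pos _).le
      _ = 640 * K ^ 2 * (q2 (D.a i) * q2 (b + 2 * D.μ)) := by ring
      _ ≤ _ := by
        refine mul_le_mul_of_nonneg_left ?_ (by positivity)
        rw [← q2_add]
        exact q2_le (by omega)
  have t2 : q2 (D.a j + b - D.μ) ≤ q2 (D.a i + b) := q2_le (by have := H.a; have := H.b8; omega)
  have q := q2_pos (D.a i + b)
  have : q2 (D.a i + b) ≤ K ^ 2 * q2 (D.a i + b) := by nlinarith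
  refine (abs_add_le _ _).trans ?_
  linarith

/-- digits of the N-position, off the exceptional event of the frozen path -/
lemma nN0 (H : Dn0 D K I i j b) (h : D.Hy K I ω) (h' : D.Hy K I ω') (e : D.mtr j b ω = D.mtr j b ω')
    (hB : ¬ (D.fz i i).Bad (640 * (8 * K) ^ 7) i b ω) : D.nN i ω = D.nN i ω' := by
  have h1 := npos0 H h h' e
  have K1 := H.K1
  have hb := H.b8
  have ea : (D.fz i i).a i = D.a i := Mtd.fz_a D le_rfl
  have es : ∀ x, (D.fz i i).s i x = D.s i x := fun x => Mtd.fz_s D le_rfl x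
  have h2 : fl1 (D.a i + b - D.μ) ((D.l ω).N (D.s i ω) + D.o 2) =
      fl1 (D.a i + b - D.μ) ((D.l ω').N (D.s i ω') + D.o 2) := by
    have h3 := Pth.fl_eq (ω' := ω') hB 2 (by
      show |(D.l ω').N ((D.fz i i).s i ω') - (D.l ω).N ((D.fz i i).s i ω)| ≤
        640 * (8 * K) ^ 7 * q2 ((D.fz i i).a i + b - D.μ + D.μ)
      rw [ea, es, es, show D.a i + b - D.μ + D.μ = D.a i + b by omega]
      refine h1.trans (mul_le_mul_of_nonneg_right ?_ (q2_pos _).le)
      have k2 : K ^ 2 ≤ K ^ 7 := pow_le_pow_right₀ K1 (by norm_num)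
      have k3 : (0 : ℝ) ≤ K ^ 7 := by positivity
      calc 641 * K ^ 2 ≤ 641 * K ^ 7 := by linarith
        _ ≤ 640 * 8 ^ 7 * K ^ 7 := by nlinarith
        _ = _ := by ring)
    have h4 : fl1 ((D.fz i i).a i + b - D.μ) ((D.l ω).N ((D.fz i i).s i ω) + D.o 2) =
        fl1 ((D.fz i i).a i + b - D.μ) ((D.l ω').N ((D.fz i i).s i ω') + D.o 2) := h3
    rw [ea, es, es] at h4
    exact h4
  exact fl1_fl1 (by omega) h2

/-! ### exceptional events -/

/-- the exceptional event of the path of two letters at the first step -/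
lemma bad_p2 (D : Mtd Ω π) (i j b : ℕ) (h : i ≤ j) (K' : ℝ) (ω : Ω) :
    (D.p2 i j h).Bad K' 0 b ω ↔ (D.fz i i).Bad K' i b ω := by
  have eF : (D.fz i i).F i ω = (D.p2 i j h).F 0 ω := Mtd.fz_Fk D le_rfl ω
  have ea : (D.fz i i).a i = (D.p2 i j h).a 0 := Mtd.fz_a D le_rfl
  have ef : (D.fz i i).rf i = (D.p2 i j h).rf 0 := Mtd.fz_rf D le_rfl
  have ek : (D.fz i i).rk i = (D.p2 i j h).rk 0 := Mtd.fz_rk D le_rfl le_rfl
  have es : (D.fz i i).s i ω = (D.p2 i j h).s 0 ω := Mtd.fz_s D le_rfl ω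
  have ebs : (D.fz i i).bs i b = (D.p2 i j h).bs 0 b := by
    unfold Pth.bs
    rw [ef, ek]
  have eR : (D.fz i i).R i b = (D.p2 i j h).R 0 b := by
    unfold Pth.R
    rw [ek, ebs]
  have esl : (D.fz i i).sl i b ω = (D.p2 i j h).sl 0 b ω := by
    unfold Pth.sl
    rw [eF, ebs]
    rfl
  have eFr : ∀ m, (D.fz i i).Fr i b m ω = (D.p2 i j h).Fr 0 b m ω := by
    intro m
    unfold Pth.Fr
    rw [eF, esl, ebs]
    rfl
  have elv : (D.fz i i).lv i b = (D.p2 i j h).lv 0 b := by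
    unfold Pth.lv
    rw [ea, eR]
    rfl
  have eva : (D.fz i i).va i b ω = (D.p2 i j h).va 0 b ω := by
    unfold Pth.va
    rw [es, esl, eFr, eR]
    rfl
  unfold Pth.Bad
  rw [elv, eva]
  exact Iff.rfl

end letters

end Vale.Agent.P106.U.H958
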