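import Vale.Agent.P106.U.H958.SI2
import Vale.Agent.P106.U.H425.RowL2

/-!
# P106 / U / H958 : the input (b) of 425's `rowL2_of` (helper958)

* `swl_ev` : 336's set is small.
* **`hsi2 : H425.HSI2`**.
-/

set_option autoImplicit false

namespace Vale.Agent.P106.U.H958

open Finset Vale.Agent.P127 Vale.Agent.P127.Stk
open Vale.Agent.P127.U.CellD (q2 q2_pos)
open Vale.Agent.P106.U.S5 Vale.Agent.P106.U.MIC
open Vale.Agent.P106.U.H652 (Ev3)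
open Vale.Agent.P106.U.H336 (SwL)
open Vale.Agent.P106.U.H683.L2 hiding Dd
open Vale.Agent.P106.U.H364.NwRec

/-- **336's set is small** -/
theorem swl_ev (L : ℕ) (K1 : ℝ) {κ : ℝ} (hκ : 0 < κ) :
    Ev3 fun m B h => ∀ {η : ℝ} {x : ℕ} {σ : Cst} {ε : ℝ} {ρ : Thr} {g : Gv} (s : St η x σ ε ρ g m B h), σ.K1 = K1 →
      (m : ℝ) * (SwL s.R B s.Vs s.Xs L).card ≤ κ * h := by
  have h1 := H336.ev_sw ((L + 1) * (4 + (L + 1) * (2 * K1 + 3))) ((L + 1) * (L + 2)) hκ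
  have h2 : Ev3 fun _ B _ => 1 ≤ B := Ev3.of_B' fun _ => H652.ev_nat 1
  refine h1.mono2 h2 fun m B h g1 hB η x σ ε ρ g s hK => ?_
  have g2 := H336.swl_f2 s.f2 s.run.ok.pth (K1 := K1) (by
    rw [s.run.hq, s.run.hr0, s.run.hh, ← hK]
    exact s.run.qr) L hB
  rw [s.run.hm, s.run.hh] at g2
  exact g2.trans g1

/-- **the input (b) of `rowL2_of`** -/
theorem hsi2 : H425.HSI2 := by
  intro b hb η hη x δh e3 hx hδh he3
  refine ⟨1, one_pos, fun θ hθ _ => ⟨1, one_pos, fun δ1 hδ1 _ σ hσe hσ => ⟨1, one_pos, fun ε hε _ ρ hρ => ?_⟩⟩⟩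
  intro Lk hLk L1 L2 hL1 hL12 κ hκ
  have hK1 := hσ.bs.K10
  have hKr0 : 0 < KrS x ρ.J := Nat.succ_pos _
  have hKrJ : ρ.J * MuS x ≤ KrS x ρ.J :=
    (Nat.mul_le_mul_right (MuS x) (Nat.le_succ ρ.J)).trans (Nat.le_succ _)
  revert hLk hKr0 hKrJ
  generalize KrS x ρ.J = Kr
  intro hLk hKr0 hKrJ
  have hC : 0 ≤ s2C ρ.K σ.K1 L1 (L1 + Kr) := by
    unfold s2C
    have := cF_nn ρ.K
    positivity
  have hKS : 0 ≤ KS ρ := by
    have := hρ.K1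
    unfold KS
    positivity
  have hL2 : 0 < L2 := hL1.trans_le hL12
  refine ⟨s2C ρ.K σ.K1 L1 (L1 + Kr), H513.siD L1 (L1 + Kr), KS ρ, fun m _ => s2X L1 L2 Kr x m, hC,
    H513.siD_nonneg _ _, hKS, ?_⟩
  have w1 := swl_ev (L1 + Kr) σ.K1 hκ
  have w2 := ev_num2 σ hσ ρ x L1 Kr
  refine Suf.of_ev3 fun g _ => ?_
  obtain ⟨m0, H⟩ := (w1.and w2).out
  refine ⟨m0, fun m hm => ?_⟩
  obtain ⟨B0, H⟩ := H m hm
  refine ⟨B0, fun B hB => ?_⟩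
  obtain ⟨h0, H⟩ := H B hB
  refine ⟨h0, fun h hh s => ?_⟩
  obtain ⟨H1, H2, H3, H4, H5, H6⟩ := H h hh
  refine ⟨SwL s.R B s.Vs s.Xs (L1 + Kr), H1 s rfl, fun Sw hSw => ?_⟩
  exact si2_st hσ hρ s H2 H3 H4 H5 hL2 hKrJ hKr0 hLk le_rfl H6 hSw

end Vale.Agent.P106.U.H958
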