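import Vale.Agent.P106.U.H958.HSI2
import Vale.Agent.P106.U.H683.L2H
import Vale.Agent.P106.U.H786.HSC2

/-!
# P106 / U / H958 : the row `RowL 2` (composition; helper958)
-/

set_option autoImplicit false

namespace Vale.Agent.P106.U.H958

/-- **the row [L] of kind 2** -/
theorem rowL2 : MIC.RowL 2 := H425.rowL2_of H683.L2.hw2 hsi2 H786.SC.hsc2

end Vale.Agent.P106.U.H958
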