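import Vale.Agent.P106.U.CellE

/-!
# P106 / U / H958 : paths with coarser letters (helper958)

`sub C σ` : the path `C` with the letter of the step `i` replaced by (letter of the step `σ i ≤ i`, time digits of the
step `i`), the functional of the letter `σ i` written at the time of the step `i`, own slope to `rf i` digits; `σ` monotone.

* `sub_F`, `sub_F_eq`, `sub_Ok` : it is a path of the class `2 K`.
* `sub_dg`, `sub_A`, `sub_VZ` : where `σ i = i` nothing changes.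
* `sub_cell_iff` : the cells where `σ i = i`.
* `mix` : the letters `σ` up to the step `n`, the letters of `C` after it; `sub_cell_mix`, **`sub_down`** : the cell of a later
  step of `C` determines the cell of `sub C σ`, outside `Bad`.
-/

set_option autoImplicit false

namespace Vale.Agent.P106.U.H958

open Finset Vale.Agent.P127 Vale.Agent.P127.Stk Vale.Agent.P106.U.Cell
open Vale.Agent.P127.U.CellD (q2 rd Nb q2_pos q2_add q2_le q2_mul_pow fl1_fl1)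

variable {Ω τ : Type}

/-- the path `C` with the letters of the steps `σ i` -/
noncomputable def sub (C : Pth Ω τ) (σ : ℕ → ℕ) (hm : Monotone σ) (hl : ∀ i, σ i ≤ i) : Pth Ω (τ × ℤ) where
  a := C.a
  rf := C.rf
  rk i := C.rk (σ i)
  ha := C.ha
  hf := C.hf
  hk := fun _ _ h => C.hk (hm h)
  hkf := fun i => (C.hk (hl i)).trans (C.hkf i)
  μ := C.μ
  o := C.o
  l := C.l
  t := C.t
  p := C.p
  T i ω := (C.T (σ i) ω, fl1 (C.a i) (C.t ω))
  tm _ θ := θ.2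
  ga i θ := C.ga (σ i) θ.1
  ka i θ := C.ka (σ i) θ.1 - ((θ.2 : ℝ) / 2 ^ C.a i - C.tv (σ i) θ.1) * C.al (σ i) θ.1
  al i θ := C.al (σ i) θ.1
  hT := by
    intro i ω ω' e
    simp only [Prod.mk.injEq] at e ⊢
    exact ⟨Pth.T_mono (hm (Nat.le_succ i)) e.1, fl1_fl1 (C.ha (Nat.le_succ i)) e.2⟩
  htm := fun _ _ => rfl

section basic

variable {C : Pth Ω τ} {σ : ℕ → ℕ} {hm : Monotone σ} {hl : ∀ i, σ i ≤ i} {i j b : ℕ} {ω ω' : Ω} {K : ℝ}

@[simp] lemma sub_a (i : ℕ) : (sub C σ hm hl).a i = C.a i := rfl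
@[simp] lemma sub_rf (i : ℕ) : (sub C σ hm hl).rf i = C.rf i := rfl
@[simp] lemma sub_rk (i : ℕ) : (sub C σ hm hl).rk i = C.rk (σ i) := rfl
@[simp] lemma sub_μ : (sub C σ hm hl).μ = C.μ := rfl
@[simp] lemma sub_o : (sub C σ hm hl).o = C.o := rfl
@[simp] lemma sub_l : (sub C σ hm hl).l = C.l := rfl
@[simp] lemma sub_t : (sub C σ hm hl).t = C.t := rfl
@[simp] lemma sub_p : (sub C σ hm hl).p = C.p := rfl
@[simp] lemma sub_T (i : ℕ) (ω : Ω) : (sub C σ hm hl).T i ω = (C.T (σ i) ω, fl1 (C.a i) (C.t ω)) := rfl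
@[simp] lemma sub_s (i : ℕ) (ω : Ω) : (sub C σ hm hl).s i ω = C.s i ω := rfl

/-- the functional of the step `i`: slab of the step `σ i`, written at the time of the step `i`, more digits of the own slope -/
lemma sub_F (i : ℕ) (ω : Ω) : (sub C σ hm hl).F i ω =
    { (C.F (σ i) ω).sh (C.s i ω - C.s (σ i) ω) with
      ph := (C.F (σ i) ω).ph + (rd (C.rf i) (C.p ω) - rd (C.rf (σ i)) (C.p ω)) *
        (C.F (σ i) ω).cN (C.l ω) (C.s (σ i) ω) } := by
  have h1 : ((sub C σ hm hl).tv i ((sub C σ hm hl).T i ω)) = C.s i ω := Pth.tv_T i ω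
  have h2 : C.tv (σ i) (C.T (σ i) ω) = C.s (σ i) ω := Pth.tv_T (σ i) ω
  have h3 : ((fl1 (C.a i) (C.t ω) : ℤ) : ℝ) / 2 ^ C.a i = C.s i ω := rfl
  have hN := (C.l ω).N_add (C.s (σ i) ω) (C.s i ω - C.s (σ i) ω)
  have hX := (C.l ω).X_add (C.s (σ i) ω) (C.s i ω - C.s (σ i) ω)
  rw [add_sub_cancel] at hN hX
  unfold Pth.F Pth.Fv
  rw [h1]
  simp only [sub_T, sub_l, sub_rf, sub_p, h2]
  ext
  · rfl
  · show rd (C.rf i) (C.p ω) * (C.ga (σ i) (C.T (σ i) ω) -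
        (C.ka (σ i) (C.T (σ i) ω) - ((fl1 (C.a i) (C.t ω) : ℤ) / 2 ^ C.a i - C.tv (σ i) (C.T (σ i) ω)) *
          C.al (σ i) (C.T (σ i) ω)) * (C.l ω).w - C.al (σ i) (C.T (σ i) ω) * (C.l ω).N (C.s i ω)) -
        (C.ka (σ i) (C.T (σ i) ω) - ((fl1 (C.a i) (C.t ω) : ℤ) / 2 ^ C.a i - C.tv (σ i) (C.T (σ i) ω)) *
          C.al (σ i) (C.T (σ i) ω)) * (C.l ω).v - C.al (σ i) (C.T (σ i) ω) * (C.l ω).X (C.s i ω) = _
    rw [h2, h3, hN, hX]
    unfold Fu.cN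
    ring
  · show C.ka (σ i) (C.T (σ i) ω) - ((fl1 (C.a i) (C.t ω) : ℤ) / 2 ^ C.a i - C.tv (σ i) (C.T (σ i) ω)) *
        C.al (σ i) (C.T (σ i) ω) = _
    rw [h2, h3]
    rfl
  · rfl

lemma sub_ga (i : ℕ) (ω : Ω) : ((sub C σ hm hl).F i ω).ga = (C.F (σ i) ω).ga := by rw [sub_F]; rfl

lemma sub_al (i : ℕ) (ω : Ω) : ((sub C σ hm hl).F i ω).al = (C.F (σ i) ω).al := by rw [sub_F]; rfl

lemma sub_ka (i : ℕ) (ω : Ω) : ((sub C σ hm hl).F i ω).ka =
    (C.F (σ i) ω).ka - (C.s i ω - C.s (σ i) ω) * (C.F (σ i) ω).al := by rw [sub_F]; rfl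

/-- the N-coefficient at the ray -/
lemma sub_cN (i : ℕ) (ω : Ω) (d : ℝ) : (((sub C σ hm hl).F i ω).sh d).cN (C.l ω) (C.s i ω + d) =
    (C.F (σ i) ω).cN (C.l ω) (C.s (σ i) ω) := by
  rw [Fu.cN_sh]
  have h := (C.F (σ i) ω).cN_sh (C.l ω) (C.s (σ i) ω) (C.s i ω - C.s (σ i) ω)
  rw [add_sub_cancel] at h
  rw [← h, sub_F]
  rfl

lemma sub_F_eq (h : σ i = i) (ω : Ω) : (sub C σ hm hl).F i ω = C.F i ω := by
  rw [sub_F, h]
  ext
  · rfl
  · show (C.F i ω).ph + _ * _ = _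
    rw [sub_self, zero_mul, add_zero]
  · show (C.F i ω).ka - (C.s i ω - C.s i ω) * _ = _
    rw [sub_self, zero_mul, sub_zero]
  · rfl

/-- **it is a path of the class `2 K`** -/
theorem sub_Ok (hK : C.Ok K ω) : (sub C σ hm hl).Ok (2 * K) ω := by
  have hK0 : 0 ≤ K := by
    have h1 := hK.k1 0
    exact (abs_nonneg _).trans h1
  have hs : ∀ i, |C.s i ω - C.s (σ i) ω| ≤ q2 (C.a (σ i)) := by
    intro i
    rw [abs_sub_comm]
    exact Pth.s_near C (hl i) ω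
  refine ⟨hK.v1, hK.w1, hK.p1, ?_, ?_, ?_, ?_, ?_⟩
  · intro i
    have h := sub_cN (C := C) (σ := σ) (hm := hm) (hl := hl) i ω 0
    rw [Fu.sh_zero, add_zero] at h
    show 1 ≤ 2 * K * ((sub C σ hm hl).F i ω).cN (C.l ω) (C.s i ω)
    rw [h]
    have h2 := hK.n1 (σ i)
    linarith
  · intro i
    have h := sub_cN (C := C) (σ := σ) (hm := hm) (hl := hl) i ω 0
    rw [Fu.sh_zero, add_zero] at h
    show ((sub C σ hm hl).F i ω).cN (C.l ω) (C.s i ω) ≤ 2 * K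
    rw [h]
    have h2 := hK.n2 (σ i)
    linarith
  · intro i
    rw [sub_ka]
    have h2 := hK.k1 (σ i)
    have h3 := hK.a1 (σ i)
    have h4 : |(C.s i ω - C.s (σ i) ω) * (C.F (σ i) ω).al| ≤ K := by
      rw [abs_mul, mul_comm]
      exact (mul_le_mul_of_nonneg_left (hs i) (abs_nonneg _)).trans h3
    calc |(C.F (σ i) ω).ka - (C.s i ω - C.s (σ i) ω) * (C.F (σ i) ω).al| ≤
        |(C.F (σ i) ω).ka| + |(C.s i ω - C.s (σ i) ω) * (C.F (σ i) ω).al| := abs_sub _ _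
      _ ≤ 2 * K := by linarith
  · intro i
    rw [sub_al]
    have h3 := hK.a1 (σ i)
    have h4 : q2 (C.a i) ≤ q2 (C.a (σ i)) := q2_le (C.ha (hl i))
    have h5 := mul_le_mul_of_nonneg_left h4 (abs_nonneg (C.F (σ i) ω).al)
    show |(C.F (σ i) ω).al| * q2 (C.a i) ≤ 2 * K
    linarith
  · intro i j hij
    have hag := hK.ag (σ i) (σ j) (hm hij)
    have hq := q2_pos (C.rk (σ i))
    have hq2 : K * q2 (C.rk (σ i)) ≤ 2 * K * q2 (C.rk (σ i)) := by nlinarith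
    have hc := sub_cN (C := C) (σ := σ) (hm := hm) (hl := hl) i ω (C.s j ω - C.s i ω)
    rw [add_sub_cancel] at hc
    have hc' := sub_cN (C := C) (σ := σ) (hm := hm) (hl := hl) j ω 0
    rw [Fu.sh_zero, add_zero] at hc'
    have hc2 := (C.F (σ i) ω).cN_sh (C.l ω) (C.s (σ i) ω) (C.s (σ j) ω - C.s (σ i) ω)
    rw [add_sub_cancel] at hc2
    refine ⟨?_, ?_, ?_⟩
    · show |((sub C σ hm hl).F j ω).cN (C.l ω) (C.s j ω) -
        (((sub C σ hm hl).F i ω).sh (C.s j ω - C.s i ω)).cN (C.l ω) (C.s j ω)| ≤ _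
      rw [hc, hc', ← hc2]
      exact hag.cN.trans hq2
    · show |((sub C σ hm hl).F j ω).ka - (((sub C σ hm hl).F i ω).ka -
        (C.s j ω - C.s i ω) * ((sub C σ hm hl).F i ω).al)| ≤ 2 * K * q2 (C.rk (σ i))
      rw [sub_ka, sub_ka, sub_al]
      have h1 : |(C.F (σ j) ω).ka - ((C.F (σ i) ω).ka - (C.s (σ j) ω - C.s (σ i) ω) * (C.F (σ i) ω).al)| ≤
          K * q2 (C.rk (σ i)) := hag.ka
      have h2 : |(C.s j ω - C.s (σ j) ω) * ((C.F (σ j) ω).al - (C.F (σ i) ω).al)| ≤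
          K * q2 (C.rk (σ i)) := by
        rw [abs_mul, mul_comm]
        exact (mul_le_mul_of_nonneg_left (hs j) (abs_nonneg _)).trans hag.al
      have e : (C.F (σ j) ω).ka - (C.s j ω - C.s (σ j) ω) * (C.F (σ j) ω).al -
          ((C.F (σ i) ω).ka - (C.s i ω - C.s (σ i) ω) * (C.F (σ i) ω).al -
            (C.s j ω - C.s i ω) * (C.F (σ i) ω).al) =
          ((C.F (σ j) ω).ka - ((C.F (σ i) ω).ka - (C.s (σ j) ω - C.s (σ i) ω) * (C.F (σ i) ω).al)) -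
            (C.s j ω - C.s (σ j) ω) * ((C.F (σ j) ω).al - (C.F (σ i) ω).al) := by ring
      rw [e]
      refine (abs_sub _ _).trans ?_
      linarith
    · show |((sub C σ hm hl).F j ω).al - ((sub C σ hm hl).F i ω).al| * q2 (C.a j) ≤ 2 * K * q2 (C.rk (σ i))
      rw [sub_al, sub_al]
      have h4 : q2 (C.a j) ≤ q2 (C.a (σ j)) := q2_le (C.ha (hl j))
      have h5 := mul_le_mul_of_nonneg_left h4 (abs_nonneg ((C.F (σ j) ω).al - (C.F (σ i) ω).al))
      have h6 : |(C.F (σ j) ω).al - (C.F (σ i) ω).al| * q2 (C.a (σ j)) ≤ K * q2 (C.rk (σ i)) := hag.al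
      linarith

/-! ### the steps with `σ i = i` -/

lemma sub_bs (h : σ i = i) (b : ℕ) : (sub C σ hm hl).bs i b = C.bs i b := by
  unfold Pth.bs
  rw [sub_rf, sub_rk, h]

lemma sub_R (h : σ i = i) (b : ℕ) : (sub C σ hm hl).R i b = C.R i b := by
  unfold Pth.R
  rw [sub_rk, sub_bs h, h]

lemma sub_sl (h : σ i = i) (b : ℕ) (ω : Ω) : (sub C σ hm hl).sl i b ω = C.sl i b ω := by
  unfold Pth.sl
  rw [sub_F_eq h, sub_bs h]
  rfl

lemma sub_Fr (h : σ i = i) (b m : ℕ) (ω : Ω) : (sub C σ hm hl).Fr i b m ω = C.Fr i b m ω := by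
  unfold Pth.Fr
  rw [sub_F_eq h, sub_bs h, sub_sl h]
  rfl

lemma sub_lv (h : σ i = i) (b : ℕ) : (sub C σ hm hl).lv i b = C.lv i b := by
  unfold Pth.lv
  rw [sub_R h]
  rfl

lemma sub_va (h : σ i = i) (b : ℕ) (ω : Ω) : (sub C σ hm hl).va i b ω = C.va i b ω := by
  unfold Pth.va
  rw [sub_R h, sub_sl h]
  simp only [sub_Fr h]
  rfl

lemma sub_dg (h : σ i = i) (b : ℕ) (ω : Ω) : (sub C σ hm hl).dg i b ω = C.dg i b ω := by
  unfold Pth.dg
  rw [sub_lv h, sub_va h]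
  rfl

lemma sub_Lev (h : σ i = i) (b : ℕ) : (sub C σ hm hl).Lev i b ↔ C.Lev i b := by
  unfold Pth.Lev
  rw [sub_R h]
  rfl

lemma sub_Bad (h : σ i = i) (b : ℕ) (K : ℝ) (ω : Ω) : (sub C σ hm hl).Bad K i b ω ↔ C.Bad K i b ω := by
  unfold Pth.Bad
  rw [sub_lv h, sub_va h]
  rfl

/-- the cell of a step with `σ i = i` -/
lemma sub_cell (h : σ i = i) (b : ℕ) (ω : Ω) : (sub C σ hm hl).cell i b ω =
    ((C.T i ω, fl1 (C.a i) (C.t ω)), C.dg i b ω) := by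
  unfold Pth.cell
  rw [sub_dg h, sub_T, h]

lemma sub_cell_iff (h : σ i = i) : (sub C σ hm hl).cell i b ω = (sub C σ hm hl).cell i b ω' ↔
    C.cell i b ω = C.cell i b ω' := by
  rw [sub_cell h, sub_cell h]
  unfold Pth.cell
  simp only [Prod.mk.injEq]
  constructor
  · rintro ⟨⟨h1, _⟩, h3⟩
    exact ⟨h1, h3⟩
  · rintro ⟨h1, h3⟩
    refine ⟨⟨h1, ?_⟩, h3⟩
    rw [← C.htm, ← C.htm, h1]

/-- the nominal positions -/
lemma sub_A (h : σ i = i) (b i' : ℕ) : (sub C σ hm hl).A i b i' = C.A i b i' := by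
  funext ω
  unfold Pth.A
  rw [sub_R h, sub_sl h]
  simp only [sub_Fr h]
  rfl

lemma sub_VZ (i b : ℕ) : (sub C σ hm hl).VZ i b = C.VZ i b := rfl

end basic

/-! ### change of the letters after the step `n` -/

/-- `σ` up to `n`, the identity after `n` -/
def mixS (σ : ℕ → ℕ) (n i : ℕ) : ℕ := if i ≤ n then σ i else i

lemma mixS_mono {σ : ℕ → ℕ} (hm : Monotone σ) (hl : ∀ i, σ i ≤ i) (n : ℕ) : Monotone (mixS σ n) := by
  intro i j h
  unfold mixS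
  split_ifs with h1 h2
  · exact hm h
  · exact (hl i).trans h
  · omega
  · exact h

lemma mixS_le {σ : ℕ → ℕ} (hl : ∀ i, σ i ≤ i) (n i : ℕ) : mixS σ n i ≤ i := by
  unfold mixS
  split_ifs
  · exact hl i
  · exact le_rfl

section mix

variable {C : Pth Ω τ} {σ σ' : ℕ → ℕ} {hm : Monotone σ} {hl : ∀ i, σ i ≤ i} {hm' : Monotone σ'} {hl' : ∀ i, σ' i ≤ i}
  {i j b : ℕ} {ω ω' : Ω} {K : ℝ}

/-- the cell depends on `σ i` only -/
lemma sub_F_congr (h : σ i = σ' i) (ω : Ω) : (sub C σ hm hl).F i ω = (sub C σ' hm' hl').F i ω := by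
  rw [sub_F, sub_F, h]

lemma sub_bs_congr (h : σ i = σ' i) (b : ℕ) : (sub C σ hm hl).bs i b = (sub C σ' hm' hl').bs i b := by
  unfold Pth.bs
  rw [sub_rf, sub_rk, sub_rf, sub_rk, h]

lemma sub_R_congr (h : σ i = σ' i) (b : ℕ) : (sub C σ hm hl).R i b = (sub C σ' hm' hl').R i b := by
  unfold Pth.R
  rw [sub_rk, sub_rk, sub_bs_congr (hm' := hm') (hl' := hl') h, h]

lemma sub_sl_congr (h : σ i = σ' i) (b : ℕ) (ω : Ω) :
    (sub C σ hm hl).sl i b ω = (sub C σ' hm' hl').sl i b ω := by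
  unfold Pth.sl
  rw [sub_F_congr (hm' := hm') (hl' := hl') h, sub_bs_congr (hm' := hm') (hl' := hl') h]
  rfl

lemma sub_Fr_congr (h : σ i = σ' i) (b m : ℕ) (ω : Ω) :
    (sub C σ hm hl).Fr i b m ω = (sub C σ' hm' hl').Fr i b m ω := by
  unfold Pth.Fr
  rw [sub_F_congr (hm' := hm') (hl' := hl') h, sub_bs_congr (hm' := hm') (hl' := hl') h,
    sub_sl_congr (hm' := hm') (hl' := hl') h]
  rfl

lemma sub_lv_congr (h : σ i = σ' i) (b : ℕ) : (sub C σ hm hl).lv i b = (sub C σ' hm' hl').lv i b := by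
  unfold Pth.lv
  rw [sub_R_congr (hm' := hm') (hl' := hl') h]
  rfl

lemma sub_va_congr (h : σ i = σ' i) (b : ℕ) (ω : Ω) :
    (sub C σ hm hl).va i b ω = (sub C σ' hm' hl').va i b ω := by
  unfold Pth.va
  rw [sub_R_congr (hm' := hm') (hl' := hl') h, sub_sl_congr (hm' := hm') (hl' := hl') h]
  simp only [sub_Fr_congr (hm' := hm') (hl' := hl') h]
  rfl

lemma sub_cell_congr (h : σ i = σ' i) (b : ℕ) (ω : Ω) :
    (sub C σ hm hl).cell i b ω = (sub C σ' hm' hl').cell i b ω := by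
  unfold Pth.cell Pth.dg
  rw [sub_lv_congr (hm' := hm') (hl' := hl') h, sub_va_congr (hm' := hm') (hl' := hl') h, sub_T, sub_T, h]
  rfl

lemma sub_Lev_congr (h : σ i = σ' i) (b : ℕ) : (sub C σ hm hl).Lev i b ↔ (sub C σ' hm' hl').Lev i b := by
  unfold Pth.Lev
  rw [sub_R_congr (hm' := hm') (hl' := hl') h]
  rfl

lemma sub_Bad_congr (h : σ i = σ' i) (b : ℕ) (K : ℝ) (ω : Ω) :
    (sub C σ hm hl).Bad K i b ω ↔ (sub C σ' hm' hl').Bad K i b ω := by
  unfold Pth.Bad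
  rw [sub_lv_congr (hm' := hm') (hl' := hl') h, sub_va_congr (hm' := hm') (hl' := hl') h]
  rfl

/-- **the cell of a later step of `C` determines the cell of `sub C σ`**, outside `Bad` -/
theorem sub_down (h1 : 1 ≤ K) (hK : C.Ok K ω) (hK' : C.Ok K ω') (hij : i < j) (hli : (sub C σ hm hl).Lev i b)
    (hlj : C.Lev j b) (ha : C.a i + 2 * C.μ ≤ C.a j) (hR : (sub C σ hm hl).R i b + C.μ ≤ C.R j b)
    (hB : ¬ (sub C σ hm hl).Bad (640 * (2 * K) ^ 7) i b ω) (h : C.cell j b ω = C.cell j b ω') :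
    (sub C σ hm hl).cell i b ω = (sub C σ hm hl).cell i b ω' := by
  have e1 : mixS σ i j = j := by unfold mixS; rw [if_neg (by omega)]
  have e2 : σ i = mixS σ i i := by unfold mixS; rw [if_pos le_rfl]
  have hm2 := mixS_mono hm hl i
  have hl2 := mixS_le hl i
  rw [sub_cell_congr (hm' := hm2) (hl' := hl2) e2, sub_cell_congr (hm' := hm2) (hl' := hl2) e2]
  refine Pth.cell_down (C := sub C (mixS σ i) hm2 hl2) (K := 2 * K) (by linarith) (sub_Ok hK) (sub_Ok hK') hij.le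
    ((sub_Lev_congr e2 b).1 hli) ((sub_Lev e1 b).2 hlj) ha ?_ ?_ ((sub_cell_iff e1).2 h)
  · rw [← sub_R_congr (hm := hm) (hl := hl) e2, sub_R e1]
    exact hR
  · rw [← sub_Bad_congr (hm := hm) (hl := hl) e2]
    exact hB

end mix

end Vale.Agent.P106.U.H958
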